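import Crest.Agent.X212.Pb50.Main
import Crest.Agent.X212.Sep15.Hh
import Crest.Agent.X212.Pj41.Cm
import Crest.Agent.X212.Sm10.DgS
import Crest.Agent.X212.Pb50.Pt
import Crest.Agent.X212.Win39.Rig

-- ▼ part X212/Sm10/Dg0
section

/-!
# Row 212, SW-DEG (helper10), part 0: families of functions that tend to zero

`Nl` : all derivatives tend to `0` in `L²` over the open sets `S i`; `Cn` : uniformly;
`Bb` : uniformly bounded.
-/

set_option autoImplicit false
set_option linter.unusedSectionVars false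
noncomputable section
open scoped Manifold ContDiff Topology InnerProductSpace ENNReal
open MeasureTheory Set Function Filter

namespace Crest.Agent.X212.Sm10.Dg
open An Sw Sob92
open Wz78 (SA)
open Neck67 (Lb)
open Sep15.S (sa_clm aesm)
open Pb50 (Dw_congr sa_D)

variable {E : Type} [NormedAddCommGroup E] [NormedSpace ℝ E] [FiniteDimensional ℝ E]
  [MeasurableSpace E] [BorelSpace E]
  {HM : Type} [TopologicalSpace HM] {I : ModelWithCorners ℝ E HM}
  {M : Type} [TopologicalSpace M] [ChartedSpace HM M] [IsManifold I ∞ M]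
  [MeasurableSpace M] [T2Space M] [BorelSpace M] [SecondCountableTopology M] {ι : Type} [Fintype ι]
  {N N' N'' : Type} [NormedAddCommGroup N] [NormedSpace ℝ N] [NormedAddCommGroup N']
  [NormedSpace ℝ N'] [NormedAddCommGroup N''] [NormedSpace ℝ N'']
  {F : Pre I M ι} {α : Type} {l : Filter α} {S S' S'' : α → Set M} {f f' : α → M → N}
  {g : α → M → N'}

theorem sa_Dw {u : M → N} {x : M} (w : List ι) : ∀ {u : M → N}, SA I u x → SA I (F.Dw w u) x := by
  have _ := u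
  induction w with
  | nil => exact id
  | cons a w ih => exact fun h => ih (sa_D F h a)

theorem Dw_add_on {O : Set M} (hO : IsOpen O) (w : List ι) : ∀ {u v : M → N},
    (∀ x ∈ O, SA I u x) → (∀ x ∈ O, SA I v x) → ∀ x ∈ O,
    F.Dw w (fun y => u y + v y) x = F.Dw w u x + F.Dw w v x := by
  induction w with
  | nil => exact fun _ _ _ _ => rfl
  | cons a w ih =>
    intro u v hu hv x hx
    refine .trans (Dw_congr (F := F) w (g := fun y => F.D a u y + F.D a v y) ?_).self_of_nhds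
      (ih (fun y hy => sa_D F (hu y hy) a) (fun y hy => sa_D F (hv y hy) a) x hx)
    exact Eventually.mono (hO.mem_nhds hx) fun y hy => dv_add (hu y hy).md (hv y hy).md

theorem Dw_on {O : Set M} (hO : IsOpen O) (w : List ι) {u v : M → N} (e : ∀ x ∈ O, u x = v x)
    {x : M} (hx : x ∈ O) : F.Dw w u x = F.Dw w v x :=
  (Dw_congr (F := F) w (Eventually.mono (hO.mem_nhds hx) e)).self_of_nhds

theorem Dw_append (w w' : List ι) (u : M → N) : F.Dw (w ++ w') u = F.Dw w' (F.Dw w u) := by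
  induction w generalizing u with
  | nil => rfl
  | cons a w ih => exact ih _

variable (F) in
/-- the square of the `L²` norm over `O` -/
def I2 (O : Set M) (u : M → N) : ℝ≥0∞ := ∫⁻ x in O, ‖u x‖ₑ ^ 2 ∂F.μ

theorem aem2 {O : Set M} (hO : IsOpen O) {u : M → N} (hu : ∀ x ∈ O, SA I u x) :
    AEMeasurable (fun x => ‖u x‖ₑ ^ 2) (F.μ.restrict O) := (aesm hO hu).enorm.pow_const 2

theorem I2_le {O : Set M} (hO : IsOpen O) {u : M → N} {v : M → N'} {c : ℝ}
    (e : ∀ x ∈ O, ‖u x‖ ≤ c * ‖v x‖) : I2 F O u ≤ ENNReal.ofReal (c ^ 2) * I2 F O v := by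
  rw [I2, I2, ← lintegral_const_mul' _ _ ENNReal.ofReal_ne_top]
  refine setLIntegral_mono' hO.measurableSet fun x hx => ?_
  rw [← ofReal_norm, ← ofReal_norm, ← ENNReal.ofReal_pow (norm_nonneg _),
    ← ENNReal.ofReal_pow (norm_nonneg _), ← ENNReal.ofReal_mul (sq_nonneg _), ← mul_pow]
  exact ENNReal.ofReal_le_ofReal (pow_le_pow_left₀ (norm_nonneg _) (e x hx) 2)

theorem I2_add {O : Set M} (hO : IsOpen O) {u v : M → N} (hu : ∀ x ∈ O, SA I u x) :
    I2 F O (fun x => u x + v x) ≤ 2 * (I2 F O u + I2 F O v) := by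
  rw [I2, I2, I2, ← lintegral_add_left' (aem2 hO hu), ← lintegral_const_mul' _ _ (by simp)]
  refine lintegral_mono fun x => ?_
  refine (pow_le_pow_left' (enorm_add_le _ _) 2).trans ?_
  simpa using ENNReal.rpow_add_le_mul_rpow_add_rpow ‖u x‖ₑ ‖v x‖ₑ (p := 2) one_le_two |>.trans_eq
    (by norm_num)

variable (F l) in
/-- convergence to zero in `L²` -/
structure N0 (S : α → Set M) (f : α → M → N) : Prop where
  sm : ∀ᶠ i in l, IsOpen (S i) ∧ ∀ x ∈ S i, SA I (f i) x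
  z : Tendsto (fun i => I2 F (S i) (f i)) l (𝓝 0)

variable (F l) in
/-- convergence to zero in `L²` with all derivatives -/
def Nl (S : α → Set M) (f : α → M → N) : Prop := ∀ w, N0 F l S fun i => F.Dw w (f i)

variable (F l) in
/-- uniform bounds -/
def Bb (S : α → Set M) (f : α → M → N) : Prop := ∀ k, ∃ C, ∀ᶠ i in l, Lb F (S i) k (f i) C

variable (F l) in
/-- uniform convergence to zero with all derivatives -/
def Cn (S : α → Set M) (f : α → M → N) : Prop := ∀ k, ∀ η > 0, ∀ᶠ i in l, Lb F (S i) k (f i) η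

theorem tendsto_le {a b : α → ℝ≥0∞} (hb : Tendsto b l (𝓝 0)) (h : ∀ᶠ i in l, a i ≤ b i) :
    Tendsto a l (𝓝 0) :=
  tendsto_of_tendsto_of_tendsto_of_le_of_le' tendsto_const_nhds hb
    (.of_forall fun _ => zero_le) h

namespace N0

theorem le (h : N0 F l S g) (hf : ∀ᶠ i in l, ∀ x ∈ S i, SA I (f i) x) {c : ℝ}
    (e : ∀ᶠ i in l, ∀ x ∈ S i, ‖f i x‖ ≤ c * ‖g i x‖) : N0 F l S f :=
  ⟨(h.sm.and hf).mono fun _ hi => ⟨hi.1.1, hi.2⟩,
    tendsto_le (by simpa using ENNReal.Tendsto.const_mul h.z (.inr ENNReal.ofReal_ne_top))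
      ((h.sm.and e).mono fun _ hi => I2_le hi.1.1 hi.2)⟩

theorem congr (h : N0 F l S f) (e : ∀ᶠ i in l, ∀ x ∈ S i, f' i x = f i x) : N0 F l S f' :=
  h.le (c := 1) ((h.sm.and e).mono fun _ hi x hx => (hi.1.2 x hx).congr_of_eventuallyEq
    (Eventually.mono (hi.1.1.mem_nhds hx) hi.2)) (e.mono fun _ hi x hx => by rw [hi x hx, one_mul])

theorem add (h : N0 F l S f) (h' : N0 F l S f') : N0 F l S fun i x => f i x + f' i x :=
  ⟨(h.sm.and h'.sm).mono fun _ hi => ⟨hi.1.1, fun x hx => (hi.1.2 x hx).add (hi.2.2 x hx)⟩,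
    tendsto_le (by simpa using ENNReal.Tendsto.const_mul (a := 2) (h.z.add h'.z) (.inr (by simp)))
      (h.sm.mono fun _ hi => I2_add hi.1 hi.2)⟩

theorem sub (h : N0 F l S f) (e : ∀ᶠ i in l, IsOpen (S' i) ∧ S' i ⊆ S i) : N0 F l S' f :=
  ⟨(h.sm.and e).mono fun _ hi => ⟨hi.2.1, fun x hx => hi.1.2 x (hi.2.2 hx)⟩,
    tendsto_le h.z (e.mono fun _ hi => lintegral_mono_set hi.2)⟩

theorem union (h : N0 F l S f) (h' : N0 F l S' f) : N0 F l (fun i => S i ∪ S' i) f :=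
  ⟨(h.sm.and h'.sm).mono fun _ hi => ⟨hi.1.1.union hi.2.1, fun x hx =>
      hx.elim (hi.1.2 x) (hi.2.2 x)⟩,
    tendsto_le (b := fun i => I2 F (S i) (f i) + I2 F (S' i) (f i)) (by simpa using h.z.add h'.z)
      (.of_forall fun _ => lintegral_union_le _ _ _)⟩

end N0

namespace Bb

theorem D (h : Bb F l S f) (a : ι) : Bb F l S fun i => F.D a (f i) := fun k =>
  (h (k + 1)).imp fun _ h => h.mono fun _ hi => hi.D a

theorem of_cb {u : M → N} (h : F.Cb u) : Bb F l S fun _ => u := fun k =>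
  let ⟨C, hC⟩ := h; ⟨C k, .of_forall fun _ => Lb.of_CB hC.1 (hC.2 k)⟩

theorem of_cbs {C : ℕ → ℝ} (h : ∀ i, F.CBs (f i) C) : Bb F l S f := fun k =>
  ⟨C k, .of_forall fun i => Lb.of_CB (h i).1 ((h i).2 k)⟩

theorem sm (h : Bb F l S f) : ∀ᶠ i in l, ∀ x ∈ S i, SA I (f i) x :=
  let ⟨_, h⟩ := h 0; h.mono fun _ hi _ hx => hi.sm hx

theorem sub (h : Bb F l S f) (e : ∀ᶠ i in l, S' i ⊆ S i) : Bb F l S' f := fun k =>
  (h k).imp fun _ h => (h.and e).mono fun _ hi => hi.1.sub hi.2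

theorem congr (h : Bb F l S f) (o : ∀ᶠ i in l, IsOpen (S i))
    (e : ∀ᶠ i in l, ∀ x ∈ S i, f' i x = f i x) : Bb F l S f' := fun k =>
  (h k).imp fun _ h => ((h.and o).and e).mono fun _ hi => hi.1.1.congr hi.1.2 hi.2

theorem add (h : Bb F l S f) (h' : Bb F l S f') (o : ∀ᶠ i in l, IsOpen (S i)) :
    Bb F l S fun i x => f i x + f' i x := fun k =>
  let ⟨_, a⟩ := h k; let ⟨_, b⟩ := h' k
  ⟨_, ((a.and b).and o).mono fun _ hi => hi.1.1.add hi.2 hi.1.2⟩

theorem bil (B : N →L[ℝ] N' →L[ℝ] N'') (h : Bb F l S f) (h' : Bb F l S g)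
    (o : ∀ᶠ i in l, IsOpen (S i)) : Bb F l S fun i x => B (f i x) (g i x) := fun k =>
  let ⟨_, a⟩ := h k; let ⟨_, b⟩ := h' k
  ⟨_, ((a.and b).and o).mono fun _ hi =>
    Lb.bil hi.2 B (abs_nonneg _) (abs_nonneg _) hi.1.1.abs hi.1.2.abs⟩

theorem clm (L : N →L[ℝ] N') (h : Bb F l S f) (o : ∀ᶠ i in l, IsOpen (S i)) :
    Bb F l S fun i x => L (f i x) := fun k =>
  let ⟨_, a⟩ := h k; ⟨_, (a.and o).mono fun _ hi => hi.1.clm hi.2 L⟩

end Bb

namespace Cn

theorem bb (h : Cn F l S f) : Bb F l S f := fun k => ⟨1, h k 1 one_pos⟩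

theorem D (h : Cn F l S f) (a : ι) : Cn F l S fun i => F.D a (f i) := fun k η hη =>
  (h (k + 1) η hη).mono fun _ hi => hi.D a

theorem sub (h : Cn F l S f) (e : ∀ᶠ i in l, S' i ⊆ S i) : Cn F l S' f := fun k η hη =>
  ((h k η hη).and e).mono fun _ hi => hi.1.sub hi.2

theorem congr (h : Cn F l S f) (o : ∀ᶠ i in l, IsOpen (S i))
    (e : ∀ᶠ i in l, ∀ x ∈ S i, f' i x = f i x) : Cn F l S f' := fun k η hη =>
  (((h k η hη).and o).and e).mono fun _ hi => hi.1.1.congr hi.1.2 hi.2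

theorem of_mul (h : ∀ k, ∃ C : ℝ, ∀ η > 0, ∀ᶠ i in l, Lb F (S i) k (f i) (C * η)) : Cn F l S f :=
  fun k η hη => by
    obtain ⟨C, h⟩ := h k
    refine (h (η / (|C| + 1)) (by positivity)).mono fun _ hi => hi.mono ?_
    rw [mul_div_assoc', div_le_iff₀ (by positivity)]
    nlinarith [le_abs_self C]

theorem add (h : Cn F l S f) (h' : Cn F l S f') (o : ∀ᶠ i in l, IsOpen (S i)) :
    Cn F l S fun i x => f i x + f' i x := of_mul fun k => ⟨2, fun η hη =>
  (((h k η hη).and (h' k η hη)).and o).mono fun _ hi => (hi.1.1.add hi.2 hi.1.2).mono (by linarith)⟩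

theorem bil (B : N →L[ℝ] N' →L[ℝ] N'') (h : Bb F l S f) (h' : Cn F l S g)
    (o : ∀ᶠ i in l, IsOpen (S i)) : Cn F l S fun i x => B (f i x) (g i x) := of_mul fun k =>
  let ⟨_, a⟩ := h k
  ⟨_, fun η hη => ((a.and (h' k η hη)).and o).mono fun _ hi =>
    Lb.bil hi.2 B (abs_nonneg _) hη.le hi.1.1.abs hi.1.2⟩

theorem clm (L : N →L[ℝ] N') (h : Cn F l S f) (o : ∀ᶠ i in l, IsOpen (S i)) :
    Cn F l S fun i x => L (f i x) := of_mul fun k =>
  ⟨_, fun η hη => ((h k η hη).and o).mono fun _ hi => hi.1.clm hi.2 L⟩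

end Cn

namespace Nl

theorem sm (h : Nl F l S f) : ∀ᶠ i in l, IsOpen (S i) ∧ ∀ x ∈ S i, SA I (f i) x := (h []).sm

theorem op (h : Nl F l S f) : ∀ᶠ i in l, IsOpen (S i) := h.sm.mono fun _ hi => hi.1

theorem mk' (h : ∀ᶠ i in l, IsOpen (S i) ∧ ∀ x ∈ S i, SA I (f i) x)
    (z : ∀ w, Tendsto (fun i => I2 F (S i) (F.Dw w (f i))) l (𝓝 0)) : Nl F l S f := fun w =>
  ⟨h.mono fun i hi => ⟨hi.1, fun x hx => sa_Dw (u := f i) w (hi.2 x hx)⟩, z w⟩

theorem D (h : Nl F l S f) (a : ι) : Nl F l S fun i => F.D a (f i) := fun w => h (a :: w)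

theorem Dw (h : Nl F l S f) (w : List ι) : Nl F l S fun i => F.Dw w (f i) := fun w' => by
  simpa only [Dw_append] using h (w ++ w')

theorem of_D (h : N0 F l S f) (h' : ∀ a, Nl F l S fun i => F.D a (f i)) : Nl F l S f
  | [] => h
  | a :: w => h' a w

theorem congr (h : Nl F l S f) (e : ∀ᶠ i in l, ∀ x ∈ S i, f' i x = f i x) : Nl F l S f' := fun w =>
  (h w).congr ((h.op.and e).mono fun _ hi _ hx => Dw_on hi.1 w hi.2 hx)

theorem add (h : Nl F l S f) (h' : Nl F l S f') : Nl F l S fun i x => f i x + f' i x := fun w =>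
  ((h w).add (h' w)).congr ((h.sm.and h'.sm).mono fun _ hi => Dw_add_on hi.1.1 w hi.1.2 hi.2.2)

theorem sub (h : Nl F l S f) (e : ∀ᶠ i in l, IsOpen (S' i) ∧ S' i ⊆ S i) : Nl F l S' f := fun w =>
  (h w).sub e

theorem union (h : Nl F l S f) (h' : Nl F l S' f) : Nl F l (fun i => S i ∪ S' i) f := fun w =>
  (h w).union (h' w)

theorem cover (h : Nl F l S f) (h' : Nl F l S' f) (e : ∀ᶠ i in l, IsOpen (S'' i) ∧
    S'' i ⊆ S i ∪ S' i) : Nl F l S'' f := (h.union h').sub e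

theorem bil (B : N →L[ℝ] N' →L[ℝ] N'') (h : Bb F l S f) (h' : Nl F l S g) :
    Nl F l S fun i x => B (f i x) (g i x) := fun w => by
  induction w generalizing f g with
  | nil =>
    obtain ⟨C, hC⟩ := h 0
    exact (h' []).le (c := ‖B‖ * C) ((hC.and h'.sm).mono fun _ hi x hx =>
      SA.app (sa_clm B (hi.1.sm hx)) (hi.2.2 x hx)) (hC.mono fun i hi x hx =>
        (B.le_opNorm₂ _ _).trans (mul_le_mul_of_nonneg_right
          (mul_le_mul_of_nonneg_left (hi.le hx) B.opNorm_nonneg) (norm_nonneg (g i x))))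
  | cons a w ih =>
    refine ((ih (h.D a) h').add (ih h (h'.D a))).congr ((h.sm.and h'.sm).mono fun i hi x hx => ?_)
    refine .trans (Dw_on hi.2.1 w (v := fun y => B (F.D a (f i) y) (g i y) +
      B (f i y) (F.D a (g i) y)) (fun y hy => dv_bil B (hi.1 y hy).md (hi.2.2 y hy).md) hx) ?_
    exact Dw_add_on hi.2.1 w (fun y hy => SA.app (sa_clm B (sa_D F (hi.1 y hy) a)) (hi.2.2 y hy))
      (fun y hy => SA.app (sa_clm B (hi.1 y hy)) (sa_D F (hi.2.2 y hy) a)) x hx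

theorem clm (L : N →L[ℝ] N') (h : Nl F l S f) : Nl F l S fun i x => L (f i x) :=
  bil (ContinuousLinearMap.id ℝ (N →L[ℝ] N')) (.of_cb (Cb_const L)) h

theorem neg (h : Nl F l S f) : Nl F l S fun i x => -f i x := h.clm (-ContinuousLinearMap.id ℝ N)

theorem sub' (h : Nl F l S f) (h' : Nl F l S f') : Nl F l S fun i x => f i x - f' i x := by
  simpa only [sub_eq_add_neg] using h.add h'.neg

theorem zero (o : ∀ᶠ i in l, IsOpen (S i)) : Nl F l S fun _ _ => (0 : N) := by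
  have : ∀ w : List ι, F.Dw w (fun _ : M => (0 : N)) = fun _ => 0 := fun w => by
    induction w with
    | nil => rfl
    | cons a w ih => rw [Pre.Dw, Pre.D_def, dv_const]; exact ih
  exact mk' (o.mono fun _ hi => ⟨hi, fun _ _ => contMDiffAt_const⟩) fun w => by
    simpa [this, I2] using tendsto_const_nhds

theorem of_zero (o : ∀ᶠ i in l, IsOpen (S i)) (e : ∀ᶠ i in l, ∀ x ∈ S i, f i x = 0) : Nl F l S f :=
  (zero o).congr e

theorem sum {β : Type} (s : Finset β) {u : β → α → M → N} (o : ∀ᶠ i in l, IsOpen (S i))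
    (h : ∀ b ∈ s, Nl F l S (u b)) : Nl F l S fun i x => ∑ b ∈ s, u b i x := by
  classical
  induction s using Finset.induction_on with
  | empty => simpa using zero o
  | insert a s ha ih =>
    simp only [Finset.sum_insert ha]
    exact (h a (by simp)).add (ih fun i hi => h i (by simp [hi]))

/-- windows of bounded volume -/
theorem of_cn (h : Cn F l S f) {V : ℝ≥0∞} (hV : V ≠ ⊤)
    (o : ∀ᶠ i in l, IsOpen (S i) ∧ F.μ (S i) ≤ V) : Nl F l S f := by
  refine mk' ((o.and h.bb.sm).mono fun _ hi => ⟨hi.1.1, hi.2⟩) fun w => ?_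
  have h1 : Tendsto (fun η : ℝ => ENNReal.ofReal (η ^ 2) * V) (𝓝[>] 0) (𝓝 0) := by
    have : Tendsto (fun η : ℝ => ENNReal.ofReal (η ^ 2)) (𝓝 0) (𝓝 (ENNReal.ofReal (0 ^ 2))) :=
      (ENNReal.continuous_ofReal.comp (continuous_pow 2)).tendsto 0
    simpa using (ENNReal.Tendsto.mul_const this (.inr hV)).mono_left nhdsWithin_le_nhds
  refine ENNReal.tendsto_nhds_zero.2 fun ε hε => ?_
  obtain ⟨η, h2, h3⟩ := ((ENNReal.tendsto_nhds_zero.1 h1 ε hε).and self_mem_nhdsWithin).exists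
  filter_upwards [o, h w.length η h3] with i h4 h5
  refine (I2_le h4.1 (v := fun _ => (1 : ℝ)) (c := η) fun x hx => ?_).trans (.trans ?_ h2)
  · simpa using h5.Dw w le_rfl x hx
  · simpa [I2] using mul_le_mul_right h4.2 _

/-- tails -/
theorem of_hh {O : Set M} {u : M → N} (hu : ∀ x ∈ O, SA I u x) (h : Hh F O u)
    {τ : M → ℝ} (hτ : Continuous τ) {r : α → ℝ} (hr : Tendsto r l atTop)
    (o : ∀ᶠ i in l, IsOpen (S i) ∧ S i ⊆ O ∩ {x | r i < τ x}) : Nl F l S fun _ => u := by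
  refine mk' (o.mono fun _ hi => ⟨hi.1, fun x hx => hu x (hi.2 hx).1⟩) fun w => ?_
  let μ := (F.μ.restrict O).withDensity fun x => ‖F.Dw w u x‖ₑ ^ 2
  have m : ∀ r : ℝ, MeasurableSet {x | r < τ x} := fun r =>
    (isOpen_lt continuous_const hτ).measurableSet
  have h1 : μ univ ≠ ⊤ := by
    rw [withDensity_apply _ MeasurableSet.univ, Measure.restrict_univ]
    have := (h w).2
    rw [hasFiniteIntegral_iff_enorm] at this
    simpa [enorm_pow] using this.ne
  have h2 := tendsto_measure_iInter_atTop (μ := μ) (s := fun r : ℝ => {x | r < τ x})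
    (fun r => (m r).nullMeasurableSet) (fun a b hab x hx => hab.trans_lt hx)
    ⟨0, ne_top_of_le_ne_top h1 (measure_mono (subset_univ _))⟩
  rw [show ⋂ r : ℝ, {x | r < τ x} = ∅ from eq_empty_of_forall_notMem fun x hx =>
    lt_irrefl (τ x) (mem_iInter.1 hx (τ x)), measure_empty] at h2
  refine tendsto_le (h2.comp hr) (o.mono fun i hi => ?_)
  show _ ≤ μ _
  rw [withDensity_apply _ (m _), Measure.restrict_restrict (m _), inter_comm]
  exact lintegral_mono_set hi.2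

theorem n2 (k : ℕ) : ∀ {f : α → M → N}, Nl F l (fun _ => univ) f →
    (∀ᶠ i in l, FL F k (f i)) ∧ Tendsto (fun i => N2 F k (f i)) l (𝓝 0) := by
  have h0 : ∀ {f : α → M → N}, Nl F l (fun _ => univ) f →
      (∀ᶠ i in l, FL F 0 (f i)) ∧ Tendsto (fun i => N2 F 0 (f i)) l (𝓝 0) := fun {f} h => by
    have e : ∀ᶠ i in l, Integrable (fun x => ‖f i x‖ ^ 2) F.μ ∧ Sm I (f i) := by
      filter_upwards [h.sm, (h []).z.eventually_lt_const ENNReal.zero_lt_top] with i h1 h2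
      have h3 : Sm I (f i) := fun x => h1.2 x trivial
      refine ⟨⟨(h3.continuous.norm.pow 2).aestronglyMeasurable, ?_⟩, h3⟩
      rw [hasFiniteIntegral_iff_enorm]
      simpa [enorm_pow, I2, Pre.Dw] using h2
    refine ⟨e.mono fun i hi => (memLp_two_iff_integrable_sq_norm
      hi.2.continuous.aestronglyMeasurable).2 hi.1, ?_⟩
    refine (((ENNReal.tendsto_toReal ENNReal.zero_ne_top).comp (h []).z).congr' (e.mono fun i hi => ?_))
    show (I2 F univ (f i)).toReal = ∫ x, ‖f i x‖ ^ 2 ∂F.μ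
    rw [integral_eq_lintegral_of_nonneg_ae (.of_forall fun _ => sq_nonneg _) hi.1.1, I2,
      Measure.restrict_univ]
    simp [ENNReal.ofReal_pow]
  induction k with
  | zero => exact h0
  | succ k ih =>
    intro f h
    refine ⟨((h0 h).1.and (eventually_all.2 fun a => (ih (h.D a)).1)).mono fun _ hi => hi, ?_⟩
    have := (h0 h).2.add (tendsto_finsetSum Finset.univ fun a _ => (ih (h.D a)).2)
    rw [Finset.sum_const_zero, add_zero] at this
    exact this

end Nl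

theorem I2_of_n2 (w : List ι) : ∀ {k : ℕ} {u : M → N}, w.length ≤ k → FL F k u →
    I2 F univ (F.Dw w u) ≤ ENNReal.ofReal (N2 F k u) := by
  induction w with
  | nil =>
    intro k u _ h
    have h1 := (memLp_two_iff_integrable_sq_norm h.memLp.1).1 h.memLp
    refine .trans (le_of_eq ?_) (ENNReal.ofReal_le_ofReal (n2_mono (Nat.zero_le k) u))
    show _ = ENNReal.ofReal (∫ x, ‖u x‖ ^ 2 ∂F.μ)
    rw [ofReal_integral_eq_lintegral_ofReal h1 (.of_forall fun _ => sq_nonneg _), I2,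
      Measure.restrict_univ]
    simp [ENNReal.ofReal_pow, Pre.Dw]
  | cons a w ih =>
    intro k u hk h
    obtain _ | k := k
    · simp at hk
    refine (ih (by simpa using hk) (h.2 a)).trans (ENNReal.ofReal_le_ofReal ?_)
    exact (Finset.single_le_sum (f := fun a => N2 F k (F.D a u)) (fun a _ => n2_nonneg _ _)
      (Finset.mem_univ a)).trans (le_add_of_nonneg_left
        (integral_nonneg fun _ => sq_nonneg _))

/-- Sobolev -/
theorem Nl.cn {F : Fr I M ι} {C : ℕ → ℝ} (hT : F.Tame C) (h : Nl F.toPre l S f) {β : α → M → ℝ}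
    (hβ : Bb F.toPre l (fun _ => univ) β)
    (e : ∀ᶠ i in l, tsupport (β i) ⊆ S i ∧ IsOpen (S' i) ∧ ∀ x ∈ S' i, β i x = 1) :
    Cn F.toPre l S' f := by
  have h1 : Nl F.toPre l (fun _ => univ) fun i x => β i x • f i x := by
    refine (Nl.bil (ContinuousLinearMap.lsmul ℝ ℝ) (hβ.sub (.of_forall fun _ => subset_univ _))
      h).cover (Nl.of_zero (S := fun i => (tsupport (β i))ᶜ) (.of_forall fun i =>
        (isClosed_tsupport _).isOpen_compl) (.of_forall fun i x hx => ?_))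
        (e.mono fun i hi => ⟨isOpen_univ, fun x _ => ?_⟩)
    · simp [image_eq_zero_of_notMem_tsupport hx]
    · exact (em _).imp (@hi.1 x) id
  have h2 : ∀ w, ∀ η > 0, ∀ᶠ i in l, ∀ x, ‖F.Dw w (fun x => β i x • f i x) x‖ ≤ η := by
    intro w η hη
    have h3 := h1.Dw w
    have h4 := (((Nl.n2 4 h3).2.const_mul ((cK ι 4 * ‖ContinuousLinearMap.lsmul ℝ ℝ (E := N)‖ *
      C 4) ^ 2)).const_mul |C 0|).eventually_lt_const (u := η ^ 2) (by simpa using pow_pos hη 2)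
    filter_upwards [h4, h3.sm, (Nl.n2 4 h3).1] with i h4 h5 h6 x
    generalize F.Dw w (fun x => β i x • f i x) = g at *
    have h7 : Sm I g := fun x => h5.2 x trivial
    obtain ⟨χ, h2, h3, -, h8⟩ := hT.exh {x} isCompact_singleton
    have h9 := (Sup.of_tame hT).sq_le (u := fun y => χ y • g y) (h2.1.smul h7)
      (hcs_bil_left (ContinuousLinearMap.lsmul ℝ ℝ) g h3) x
    rw [h8 x rfl, one_smul] at h9
    exact (abs_le_of_sq_le_sq' ((h9.trans (mul_le_mul_of_nonneg_left (N2_mul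
      (ContinuousLinearMap.lsmul ℝ ℝ) h2.1 h7 (h2.2 4) h6).2 (abs_nonneg _))).trans h4.le) hη.le).2
  intro k η hη
  have h3 : ∀ᶠ i in l, ∀ w ∈ {w : List ι | w.length ≤ k}, ∀ x,
      ‖F.Dw w (fun x => β i x • f i x) x‖ ≤ η :=
    (eventually_all_finite (List.finite_length_le ι k)).2 fun w _ => h2 w η hη
  filter_upwards [h3, h1.sm, e] with i h3 h4 h5
  exact (Lb.of_Dw (fun x _ => h4.2 x trivial) fun w hw x _ => h3 w hw x).congr h5.2.1
    fun x hx => by rw [h5.2.2 x hx, one_smul]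

end Crest.Agent.X212.Sm10.Dg
end
end

-- ▼ part X212/Sm10/Dg1

/-!
# Row 212, SW-DEG (helper10), part 1: transport, gauge cut-off, cylinders
-/

set_option autoImplicit false
set_option linter.unusedSectionVars false
noncomputable section
open scoped Manifold ContDiff Topology InnerProductSpace ENNReal
open MeasureTheory Set Function Filter

namespace Crest.Agent.X212.Sm10.Dg
open An Sw Sob92 Cyf70 Sw.En3
open Wz78 (SA)
open Neck67 (Lb)
open Sep15.S (sa_clm aesm)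
open Pb50 (Dw_congr sa_D th LG)
open Win39 (mi mi_apply)
open M (Mf pm)

variable {κ lam ν : Type} [Fintype κ] [Fintype lam] [Fintype ν] [DecidableEq ν]
  {N N' : Type} [NormedAddCommGroup N] [NormedSpace ℝ N] [NormedAddCommGroup N'] [NormedSpace ℝ N']
  {α : Type} {l : Filter α}

section gen
variable {E : Type} [NormedAddCommGroup E] [NormedSpace ℝ E] [FiniteDimensional ℝ E]
  [MeasurableSpace E] [BorelSpace E]
  {HM : Type} [TopologicalSpace HM] {I : ModelWithCorners ℝ E HM}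
  {M : Type} [TopologicalSpace M] [ChartedSpace HM M] [IsManifold I ∞ M]
  [MeasurableSpace M] [T2Space M] [BorelSpace M] [SecondCountableTopology M] {ι : Type} [Fintype ι]
  {E' : Type} [NormedAddCommGroup E'] [NormedSpace ℝ E'] [FiniteDimensional ℝ E']
  [MeasurableSpace E'] [BorelSpace E']
  {HM' : Type} [TopologicalSpace HM'] {I' : ModelWithCorners ℝ E' HM'}
  {M' : Type} [TopologicalSpace M'] [ChartedSpace HM' M'] [IsManifold I' ∞ M']
  [MeasurableSpace M'] [T2Space M'] [BorelSpace M'] [SecondCountableTopology M']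
  {F : Pre I M ι} {S S' S'' : α → Set M} {f f' : α → M → N}

theorem Nl.comp (h : Nl F l S f) {α' : Type} {l' : Filter α'} {m : α' → α} (hm : Tendsto m l' l) :
    Nl F l' (fun i => S (m i)) fun i => f (m i) := fun w =>
  ⟨hm.eventually (h w).sm, (h w).z.comp hm⟩

theorem lb_cover {O : Set M} {k : ℕ} {u : M → N} {C : ℝ}
    (h : ∀ x ∈ O, ∃ O', x ∈ O' ∧ Lb F O' k u C) : Lb F O k u C :=
  Lb.of_Dw (fun x hx => let ⟨_, a, b⟩ := h x hx; b.sm a)
    fun w hw x hx => let ⟨_, a, b⟩ := h x hx; b.Dw w hw x a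

theorem Cn.cover (h : Cn F l S f) (h' : Cn F l S' f) (e : ∀ᶠ i in l, S'' i ⊆ S i ∪ S' i) :
    Cn F l S'' f := fun k η hη => (((h k η hη).and (h' k η hη)).and e).mono fun _ hi =>
  lb_cover fun _ hx => (hi.2 hx).elim (fun a => ⟨_, a, hi.1.1⟩) fun a => ⟨_, a, hi.1.2⟩

theorem Cn.of_zero (o : ∀ᶠ i in l, IsOpen (S i)) (e : ∀ᶠ i in l, ∀ x ∈ S i, f i x = 0) :
    Cn F l S f := fun k η hη => (o.and e).mono fun _ hi =>
  ((Lb.const hi.1 (0 : N)).congr hi.1 hi.2).mono (by simpa using hη.le)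

theorem Cn.of_D (h : ∀ η > 0, ∀ᶠ i in l, Lb F (S i) 0 (f i) η)
    (h' : ∀ a, Cn F l S fun i => F.D a (f i)) : Cn F l S f
  | 0, η, hη => h η hη
  | k + 1, η, hη => (h η hη).and (eventually_all.2 fun a => h' a k η hη)

theorem Bb.const (c : N) : Bb F l S fun _ _ => c := Bb.of_cb (Cb_const c)

theorem Bb.ode {u : α → M → ℂ} {β : ι → α → M → ℝ} (o : ∀ᶠ i in l, IsOpen (S i))
    (h : ∀ᶠ i in l, ∀ x ∈ S i, SA I (u i) x ∧ ‖u i x‖ ≤ 1 ∧
      ∀ a, F.D a (u i) x = mi (β a i x) (u i x)) (hβ : ∀ a, Bb F l S (β a)) : Bb F l S u := by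
  intro k
  have h0 : ∀ᶠ i in l, Lb F (S i) 0 (u i) 1 := h.mono fun _ hi x hx => ⟨(hi x hx).1, (hi x hx).2.1⟩
  induction k with
  | zero => exact ⟨1, h0⟩
  | succ k ih =>
    obtain ⟨C, hC⟩ := ih
    choose A hA using fun a => hβ a k
    have p : ∀ a, 0 ≤ 2 ^ k * |A a| * |C| := fun a => by positivity
    refine ⟨1 + ∑ a, 2 ^ k * |A a| * |C|, ?_⟩
    filter_upwards [h0, h, o, hC, eventually_all.2 hA] with i h0 h1 h2 h3 h4
    exact ⟨h0.mono (le_add_of_nonneg_right (Finset.sum_nonneg fun a _ => p a)), fun a =>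
      (((h4 a).bil' h2 Win39.norm_mi h3).congr h2 fun x hx => (h1 x hx).2.2 a).mono
        ((Finset.single_le_sum (fun a _ => p a) (Finset.mem_univ a)).trans (by linarith))⟩

/-- the circle valued function of a real function -/
def ex (g : M → ℝ) (x : M) : ℂ := Complex.exp (Complex.I * g x)

theorem norm_ex (g : M → ℝ) (x : M) : ‖ex g x‖ = 1 := Complex.norm_exp_I_mul_ofReal _

theorem sa_ex {g : M → ℝ} {x : M} (h : SA I g x) : SA I (ex g) x :=
  (Complex.contDiff_exp (𝕜 := ℝ)).contMDiff.contMDiffAt.comp x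
    (Wz78.SA.mul contMDiffAt_const (sa_clm Complex.ofRealCLM h))

theorem D_ex {g : M → ℝ} {x : M} (h : SA I g x) (a : ι) :
    F.D a (ex g) x = mi (F.D a g x) (ex g x) := by
  have h1 : HasDerivAt (fun r : ℝ => Complex.exp (Complex.I * r))
      (Complex.exp (Complex.I * g x) * (Complex.I * 1)) (g x) :=
    ((Complex.ofRealCLM.hasDerivAt).const_mul Complex.I).cexp
  refine (dv_comp h.md h1.hasFDerivAt).trans ?_
  simp only [mi_apply, ex, Pre.D_def, ContinuousLinearMap.toSpanSingleton_apply, Complex.real_smul]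
  ring

theorem Cn.ex {g : α → M → ℝ} (h : Cn F l S g) (o : ∀ᶠ i in l, IsOpen (S i)) :
    Cn F l S fun i x => ex (g i) x - 1 := by
  have h1 : Bb F l S fun i => Dg.ex (g i) := Bb.ode o (h.bb.sm.mono fun i hi x hx =>
    ⟨sa_ex (hi x hx), (norm_ex _ _).le, D_ex (hi x hx)⟩) fun a => (h.D a).bb
  refine Cn.of_D (fun η hη => (h 0 η hη).mono fun i hi x hx =>
    ⟨(sa_ex (hi.sm hx)).sub contMDiffAt_const,
      Real.norm_exp_I_mul_ofReal_sub_one_le.trans (hi.le hx)⟩) fun a => ?_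
  refine (Cn.bil mi.flip h1 (h.D a) o).congr o (h.bb.sm.mono fun i hi x hx => ?_)
  refine (Wz78.dv_sub' (sa_ex (hi x hx)) contMDiffAt_const).trans ?_
  rw [dv_const, ← Pre.D_def, D_ex (hi x hx)]
  simp

theorem ex_arg {u : M → ℂ} {x : M} (h : ‖u x‖ = 1) : ex (fun y => (u y).arg) x = u x := by
  have := Complex.norm_mul_exp_arg_mul_I (u x)
  rwa [h, Complex.ofReal_one, one_mul, mul_comm] at this

theorem sa_arg {u : M → ℂ} {x : M} (h : SA I u x) (h1 : ‖u x - 1‖ < 1) :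
    SA I (fun y => (u y).arg) x := by
  have h2 : u x ∈ Complex.slitPlane := by simpa using Complex.mem_slitPlane_of_norm_lt_one h1
  simp only [← Complex.log_im]
  exact sa_clm Complex.imCLM
    (((Complex.contDiffAt_log h2).restrict_scalars ℝ).contMDiffAt.comp x h)

theorem th_ex {g : M → ℝ} {x : M} (h : SA I g x) (a : ι) : th F (ex g) a x = F.D a g x := by
  rw [th, D_ex h, mi_apply, mul_left_comm, Pb50.star_mul_one (norm_ex g x)]
  simp

theorem abs_arg_le {z : ℂ} (h : ‖z‖ = 1) (h1 : ‖z - 1‖ < 1) : |z.arg| ≤ 2 * ‖z - 1‖ := by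
  have h2 : |z.arg| ≤ Real.pi / 2 := Complex.abs_arg_le_pi_div_two_iff.2 (by
    have := (abs_le.1 ((Complex.abs_re_le_norm _).trans h1.le)).1
    simp only [Complex.sub_re, Complex.one_re] at this; linarith)
  have h3 := Real.mul_abs_le_abs_sin h2
  rw [Complex.sin_arg, h, div_one, div_mul_eq_mul_div, div_le_iff₀ Real.pi_pos] at h3
  have h4 : |z.im| ≤ ‖z - 1‖ := by simpa using Complex.abs_im_le_norm (z - 1)
  nlinarith [Real.pi_le_four, abs_nonneg z.im, Real.pi_pos]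

theorem Bb.th {u : α → M → ℂ} (h : Bb F l S u) (o : ∀ᶠ i in l, IsOpen (S i)) (a : ι) :
    Bb F l S fun i => th F (u i) a :=
  (Bb.bil (ContinuousLinearMap.mul ℝ ℂ) (h.clm (Complex.conjCLE : ℂ →L[ℝ] ℂ) o) (h.D a) o).clm
    Complex.imCLM o

theorem Cn.one {u : α → M → ℂ} (h : Cn F l S fun i x => u i x - 1) (o : ∀ᶠ i in l, IsOpen (S i)) :
    Bb F l S u := (h.bb.add (Bb.const 1) o).congr o (.of_forall fun _ _ _ => by simp)

theorem D_sub_one {u : M → ℂ} {x : M} (h : SA I u x) (a : ι) :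
    F.D a u x = F.D a (fun y => u y - 1) x := by
  rw [Pre.D_def, Pre.D_def, Wz78.dv_sub' h contMDiffAt_const, dv_const]; simp

theorem Cn.arg {u : α → M → ℂ} (h : Cn F l S fun i x => u i x - 1) (o : ∀ᶠ i in l, IsOpen (S i))
    (h1 : ∀ᶠ i in l, ∀ x ∈ S i, ‖u i x‖ = 1) : Cn F l S fun i x => (u i x).arg := by
  have h2 := h.one o
  have h3 : ∀ᶠ i in l, ∀ x ∈ S i, ‖u i x - 1‖ < 1 :=
    (h 0 (1 / 2) (by norm_num)).mono fun i hi x hx => (hi.le hx).trans_lt (by norm_num)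
  refine Cn.of_D (fun η hη => ?_) fun a => ?_
  · filter_upwards [h 0 (η / 2) (by positivity), h1, h2.sm, h3] with i a b c d x hx
    exact ⟨sa_arg (c x hx) (d x hx), (abs_arg_le (b x hx) (d x hx)).trans (by linarith [a.le hx])⟩
  · refine ((Cn.bil (ContinuousLinearMap.mul ℝ ℂ) (h2.clm (Complex.conjCLE : ℂ →L[ℝ] ℂ) o) (h.D a)
      o).clm Complex.imCLM o).congr o ?_
    filter_upwards [o, h1, h2.sm, h3] with i o b c d x hx
    have e : Dg.ex (fun y => (u i y).arg) =ᶠ[𝓝 x] u i :=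
      Eventually.mono (o.mem_nhds hx) fun y hy => ex_arg (b y hy)
    rw [← th_ex (sa_arg (c x hx) (d x hx)), th, e.self_of_nhds, ← D_sub_one (c x hx),
      show F.D a (Dg.ex fun y => (u i y).arg) x = F.D a (u i) x from dv_congr e]
    rfl

/-! ### transport -/

theorem I2_iso {F : Pre I M ι} {F' : Pre I' M' ι} {φ : OpenPartialHomeomorph M M'}
    (h : Iso F F' φ) {O : Set M} (hO : IsOpen O) (hs : O ⊆ φ.source) {u : M' → N}
    (hu : ∀ x ∈ O, SA I' u (φ x)) : I2 F O (fun x => u (φ x)) = I2 F' (φ '' O) u := by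
  have aem : AEMeasurable φ (F.μ.restrict φ.source) :=
    φ.continuousOn.aemeasurable φ.open_source.measurableSet
  have hO' := φ.isOpen_image_of_subset_source hO hs
  have e : F'.μ.restrict (φ '' O) = (F.μ.restrict O).map φ := by
    rw [← inter_eq_left.2 (image_subset_iff.2 fun x hx => φ.map_source (hs hx) : φ '' O ⊆ φ.target),
      ← Measure.restrict_restrict hO'.measurableSet, ← h.μ,
      Measure.restrict_map_of_aemeasurable aem hO'.measurableSet,
      Measure.restrict_restrict' φ.open_source.measurableSet, φ.injOn.preimage_image_inter hs]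
  rw [I2, I2, e, lintegral_map' (e ▸ aem2 hO' (forall_mem_image.2 hu))
    (aem.mono_measure (Measure.restrict_mono hs le_rfl))]

variable {F : Fr I M ι} {F' : Fr I' M' ι} {φ : α → OpenPartialHomeomorph M M'} {g : α → M' → N}

theorem Nl.iso (h : ∀ᶠ i in l, Iso F.toPre F'.toPre (φ i) ∧ IsOpen (S i) ∧ S i ⊆ (φ i).source ∧
    ∀ x ∈ S i, SA I' (g i) (φ i x)) :
    Nl F.toPre l S (fun i x => g i (φ i x)) ↔ Nl F'.toPre l (fun i => φ i '' S i) g := by
  have e : ∀ w, ∀ᶠ i in l, I2 F.toPre (S i) (F.Dw w fun x => g i (φ i x)) =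
      I2 F'.toPre (φ i '' S i) (F'.Dw w (g i)) := fun w => h.mono fun i hi => by
    rw [← I2_iso hi.1 hi.2.1 hi.2.2.1 fun x hx => sa_Dw (u := g i) w (hi.2.2.2 x hx)]
    exact setLIntegral_congr_fun hi.2.1.measurableSet fun x hx => by
      rw [(Pj41.fRel_of_iso hi.1).Dw (hi.2.2.1 hx) w (u' := g i) (.of_forall fun _ => rfl)]
  exact ⟨fun k => .mk' (h.mono fun i hi => ⟨(φ i).isOpen_image_of_subset_source hi.2.1 hi.2.2.1,
      forall_mem_image.2 hi.2.2.2⟩) fun w => (k w).z.congr' (e w),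
    fun k => .mk' (h.mono fun i hi => ⟨hi.2.1, fun x hx => (hi.2.2.2 x hx).comp x
      (iso_smAt hi.1 (hi.2.2.1 hx))⟩) fun w => (k w).z.congr' ((e w).mono fun _ h => h.symm)⟩

theorem lb_iso {φ : OpenPartialHomeomorph M M'} (h : Iso F.toPre F'.toPre φ) {O : Set M}
    (hs : O ⊆ φ.source) {u : M' → N} (hu : ∀ x ∈ O, SA I' u (φ x)) {k : ℕ} {C : ℝ} :
    Lb F.toPre O k (fun x => u (φ x)) C ↔ Lb F'.toPre (φ '' O) k u C := by
  have e : ∀ w, ∀ x ∈ O, F.Dw w (fun x => u (φ x)) x = F'.Dw w u (φ x) := fun w x hx =>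
    (Pj41.fRel_of_iso h).Dw (hs hx) w (.of_forall fun _ => rfl)
  exact ⟨fun k => Lb.of_Dw (forall_mem_image.2 hu) fun w hw => forall_mem_image.2 fun x hx =>
      e w x hx ▸ k.Dw w hw x hx,
    fun k => Lb.of_Dw (fun x hx => (hu x hx).comp x (iso_smAt h (hs hx))) fun w hw x hx =>
      (e w x hx).symm ▸ k.Dw w hw _ ⟨x, hx, rfl⟩⟩

theorem Cn.iso (h : ∀ᶠ i in l, Iso F.toPre F'.toPre (φ i) ∧ S i ⊆ (φ i).source ∧
    ∀ x ∈ S i, SA I' (g i) (φ i x)) :
    Cn F.toPre l S (fun i x => g i (φ i x)) ↔ Cn F'.toPre l (fun i => φ i '' S i) g :=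
  forall₃_congr fun _ _ _ => eventually_congr (h.mono fun _ hi => lb_iso hi.1 hi.2.1 hi.2.2)

end gen

/-! ### configurations -/

section cfg
variable {E : Type} [NormedAddCommGroup E] [NormedSpace ℝ E] [FiniteDimensional ℝ E]
  [MeasurableSpace E] [BorelSpace E]
  {HM : Type} [TopologicalSpace HM] {I : ModelWithCorners ℝ E HM}
  {M : Type} [TopologicalSpace M] [ChartedSpace HM M] [IsManifold I ∞ M]
  [MeasurableSpace M] [T2Space M] [BorelSpace M] [SecondCountableTopology M]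
  {F : Pre I M (Option κ)} {S S' S'' : α → Set M} {c c' c'' : α → Cfg M κ ν} {J : En ν}
  {u : α → M → ℂ}

/-- the difference tends to zero -/
def NC (F : Pre I M (Option κ)) (l : Filter α) (S : α → Set M) (c c' : α → Cfg M κ ν) : Prop :=
  (∀ a, Nl F l S fun i x => (c i).a a x - (c' i).a a x) ∧
    Nl F l S fun i x => (c i).Φ x - (c' i).Φ x

/-- the gauge action -/
def ac (F : Pre I M (Option κ)) (J : En ν) (u : M → ℂ) (c : Cfg M κ ν) : Cfg M κ ν :=
  ⟨fun a x => c.a a x - th F u a x, fun x => Pb50.cB J (u x) (c.Φ x)⟩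

/-- equality at a point -/
def At (c c' : Cfg M κ ν) (x : M) : Prop := (∀ a, c.a a x = c'.a a x) ∧ c.Φ x = c'.Φ x

theorem NC.op (h : NC F l S c c') : ∀ᶠ i in l, IsOpen (S i) := h.2.op

theorem NC.trans (h : NC F l S c c') (h' : NC F l S c' c'') : NC F l S c c'' :=
  ⟨fun a => by simpa using (h.1 a).add (h'.1 a), by simpa using h.2.add h'.2⟩

theorem NC.symm (h : NC F l S c c') : NC F l S c' c :=
  ⟨fun a => by simpa using (h.1 a).neg, by simpa using h.2.neg⟩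

theorem NC.sub (h : NC F l S c c') (e : ∀ᶠ i in l, IsOpen (S' i) ∧ S' i ⊆ S i) :
    NC F l S' c c' := ⟨fun a => (h.1 a).sub e, h.2.sub e⟩

theorem NC.cover (h : NC F l S c c') (h' : NC F l S' c c')
    (e : ∀ᶠ i in l, IsOpen (S'' i) ∧ S'' i ⊆ S i ∪ S' i) : NC F l S'' c c' :=
  ⟨fun a => (h.1 a).cover (h'.1 a) e, h.2.cover h'.2 e⟩

theorem NC.of_eq (o : ∀ᶠ i in l, IsOpen (S i)) (e : ∀ᶠ i in l, ∀ x ∈ S i, At (c i) (c' i) x) :
    NC F l S c c' :=
  ⟨fun a => .of_zero o (e.mono fun _ hi x hx => sub_eq_zero.2 ((hi x hx).1 a)),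
    .of_zero o (e.mono fun _ hi x hx => sub_eq_zero.2 (hi x hx).2)⟩

theorem NC.left (h : NC F l S c c') (e : ∀ᶠ i in l, ∀ x ∈ S i, At (c'' i) (c i) x) :
    NC F l S c'' c' := (NC.of_eq h.op e).trans h

theorem NC.right (h : NC F l S c c') (e : ∀ᶠ i in l, ∀ x ∈ S i, At (c' i) (c'' i) x) :
    NC F l S c c'' := h.trans (NC.of_eq h.op e)

theorem NC.ac (h : NC F l S c c') (hu : Bb F l S u) :
    NC F l S (fun i => ac F J (u i) (c i)) fun i => ac F J (u i) (c' i) :=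
  ⟨fun a => by simpa [Dg.ac] using h.1 a, by simpa [Dg.ac] using Nl.bil (Pb50.cB J) hu h.2⟩

theorem NC.ac1 (h : Nl F l S fun i x => u i x - 1) (hu : Bb F l S u)
    (hc : Bb F l S fun i => (c i).Φ) : NC F l S (fun i => Dg.ac F J (u i) (c i)) c := by
  refine ⟨fun a => ((Nl.bil (ContinuousLinearMap.mul ℝ ℂ) (hu.clm (Complex.conjCLE : ℂ →L[ℝ] ℂ)
    h.op) (h.D a)).clm Complex.imCLM).neg.congr (hu.sm.mono fun i hi x hx => ?_),
    (Nl.bil (Pb50.cB J).flip hc h).congr (.of_forall fun i x _ => ?_)⟩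
  · rw [← D_sub_one (hi x hx)]
    simp [Dg.ac, th]
  · simp [Dg.ac, Pb50.cB]
    module

theorem ac_mul (hJ : J * J = -1) {u v : M → ℂ} {x : M} (hu : LG I u x) (hv : LG I v x)
    (c : Cfg M κ ν) : At (ac F J (fun y => u y * v y) c) (ac F J u (ac F J v c)) x :=
  ⟨fun a => by simp only [ac, Pb50.th_mul F hu hv]; ring, (Win39.cs_cs hJ _ _ _).symm⟩

theorem ac_congr {u v : M → ℂ} {x : M} (h : u =ᶠ[𝓝 x] v) {c c' : Cfg M κ ν} (e : At c c' x) :
    At (ac F J u c) (ac F J v c') x :=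
  ⟨fun a => by
    simp only [ac, th, e.1, h.self_of_nhds, show F.D a u x = F.D a v x from dv_congr h],
    by simp only [ac, e.2, h.self_of_nhds]⟩

theorem ac_one {u : M → ℂ} {x : M} (h : u =ᶠ[𝓝 x] fun _ => 1) (c : Cfg M κ ν) :
    At (ac F J u c) c x :=
  let ⟨a, b⟩ := ac_congr (F := F) (J := J) h (c := c) ⟨fun _ => rfl, rfl⟩
  ⟨fun i => (a i).trans (by simp [ac, Pb50.th_one]), b.trans (Win39.cs_one _)⟩

theorem At.trans {c c' c'' : Cfg M κ ν} {x : M} (h : At c c' x) (h' : At c' c'' x) : At c c'' x :=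
  ⟨fun a => (h.1 a).trans (h'.1 a), h.2.trans h'.2⟩

theorem At.symm {c c' : Cfg M κ ν} {x : M} (h : At c c' x) : At c' c x :=
  ⟨fun a => (h.1 a).symm, h.2.symm⟩

end cfg

/-! ### cylinders -/

section cyl
variable {e : En3 κ lam ν} {T T' : α → Set ℝ}

/-- Sobolev on the cylinder -/
theorem Nl.cyl (he : e.OK) {f : α → e.Y.M × ℝ → N} (h : Nl e.D.Z.toPre l (fun i => univ ×ˢ T i) f)
    {ε : ℝ} (hε : 0 < ε) (e' : ∀ᶠ i in l, ∀ t ∈ T' i, Ioo (t - ε) (t + ε) ⊆ T i) :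
    Cn e.D.Z.toPre l (fun i => univ ×ˢ T' i) f := by
  let b : ContDiffBump (0 : ℝ) := ⟨ε / 4, ε / 2, by positivity, by linarith⟩
  obtain ⟨C, hC⟩ := Cht98.deriv_bounds b.contDiff b.hasCompactSupport.deriv (B := 1) fun t => by
    rw [Real.norm_eq_abs, abs_of_nonneg b.nonneg]; exact b.le_one
  have hb : Nd18.BD b C := ⟨b.contDiff, hC⟩
  let l' : Filter (α × ℝ) := comap Prod.fst l ⊓ 𝓟 {p | p.2 ∈ T' p.1}
  have hl : Tendsto Prod.fst l' l := tendsto_comap.mono_left inf_le_left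
  have h1 : Cn e.D.Z.toPre l' (fun p => univ ×ˢ Ioo (p.2 - ε / 4) (p.2 + ε / 4)) fun p => f p.1 := by
    refine Nl.cn he.cyl.tame.choose_spec (h.comp hl) (β := fun p x => b (x.2 + -p.2))
      (.of_cbs fun p => (hb.shift (-p.2)).cyl e.D.F.toPre) ?_
    filter_upwards [hl.eventually e', mem_inf_of_right (mem_principal_self _)] with p h1 h2
    refine ⟨(closure_minimal (t := univ ×ˢ Icc (p.2 - ε / 2) (p.2 + ε / 2)) (fun x hx => ?_)
      (isClosed_univ.prod isClosed_Icc)).trans (prod_mono Subset.rfl (.trans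
        (Icc_subset_Ioo (by linarith) (by linarith)) (h1 _ h2))), isOpen_univ.prod isOpen_Ioo,
      fun x hx => b.one_of_mem_closedBall ?_⟩
    · have : x.2 + -p.2 ∈ Metric.ball (0 : ℝ) (ε / 2) := b.support_eq ▸ hx
      rw [Real.ball_eq_Ioo] at this
      exact ⟨trivial, by linarith [this.1], by linarith [this.2]⟩
    · rw [Real.closedBall_eq_Icc]
      exact ⟨by show 0 - ε / 4 ≤ _; linarith [hx.2.1], by show _ ≤ 0 + ε / 4; linarith [hx.2.2]⟩
  intro k η hη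
  have h2 := eventually_comap.1 (eventually_inf_principal.1 (h1 k η hη))
  exact h2.mono fun i hi => lb_cover fun x hx => ⟨univ ×ˢ Ioo (x.2 - ε / 4) (x.2 + ε / 4),
    ⟨trivial, by linarith, by linarith⟩, hi (i, x.2) rfl hx.2⟩

theorem NC.zs (he : e.OK) {c : α → e.ZC} {c₀ : e.ZC}
    (h : NC e.D.Z.toPre l (fun i => univ ×ˢ T i) c fun _ => c₀) {ε : ℝ} (hε : 0 < ε)
    (e' : ∀ᶠ i in l, ∀ t ∈ T' i, Ioo (t - ε) (t + ε) ⊆ T i) : Zs l c c₀ T' := fun k η hη =>
  ((eventually_all.2 fun a => (h.1 a).cyl he hε e' k η hη).and (h.2.cyl he hε e' k η hη)).mono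
    fun _ hi w hw x hx => ⟨fun a => (hi.1 a).Dw w hw x hx, hi.2.Dw w hw x hx⟩

variable {X : Mf 4} {nc : ℕ} {b : Bg X.I X.M κ lam ν nc} (K : Nk e b) {s : Bool} {v : e.YC}
  {c : Cfg X.M κ ν}

theorem hh_nl {f : e.Y.M × ℝ → N} {T₀ : ℝ} (hf : ∀ x ∈ K.ψ.source, SA (IC e.Y.I) f x)
    (h : Hh e.D.Z.toPre (univ ×ˢ K.far s T₀) f) {r : α → ℝ} (hr : Tendsto r l atTop) :
    Nl e.D.Z.toPre l (fun i => univ ×ˢ K.far s (r i)) fun _ => f :=
  Nl.of_hh (fun x hx => hf x (K.mem_src.2 hx.2.1)) h (τ := fun x => pm s * x.2) (by fun_prop) hr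
    ((hr.eventually_ge_atTop T₀).mono fun _ hi =>
      ⟨Pb50.isOpen_far K _, fun _ hx => ⟨Pb50.far_mono K hi hx, hx.2.2⟩⟩)

theorem asy_nc (hc : b.Adm c) (hv : e.cyl.Adm (fz v)) (h : K.Asy s v c) {r : α → ℝ}
    (hr : Tendsto r l atTop) :
    NC e.D.Z.toPre l (fun i => univ ×ˢ K.far s (r i)) (fun _ => K.pb c) fun _ => fz v :=
  let ⟨_, h⟩ := h
  ⟨fun a => hh_nl K (fun _ hx => (Pb50.sa_ψ K hx (hc.sa a _)).sub (hv.sa a _)) (h.1 a) hr,
    hh_nl K (fun _ hx => (Pb50.sa_ψ K hx (hc.sΦ _)).sub (hv.sΦ _)) h.2 hr⟩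

theorem far_win (hs : K.Inf s) {ε : ℝ} {r : α → ℝ} (hr : Tendsto r l atTop) :
    ∀ᶠ i in l, ∀ t ∈ K.far s (r i + ε), Ioo (t - ε) (t + ε) ⊆ K.far s (r i) := by
  obtain ⟨T, -, hT⟩ := Pb50.nd_basis.eventually_iff.1 (Pb50.ev_J K hs)
  obtain ⟨y⟩ : Nonempty e.Y.M := inferInstance
  filter_upwards [hr.eventually_ge_atTop T] with i hi t ht t' ht'
  have : r i < pm s * t' := by
    have := ht.2
    cases s <;> simp only [pm, mem_ofPred_eq] at this ⊢ <;> norm_num at this ⊢ <;>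
      linarith [ht'.1, ht'.2]
  exact ⟨hT (x := (y, t')) (hi.trans_lt this), this⟩

/-- decay on an end -/
theorem decay (he : e.OK) (hs : K.Inf s) (hc : b.Adm c) (hv : e.cyl.Adm (fz v)) (h : K.Asy s v c) :
    Zs atTop (fun _ => K.pb c) (fz v) (K.far s) := by
  have h1 : Tendsto (fun r : ℝ => r + -1) atTop atTop := tendsto_atTop_add_const_right _ _ tendsto_id
  refine (asy_nc K hc hv h h1).zs he one_pos ?_
  simpa using far_win K hs (ε := 1) h1

theorem img_eq {S : Set ℝ} (hS : S ⊆ K.J) : K.ψ '' (univ ×ˢ S) = K.tm ⁻¹' S := by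
  ext x
  refine ⟨?_, fun hx => ?_⟩
  · rintro ⟨z, hz, rfl⟩
    rw [mem_preimage, K.tm_ψ z (K.mem_src.2 (hS hz.2))]
    exact hz.2
  · have h1 : x ∈ K.ψ.target := K.tgt ▸ hS hx
    refine ⟨_, ⟨trivial, ?_⟩, K.ψ.right_inv h1⟩
    rwa [← K.tm_ψ _ (K.ψ.map_target h1), K.ψ.right_inv h1]

end cyl

section fam
variable {X : Mf 4} {nc : ℕ} {A : Type} [Fintype A] {d : Dt κ lam ν} {ty : A → d.𝓔}
  {T : Type} [NormedAddCommGroup T] [NormedSpace ℝ T] [FiniteDimensional ℝ T]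
  {s : Pz X 0 fun i => d.e (ty i)} {𝓕 : Fam s nc T} {t : T}

variable (𝓕) in
/-- the configuration in the frame of the site -/
def alC (t : T) (c : Cfg X.M κ ν) : Cfg X.M κ ν := ⟨fun a x => 𝓕.al t c x a, c.Φ⟩

theorem al_act (h : 𝓕.OK) (ht : t ∈ 𝓕.Q) (u : X.M → ℂ) (c : Cfg X.M κ ν) (x : X.M) (a : Option κ) :
    𝓕.al t ((𝓕.P t).bg.act u c) x a = 𝓕.al t c x a - th s.bg.F.toPre u a x := by
  have h1 : ∀ b, th (𝓕.P t).bg.F.toPre u b x = ∑ j, 𝓕.S t x b j * th s.bg.F.toPre u j x := fun b => by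
    simp only [th, (h.mix t ht).D b u, Finset.mul_sum, Complex.im_sum, mul_smul_comm,
      Complex.smul_im, smul_eq_mul]
  have h2 := Pb50.th_P s.bg.F u a x
  rw [show s.bg.F.P = s.bg.B.P from h.site.bg.G.P] at h2
  simp only [Fam.al, Pb50.act_a, mul_sub, Finset.sum_sub_distrib, h1, Finset.mul_sum, ← mul_assoc]
  rw [Finset.sum_comm, ← h2]
  exact congrArg _ (Finset.sum_congr rfl fun j _ => by rw [← Finset.sum_mul, h.SiS t ht])

theorem alC_act (h : 𝓕.OK) (ht : t ∈ 𝓕.Q) (u : X.M → ℂ) (c : Cfg X.M κ ν) :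
    alC 𝓕 t ((𝓕.P t).bg.act u c) = ac s.bg.F.toPre s.bg.m.J u (alC 𝓕 t c) :=
  Cfg.ext (funext₂ fun a x => al_act h ht u c x a) (funext fun x => by
    simp only [alC, ac, Pb50.act_Φ, h.m t ht])

theorem alC_congr {c c' : Cfg X.M κ ν} {x : X.M} (e : At c c' x) : At (alC 𝓕 t c) (alC 𝓕 t c') x :=
  ⟨fun a => by simp only [alC, Fam.al, e.1], e.2⟩

theorem alC_nk (h : 𝓕.OK) (ht : t ∈ 𝓕.Q) {i : A} {K : Nk (d.e (ty i)) s.bg} (hK : K ∈ s.nk i)
    {x : (d.e (ty i)).Y.M × ℝ} (hx : x ∈ K.ψ.source) {c : Cfg X.M κ ν}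
    (hc : ∀ a, ∑ j, s.bg.B.P a j (K.ψ x) * c.a j (K.ψ x) = c.a a (K.ψ x)) :
    At (K.pb (alC 𝓕 t c)) (K.pb c) x :=
  ⟨fun a => (Finset.sum_congr rfl fun j _ => by rw [Pb50.Si_nk h ht hK hx]).trans (hc a), rfl⟩

end fam

end Crest.Agent.X212.Sm10.Dg
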