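import Crest.Agent.X212.Nr51.Main
import Crest.Agent.X212.As6.A
import Crest.Agent.X212.As6.B
import Crest.Agent.X212.Mk5.Main
import Crest.Agent.X212.Tm38.Asm
import Crest.Agent.X212.St29.Bw
import Crest.Agent.X212.Tw59.Per
import Crest.Agent.X212.Tw59.Deg
import Crest.Agent.X212.Tw59.Dat
import Crest.Agent.X212.Tw59.Tw
import Crest.Agent.X212.Tw59.Hol
import Crest.Agent.X212.Sm10.Mh2
import Crest.Agent.X212.Sm10.Mh3
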