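import Crest.Agent.X212.Hd82.Core
import Crest.Agent.X212.Hd82.Asm
import Crest.Agent.X212.Hd28.Hw
import Crest.Agent.X212.Exs4.Cut
import Crest.Agent.X212.Exs4.Gen
import Crest.Agent.X212.Exs4.Stz
import Crest.Agent.X212.Nd18.Chx
import Crest.Agent.X212.Add46.Spx
import Crest.Agent.X212.Sm10.Su1
import Crest.Agent.X212.Sm10.Su2
import Crest.Agent.X212.Sm10.Su3
import Crest.Agent.X212.Sm10.Cm1
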