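import Crest.Agent.X212.Sm10.In
import Crest.Agent.X212.Sm10.Rho
import Crest.Agent.X212.Sm10.Der
import Crest.Agent.X212.Hp13.Defs
import Crest.Agent.X212.Kh11.Beat

-- ▼ part X212/Sm10/Up
section

/-!
# X212 / Sm10 (helper10): going up the tower (`near : NearStmt`, `up : UpStmt`)
-/

set_option autoImplicit false
set_option linter.unusedSectionVars false

open Set Filter Topology Function
open scoped NNReal Real
open Crest.Agent.X212.Ext52 Crest.Agent.X212.Hp13

noncomputable section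

namespace Crest.Agent.X212.Sm10

section

variable {P Q S : Type*} [PartialOrder P] [Fintype P] [PartialOrder Q] [Fintype Q] [PartialOrder S]
  [Fintype S] {E : Type*} [NormedAddCommGroup E] [NormedSpace ℝ E] {R : Real P E} {R' : Real Q E}
  {R'' : Real S E} {f : Q → P} {g : S → Q}

theorem Real.lam_x_self (R : Real P E) (s : P) : R.lam s (R.x s) = 1 := by
  classical
  simp [Real.lam, Real.wt_x]

theorem Real.eq_of_lam_x (R : Real P E) {s t : P} (h : R.lam s (R.x t) ≠ 0) : s = t := by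
  classical
  by_contra n
  simp [Real.lam, Real.wt_x, n] at h

/-- a fine simplex lies in a coarse simplex -/
theorem Ref.spx_chain (h : Ref R R') {d : Set Q} (hd : IsChain (· ≤ ·) d) :
    ∃ c, IsChain (· ≤ ·) c ∧ R'.spx d ⊆ R.spx c := by
  rcases d.eq_empty_or_nonempty with rfl | ⟨u, hu⟩
  · refine ⟨∅, by simp [IsChain], fun p hp => ?_⟩
    exact ((Real.wt_mem hp.1).ne_zero (by simpa using hp.2)).elim
  obtain ⟨y, -, y1, y2⟩ := R'.exists_interior hd hu univ_mem
  have y3 : y ∈ R.B := h.B_eq ▸ y1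
  refine ⟨_, (Real.wt_mem y3).chain, fun p hp => ⟨h.B_eq ▸ hp.1, fun s hs => ?_⟩⟩
  obtain ⟨c, c1, c2⟩ := h.exists_support (h.B_eq ▸ hp.1) hs
  exact h.support_subset y3 (show c ∈ support _ from y2 ▸ hp.2 c1) c2

theorem Tw.refl (R : Real P E) : Tw R R id :=
  ⟨Ref.refl R, monotone_id, fun c => by simp [R.lam_x_self], fun _ _ h => (R.eq_of_lam_x h).le⟩

theorem Tw.x_mem (h : Tw R R' f) (c : Q) : R'.x c ∈ R.B := h.B_eq ▸ R'.x_mem c

theorem Tw.trans (h : Tw R R' f) (k : Tw R' R'' g) : Tw R R'' (f ∘ g) := by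
  have m : ∀ c, R''.x c ∈ R.B := fun c => h.B_eq ▸ k.x_mem c
  refine ⟨h.toRef.trans k.toRef, h.mono.comp k.mono,
    fun c => h.support_subset (m c) (k.ne c) (h.ne _), fun c x hx => ?_⟩
  obtain ⟨d, d1, d2⟩ := h.exists_support (m c) hx
  exact (h.le d x d2).trans (h.mono (k.le c d d1))

theorem Tw.lam_ne (h : Tw R R' f) {p : E} (hp : p ∈ R.B) {c : Q} (hc : R'.lam c p ≠ 0) :
    R.lam (f c) p ≠ 0 := h.support_subset hp hc (h.ne c)

theorem Tw.exists_le (h : Tw R R' f) {p : E} (hp : p ∈ R.B) {s : P} (hs : R.lam s p ≠ 0) :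
    ∃ c, R'.lam c p ≠ 0 ∧ s ≤ f c :=
  let ⟨c, c1, c2⟩ := h.exists_support hp hs; ⟨c, c1, h.le c s c2⟩

/-- the subcomplex of a lower set does not move -/
theorem Tw.spx_low (h : Tw R R' f) {W : Set P} (hW : IsLowerSet W) : R'.spx (f ⁻¹' W) = R.spx W := by
  ext p
  refine ⟨fun k => ⟨h.B_eq ▸ k.1, fun s hs => ?_⟩,
    fun k => ⟨h.B_eq ▸ k.1, fun c hc => k.2 (h.lam_ne k.1 hc)⟩⟩
  obtain ⟨c, c1, c2⟩ := h.exists_le (h.B_eq ▸ k.1) hs
  exact hW c2 (k.2 c1)

theorem Real.pl_add_const {F : Type*} [NormedAddCommGroup F] [NormedSpace ℝ F] (u : P → F) (v : F)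
    {p : E} (hp : p ∈ R.B) : R.pl (fun s => u s + v) p = R.pl u p + v := by
  exact (cmb_add u (fun _ => v) _).trans (congrArg _ (Real.pl_const v hp))

theorem Cir.tw (h : Tw R R' f) {W : Set P} (hW : IsLowerSet W) {z : P → P → ℤ}
    (hz : ∀ x ∈ W, ∀ y ∈ W, ∀ w ∈ W, x ≤ y → y ≤ w → z x w = z x y + z y w) {a : P → ℝ}
    {Θ : E → Circle} (hc : Cir R W z a Θ) :
    Cir R' (f ⁻¹' W) (fun c d => z (f c) (f d)) (fun c => R.pl (fun s => a s - z s (f c)) (R'.x c)) Θ := by
  intro p hp t ht hu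
  rw [h.spx_low hW] at hp
  rw [hc p hp (f t) ht fun s hs => let ⟨c, c1, c2⟩ := h.exists_le hp.1 hs; c2.trans (h.mono (hu c c1)),
    h.pl_eq _ hp.1]
  congr 2
  refine Real.pl_congr fun d hd => ?_
  have k := hW (h.mono (hu d hd)) ht
  rw [sub_eq_add_neg, ← Real.pl_add_const _ _ (h.x_mem d)]
  refine Real.pl_congr fun s hs => ?_
  rw [hz s (hW (h.le d s hs) k) _ k _ ht (h.le d s hs) (h.mono (hu d hd))]
  push_cast
  ring

theorem Cir.shift {W : Set P} {z : P → P → ℤ} {a : P → ℝ} {Θ : E → Circle} (hc : Cir R W z a Θ)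
    (g : P → ℤ) : Cir R W (fun s t => z s t + (g t - g s)) (fun s => a s - g s) Θ := by
  intro p hp t ht hu
  rw [hc p hp t ht hu, Circle.exp_eq_exp]
  refine ⟨g t, ?_⟩
  rw [mul_comm (g t : ℝ), ← mul_add, ← Real.pl_add_const _ _ hp.1]
  congr 1
  refine Real.pl_congr fun s _ => ?_
  push_cast
  ring

theorem Cir.congr {W : Set P} {z z' : P → P → ℤ} {a a' : P → ℝ} {Θ : E → Circle} (hc : Cir R W z a Θ)
    (hz : ∀ s ∈ W, ∀ t ∈ W, s ≤ t → z s t = z' s t) (ha : ∀ s ∈ W, a s = a' s) : Cir R W z' a' Θ := by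
  intro p hp t ht hu
  rw [hc p hp t ht hu, Real.pl_congr fun s hs => by
    rw [hz s (hp.2 hs) t ht (hu s hs), ha s (hp.2 hs)]]

end

theorem Der.tw {P : Type} [PartialOrder P] [Fintype P] {E : Type*} [NormedAddCommGroup E]
    [NormedSpace ℝ E] {R : Real P E} {R' : Real (Ch P) E}
    (h : Der (fun c : Ch P => (c.1 : Set P)) R R') : Tw R R' Ch.top :=
  ⟨h.toRef, Ch.top_mono, fun c => show c.top ∈ support _ from h.supp c ▸ c.top_mem,
    fun c _ hx => Ch.le_top ((h.supp c).le hx)⟩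

theorem near : NearStmt := by
  intro s t f h R
  induction' h with t f _ ih <;> intro V hV
  · exact ⟨R, Tw.refl R, fun c => mem_of_mem_nhdsWithin (R.x_mem c) (hV c)⟩
  obtain ⟨R', h1, h2⟩ := ih (fun x => {p | V x ∈ 𝓝[R.B] p}) fun x =>
    eventually_eventually_nhdsWithin.2 (hV x)
  obtain ⟨R'', k1, k2⟩ := R'.exists_near (sd_ch t.P) Ch.top (fun c => c.top_mem)
    (fun c => V (f c.top)) fun c => nhdsWithin_mono _ (fun _ h => h1.B_eq ▸ h.1) (h2 c.top)
  exact ⟨R'', h1.trans k1.tw, k2⟩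

theorem up : UpStmt := by
  intro k η s hA g
  refine ⟨fun x => {p | x ∈ g.W → g.R.pl (fun y => g.a y - g.z y x) p ∈ Ioo (0 : ℝ) 1}, fun x => ?_,
    fun t f e R' h hV => ?_⟩
  · by_cases hx : x ∈ g.W
    · have := (g.R.continuousOn_pl fun y => g.a y - g.z y x) _ (g.R.x_mem x)
      refine mem_of_superset (this (isOpen_Ioo.mem_nhds ?_)) fun _ k _ => k
      have z0 : g.z x x = 0 := by simpa using g.coc x hx x hx x hx le_rfl le_rfl
      simpa [z0] using g.a_mem x hx
    · exact univ_mem' fun _ k => (hx k).elim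
  have O : R'.spx t.Aᶜ = {p | p ∈ R'.B ∧ g.ρ p ≤ g.r0} := by
    rw [e, ← preimage_compl, h.spx_low hA.compl, g.spx_O, h.B_eq]
  refine ⟨⟨R', g.L, h.B_eq ▸ g.mem_B, h.B_eq ▸ g.far, fun d hd p hp q hq => ?_, g.ρ, g.r0, g.r0_mem,
    fun p hp => ?_, h.B_eq ▸ g.ρ_near, g.ρ_lip, fun x => ?_, O, f ⁻¹' g.W, g.low.preimage h.mono,
    h.spx_low g.low ▸ g.mem_W, h.spx_low g.low ▸ g.W_far, fun a ha x hx => g.star (f a) (by
      rwa [e] at ha) _ (hx.imp (fun k => h.mono k) fun k => h.mono k), pb f g.z,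
    fun x hx y hy w hw e1 e2 => g.coc _ hx _ hy _ hw (h.mono e1) (h.mono e2),
    fun x hx y hy e1 => g.mono _ hx _ hy (h.mono e1), g.δ, g.c,
    fun c => g.R.pl (fun y => g.a y - g.z y (f c)) (R'.x c), fun c hc => hV c hc,
    (g.cir.tw h g.low g.coc).congr (fun _ _ _ _ _ => rfl) fun c _ => ?_,
    h.spx_low g.low ▸ g.δ_near, g.δ_lip⟩, rfl, rfl, rfl, rfl, rfl, rfl, rfl⟩
  · obtain ⟨c, c1, c2⟩ := h.spx_chain hd
    exact g.mesh c c1 p (c2 hp) q (c2 hq)
  · rw [h.B_eq] at hp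
    rw [g.ρ_pl p hp, h.pl_eq _ hp]
    exact Real.pl_congr fun c _ => (g.ρ_pl _ (h.x_mem c)).symm
  · rw [← not_iff_not, not_lt]
    exact (R'.x_mem_spx (c := t.Aᶜ)).symm.trans (by rw [O]; exact and_iff_right (R'.x_mem x))
  · rw [add_comm, ← Real.pl_add_const _ _ (h.x_mem c)]
    exact Real.pl_congr fun s _ => by ring

end Crest.Agent.X212.Sm10
end
end

-- ▼ part X212/Sm10/Ang
section

/-!
# X212 / Sm10 (helper10): PL interpolation of a circle map; the data on the cubical grid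
-/

set_option autoImplicit false
set_option linter.unusedSectionVars false

open Set Filter Topology Function
open scoped ContDiff Manifold NNReal Real
open Crest.Agent.X212.Ext52 Crest.Agent.X212.Hp13

noncomputable section

namespace Crest.Agent.X212.Sm10

/-- the small angle from `u` to `v`, in turns -/
def om (u v : Circle) : ℝ := Complex.arg (v / u : Circle) / (2 * π)

theorem exp_om (u v : Circle) : u * Circle.exp (2 * π * om u v) = v := by
  rw [om, mul_div_cancel₀ _ Real.two_pi_pos.ne', Circle.exp_arg, mul_div_cancel]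

theorem dist_div (u v : Circle) : dist ((v / u : Circle) : ℂ) 1 = dist u v := by
  rw [dist_comm u, show dist v u = dist (v : ℂ) u from rfl, dist_eq_norm, dist_eq_norm, Circle.coe_div,
    div_sub_one u.coe_ne_zero, norm_div, Circle.norm_coe, div_one]

theorem re_pos {u v : Circle} (h : dist u v < 1) : 0 < ((v / u : Circle) : ℂ).re := by
  rw [← dist_div, dist_eq_norm] at h
  have := (abs_le.1 (Complex.abs_re_le_norm (((v / u : Circle) : ℂ) - 1))).1
  simp only [Complex.sub_re, Complex.one_re] at this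
  linarith

theorem om_add {u v w : Circle} (h : dist u v < 1) (k : dist v w < 1) : om u w = om u v + om v w := by
  have h1 := abs_lt.1 (Complex.abs_arg_lt_pi_div_two_iff.2 (Or.inl (re_pos h)))
  have h2 := abs_lt.1 (Complex.abs_arg_lt_pi_div_two_iff.2 (Or.inl (re_pos k)))
  rw [om, om, om, ← add_div, ← Complex.arg_mul (Circle.coe_ne_zero _) (Circle.coe_ne_zero _)
    ⟨by linarith, by linarith⟩, ← Circle.coe_mul, div_mul_div_cancel']

theorem om_self (u : Circle) : om u u = 0 := by simp [om]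

theorem om_int (u v : Circle) : ∃ n : ℤ, om 1 v - om 1 u - om u v = n := by
  obtain ⟨n, h⟩ := Circle.exp_eq_exp.1 (show Circle.exp (2 * π * om 1 v) =
    Circle.exp (2 * π * om 1 u + 2 * π * om u v) by
      rw [Circle.exp_add, ← one_mul (Circle.exp (2 * π * om 1 u)), exp_om, exp_om,
        ← one_mul (Circle.exp _), exp_om])
  exact ⟨n, mul_left_cancel₀ Real.two_pi_pos.ne' (by linarith)⟩

theorem exists_om {ε : ℝ} (h : 0 < ε) : ∃ d > 0, ∀ u v : Circle, dist u v < d → |om u v| ≤ ε := by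
  obtain ⟨d, d0, hd⟩ := Metric.continuousAt_iff.1 (Complex.continuousAt_arg Complex.one_mem_slitPlane) ε h
  refine ⟨d, d0, fun u v k => ?_⟩
  have := hd (dist_div u v ▸ k)
  rw [Complex.arg_one, Real.dist_eq, sub_zero] at this
  rw [om, abs_div, abs_of_pos Real.two_pi_pos]
  exact (div_le_self (abs_nonneg _) (by linarith [Real.pi_gt_three])).trans this.le

section

variable {E : Type*} [NormedAddCommGroup E] [NormedSpace ℝ E] {θ : E → Circle}

theorem contDiffAt_om {p : E} (h : ContDiffAt ℝ ∞ (fun q => (θ q : ℂ)) p) {u : Circle}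
    (k : dist u (θ p) < 1) : ContDiffAt ℝ ∞ (fun q => om u (θ q)) p := by
  have : ContDiffAt ℝ ∞ (fun q => Complex.imCLM (Complex.log ((θ q : ℂ) / u))) p :=
    Complex.imCLM.contDiff.contDiffAt.comp p (ContDiffAt.comp (g := Complex.log) p
      ((Complex.contDiffAt_log (Or.inl (re_pos k))).restrict_scalars ℝ) (h.div_const _))
  simpa [om, Complex.log_im] using this.div_const (2 * π)

theorem continuousAt_of_coe {p : E} (h : ContDiffAt ℝ ∞ (fun q => (θ q : ℂ)) p) : ContinuousAt θ p :=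
  IsInducing.subtypeVal.continuousAt_iff.2 h.continuousAt

/-- the derivative of the local angles -/
def dom (θ : E → Circle) (p : E) : E →L[ℝ] ℝ := fderiv ℝ (fun q => om (θ p) (θ q)) p

theorem hasFDerivAt_om {p : E} (h : ContDiffAt ℝ ∞ (fun q => (θ q : ℂ)) p) {u : Circle}
    (k : dist u (θ p) < 1) : HasFDerivAt (fun q => om u (θ q)) (dom θ p) p := by
  refine (((contDiffAt_om h (by simp)).differentiableAt (by simp)).hasFDerivAt.const_add
    (om u (θ p))).congr_of_eventuallyEq ?_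
  filter_upwards [(continuousAt_of_coe h).eventually (Metric.ball_mem_nhds _ one_pos)] with q hq
  exact om_add k (by rwa [dist_comm])

theorem continuousAt_dom {p : E} (h : ∀ᶠ q in 𝓝 p, ContDiffAt ℝ ∞ (fun q => (θ q : ℂ)) q) :
    ContinuousAt (dom θ) p := by
  refine ((contDiffAt_om h.self_of_nhds (u := θ p) (by simp)).continuousAt_fderiv (by simp)).congr ?_
  filter_upwards [h, (continuousAt_of_coe h.self_of_nhds).eventually (Metric.ball_mem_nhds _ one_pos)]
    with q h1 h2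
  exact (hasFDerivAt_om h1 (by rwa [dist_comm])).fderiv

variable {P : Type} [PartialOrder P] [Fintype P] (R : Real P E) (θ)

/-- the correction that makes the angle PL -/
def del (p : E) : ℝ := R.pl (fun s => om (θ p) (θ (R.x s))) p

/-- the winding cocycle -/
def wind (s t : P) : ℤ := (om_int (θ (R.x t)) (θ (R.x s))).choose

theorem wind_eq (s t : P) : (wind θ R s t : ℝ) =
    om 1 (θ (R.x s)) - om 1 (θ (R.x t)) - om (θ (R.x t)) (θ (R.x s)) :=
  (om_int (θ (R.x t)) (θ (R.x s))).choose_spec.symm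

variable {θ R} {W : Set P}
  (H : ∀ c ⊆ W, IsChain (· ≤ ·) c → ∀ p ∈ R.spx c, ∀ q ∈ R.spx c, dist (θ p) (θ q) < 1)
include H

theorem near_x {s t : P} (hs : s ∈ W) (ht : t ∈ W) (h : s ≤ t) : dist (θ (R.x t)) (θ (R.x s)) < 1 :=
  H {s, t} (pair_subset hs ht) (by rintro _ (rfl | rfl) _ (rfl | rfl) _ <;> simp [h]) _
    (R.x_mem_spx.2 (by simp)) _ (R.x_mem_spx.2 (by simp))

theorem coc_wind : CocOn W (wind θ R) := fun s hs t ht w hw e1 e2 => by
  have := om_add (near_x H ht hw e2) (near_x H hs ht e1)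
  have k : (wind θ R s w : ℝ) = wind θ R s t + wind θ R t w := by
    simp only [wind_eq]
    linarith
  exact_mod_cast k

theorem cir_wind : Cir R W (wind θ R) (fun s => om 1 (θ (R.x s)))
    fun p => θ p * Circle.exp (2 * π * del θ R p) := by
  intro p hp t ht hu
  have n : dist (θ p) (θ (R.x t)) < 1 := H (insert t (support (R.wt p))) (insert_subset ht hp.2)
    ((Real.wt_mem hp.1).chain.insert fun s hs _ => Or.inr (hu s hs)) _ ⟨hp.1, subset_insert _ _⟩ _
    (R.x_mem_spx.2 (mem_insert _ _))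
  have : del θ R p = R.pl (fun s => om 1 (θ (R.x s)) - wind θ R s t) p +
      (om (θ p) (θ (R.x t)) - om 1 (θ (R.x t))) := by
    rw [← Real.pl_add_const _ _ hp.1]
    refine Real.pl_congr fun s hs => ?_
    rw [wind_eq, om_add n (near_x H (hp.2 hs) ht (hu s hs))]
    ring
  simp only [this, mul_add, mul_sub, Circle.exp_add, Circle.exp_sub]
  rw [mul_left_comm, ← mul_div_assoc, exp_om, ← one_mul (Circle.exp (2 * π * om 1 _)), exp_om,
    div_self', mul_one]

theorem del_eq {c : Set P} (hW : c ⊆ W) (hc : IsChain (· ≤ ·) c) {b p : E} (hb : b ∈ R.spx c)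
    (hp : p ∈ R.spx c) :
    del θ R p = R.pl (fun s => om (θ b) (θ (R.x s))) p - om (θ b) (θ p) := by
  rw [sub_eq_add_neg, ← Real.pl_add_const _ _ hp.1]
  refine Real.pl_congr fun s hs => ?_
  rw [om_add (H c hW hc b hb p hp) (H c hW hc p hp _ (R.x_mem_spx.2 (hp.2 hs)))]
  ring

end

/-- the data that do not depend on the colouring -/
structure G0 (k : KD) (η : ℝ≥0) (P : Type) [PartialOrder P] [Fintype P] where
  R : Real P E3
  L : ℝ
  mem_B : ∀ p, p ∈ R.B ↔ ∀ i, |p i| ≤ L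
  far : ∀ p, 1 / 16 ≤ rho k.toTube p → p ∈ interior R.B
  mesh : ∀ c, IsChain (· ≤ ·) c → ∀ p ∈ R.spx c, ∀ q ∈ R.spx c, dist p q ≤ η ∧
    |rho k.toTube p - rho k.toTube q| ≤ η
  ρ : E3 → ℝ
  ρ_pl : ∀ p ∈ R.B, ρ p = R.pl (fun x => ρ (R.x x)) p
  ρ_near : ∀ p ∈ R.B, |ρ p - rho k.toTube p| ≤ η
  ρ_lip : ∀ U, Convex ℝ U → U ⊆ rho k.toTube ⁻¹' Icc (1 / 4) 3 →
    LipschitzOnWith η (ρ - rho k.toTube) U
  W : Set P
  low : IsLowerSet W
  mem_W : ∀ p, 1 / 4 ≤ rho k.toTube p → p ∈ R.spx W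
  W_far : ∀ p ∈ R.spx W, 1 / 16 < rho k.toTube p
  z : P → P → ℤ
  coc : CocOn W z
  δ : E3 → ℝ
  a : P → ℝ
  cir : Cir R W z a fun p => th k p * Circle.exp (2 * π * δ p)
  δ_near : ∀ p ∈ R.spx W, |δ p| ≤ η
  δ_lip : ∀ U, Convex ℝ U → U ⊆ rho k.toTube ⁻¹' Ici (1 / 4) → LipschitzOnWith η δ U

namespace G0

variable {k : KD} {η : ℝ≥0} {P Q : Type} [PartialOrder P] [Fintype P] [PartialOrder Q] [Fintype Q]
  (g : G0 k η P)

/-- higher in the tower -/
def tw {R' : Real Q E3} {f : Q → P} (h : Tw g.R R' f) : G0 k η Q where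
  R := R'
  L := g.L
  mem_B := h.B_eq ▸ g.mem_B
  far := h.B_eq ▸ g.far
  mesh d hd p hp q hq := let ⟨c, c1, c2⟩ := h.spx_chain hd; g.mesh c c1 p (c2 hp) q (c2 hq)
  ρ := g.ρ
  ρ_pl p hp := by
    rw [h.B_eq] at hp
    rw [g.ρ_pl p hp, h.pl_eq _ hp]
    exact Real.pl_congr fun c _ => (g.ρ_pl _ (h.x_mem c)).symm
  ρ_near := h.B_eq ▸ g.ρ_near
  ρ_lip := g.ρ_lip
  W := f ⁻¹' g.W
  low := g.low.preimage h.mono
  mem_W := h.spx_low g.low ▸ g.mem_W
  W_far := h.spx_low g.low ▸ g.W_far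
  z := pb f g.z
  coc _ hx _ hy _ hw e1 e2 := g.coc _ hx _ hy _ hw (h.mono e1) (h.mono e2)
  δ := g.δ
  a c := g.R.pl (fun s => g.a s - g.z s (f c)) (R'.x c)
  cir := g.cir.tw h g.low g.coc
  δ_near := h.spx_low g.low ▸ g.δ_near
  δ_lip := g.δ_lip

/-- change of the cocycle by a coboundary -/
def shift (u : P → ℤ) : G0 k η P :=
  { g with
    z := fun s t => g.z s t + (u t - u s)
    coc := fun x hx y hy w hw e1 e2 => by simp only [g.coc x hx y hy w hw e1 e2]; ring
    a := fun s => g.a s - u s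
    cir := g.cir.shift u }

end G0

end Crest.Agent.X212.Sm10
end
end

-- ▼ part X212/Sm10/Mf
section

/-!
# X212 / Sm10 (helper10): a realisation in a `d`-dimensional space is a combinatorial manifold

`mf_of_real`, `rch_gen`, `rch_of_preconnected`.
-/

set_option autoImplicit false
set_option linter.unusedSectionVars false

open Set Filter Topology Function
open Module (finrank finrank_self finrank_fintype_fun_eq_card)
open Crest.Agent.X212.Hp13

noncomputable section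

namespace Crest.Agent.X212.Sm10

theorem rch_gen {α : Type} [PartialOrder α] {X : Type*} [TopologicalSpace X] {A : Set α} {T : Set X}
    (hT : IsPreconnected T) (l : X → α → Prop) (hex : ∀ q ∈ T, ∃ s ∈ A, l q s)
    (hl : ∀ p ∈ T, ∀ᶠ q in 𝓝[T] p, ∀ s ∈ A, ∀ t ∈ A, l p s → l q t → Cm s t) {p q : X} (hp : p ∈ T)
    (hq : q ∈ T) {s t : α} (hs : s ∈ A) (ht : t ∈ A) (h1 : l p s) (h2 : l q t) : Rch A s t := by
  refine (hT.induction₂' (fun p q => q ∈ T ∧ ∀ s ∈ A, ∀ t ∈ A, l p s → l q t → Rch A s t)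
    (fun p hp => ?_) (fun p q r _ _ _ h k => ⟨k.1, fun s hs t ht h1 h2 => ?_⟩) hp hq).2 s hs t ht h1 h2
  · filter_upwards [hl p hp, self_mem_nhdsWithin] with q h hq
    exact ⟨⟨hq, fun s hs t ht h1 h2 => .single ⟨hs, ht, h s hs t ht h1 h2⟩⟩, hp,
      fun t ht s hs h2 h1 => .single ⟨ht, hs, (h s hs t ht h1 h2).symm⟩⟩
  · obtain ⟨u, hu, h3⟩ := hex q h.1
    exact (h.2 s hs u hu h1 h3).trans (k.2 u hu t ht h3 h2)

namespace Real

variable {P : Type} [PartialOrder P] [Fintype P] {E : Type*} [NormedAddCommGroup E]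
  [NormedSpace ℝ E] (R : Real P E)

/-- carriers grow -/
theorem eventually_support {p : E} (hp : p ∈ R.B) :
    ∀ᶠ q in 𝓝[R.B] p, support (R.wt p) ⊆ support (R.wt q) :=
  (eventually_all.2 fun s => show ∀ᶠ q in 𝓝[R.B] p, R.lam s p ≠ 0 → R.lam s q ≠ 0 by
    by_cases h : R.lam s p = 0
    · exact Eventually.of_forall fun _ k => (k h).elim
    · exact (R.continuousOn_lam s p hp).eventually_ne h |>.mono fun _ k _ => k).mono fun _ k s => k s

/-- vertices of `A` seen from a connected set are joined in `A` -/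
theorem rch_of_preconnected {A : Set P} {T : Set E} (hT : IsPreconnected T) (hB : T ⊆ R.B)
    (hex : ∀ q ∈ T, ∃ s ∈ A, R.lam s q ≠ 0) {p q : E} (hp : p ∈ T) (hq : q ∈ T) {s t : P}
    (hs : s ∈ A) (ht : t ∈ A) (h1 : R.lam s p ≠ 0) (h2 : R.lam t q ≠ 0) : Rch A s t := by
  refine rch_gen hT (fun q s => R.lam s q ≠ 0) hex (fun p hp => ?_) hp hq hs ht h1 h2
  filter_upwards [nhdsWithin_mono _ hB (R.eventually_support (hB hp)), self_mem_nhdsWithin]
    with q h hq s _ t _ h1 h2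
  exact (wt_mem (hB hq)).chain.total (h h1) (show t ∈ support _ from h2)

open Classical in
/-- the carrier as a chain -/
def car (p : E) (hp : p ∈ R.B) : Ch P :=
  ⟨Finset.univ.filter fun s => R.wt p s ≠ 0, by
    simpa [Finset.Nonempty, funext_iff] using (wt_mem hp).ne_zero,
    (wt_mem hp).chain.mono fun s hs => by simpa using hs⟩

theorem coe_car {p : E} (hp : p ∈ R.B) : ((R.car p hp).1 : Set P) = support (R.wt p) := by
  ext s
  simp [car]

/-- the direction of a simplex -/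
def dir (c : Ch P) : Submodule ℝ E :=
  (LinearMap.ker (cmb fun _ : c.1 => (1 : ℝ))).map (cmb fun s : c.1 => R.x s)

theorem cmb_sub_type {F : Type*} [AddCommGroup F] [Module ℝ F] (y : P → F) {c : Finset P}
    {m : P → ℝ} (h : support m ⊆ c) : cmb (fun s : c => y s) (fun s => m s) = cmb y m := by
  rw [cmb_apply, cmb_apply, Finset.sum_coe_sort c fun s => m s • y s]
  exact Finset.sum_subset (Finset.subset_univ _) fun s _ hs => by
    rw [support_subset_iff'.1 h s hs, zero_smul]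

theorem exists_ext {c : Finset P} (w : c → ℝ) : ∃ m : P → ℝ, support m ⊆ c ∧ w = fun s : c => m s := by
  classical
  exact ⟨fun s => if h : s ∈ c then w ⟨s, h⟩ else 0, support_subset_iff'.2 fun s hs => dif_neg hs,
    funext fun s => by simp⟩

theorem mem_dir {c : Ch P} {u : E} :
    u ∈ R.dir c ↔ ∃ m : P → ℝ, support m ⊆ c.1 ∧ ∑ s, m s = 0 ∧ cmb R.x m = u := by
  have e : ∀ m : P → ℝ, cmb (fun _ => (1 : ℝ)) m = ∑ s, m s := fun m => by simp [cmb_real]
  constructor
  · rintro ⟨w, h1, rfl⟩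
    obtain ⟨m, h, rfl⟩ := exists_ext w
    exact ⟨m, h, (e m).symm.trans ((cmb_sub_type (fun _ => (1 : ℝ)) h).symm.trans h1),
      (cmb_sub_type _ h).symm⟩
  · rintro ⟨m, h, h1, rfl⟩
    exact ⟨fun s => m s, (cmb_sub_type (fun _ => (1 : ℝ)) h).trans ((e m).trans h1), cmb_sub_type _ h⟩

theorem finrank_dir (c : Ch P) : finrank ℝ (R.dir c) + 1 = c.1.card := by
  classical
  have h1 := (cmb fun _ : c.1 => (1 : ℝ)).finrank_range_add_finrank_ker
  have h2 : LinearMap.range (cmb fun _ : c.1 => (1 : ℝ)) = ⊤ := LinearMap.range_eq_top.2 fun a => by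
    obtain ⟨s, hs⟩ := c.2.1
    exact ⟨Pi.single ⟨s, hs⟩ a, by simp [cmb_single]⟩
  have h3 : Injective ((cmb fun s : c.1 => R.x s).domRestrict
      (LinearMap.ker (cmb fun _ : c.1 => (1 : ℝ)))) := LinearMap.ker_eq_bot.1 <|
    LinearMap.ker_eq_bot'.2 fun w hw => Subtype.ext <| by
      obtain ⟨w, h0⟩ := w
      obtain ⟨m, h, rfl⟩ := exists_ext w
      have := indep (R := R) c.2.2 h (by
        simpa [cmb_real] using (cmb_sub_type (fun _ => (1 : ℝ)) h).symm.trans h0)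
        ((cmb_sub_type _ h).symm.trans hw)
      simp [this, funext_iff]
  rw [h2, finrank_top, finrank_self, finrank_fintype_fun_eq_card, Fintype.card_coe] at h1
  rw [dir, ← LinearMap.range_domRestrict, LinearMap.finrank_range_of_inj h3]
  omega

variable {R}

theorem sub_mem_dir {c : Ch P} {p q : E} (hp : p ∈ R.spx c.1) (hq : q ∈ R.spx c.1) :
    q - p ∈ R.dir c :=
  R.mem_dir.2 ⟨R.wt q - R.wt p, (support_sub _ _).trans (union_subset hq.2 hp.2),
    by simp [(wt_mem hp.1).sum, (wt_mem hq.1).sum], by rw [map_sub, cmb_wt hp.1, cmb_wt hq.1]⟩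

theorem wt_sub {c : Set P} (hc : IsChain (· ≤ ·) c) {p q : E} (hp : p ∈ R.spx c) (hq : q ∈ R.spx c)
    {m : P → ℝ} (h1 : support m ⊆ c) (h2 : ∑ s, m s = 0) (h3 : cmb R.x m = q - p) :
    R.wt q = R.wt p + m := by
  have := indep (R := R) hc (m := R.wt q - R.wt p - m)
    ((support_sub _ _).trans (union_subset ((support_sub _ _).trans (union_subset hq.2 hp.2)) h1))
    (by simp [(wt_mem hp.1).sum, (wt_mem hq.1).sum, h2])
    (by rw [map_sub, map_sub, cmb_wt hp.1, cmb_wt hq.1, h3, sub_self])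
  linear_combination this

theorem eventually_ray {p : E} (hp : p ∈ interior R.B) (u : E) : ∀ᶠ t : ℝ in 𝓝[>] 0,
    p + t • u ∈ R.B ∧ support (R.wt p) ⊆ support (R.wt (p + t • u)) := by
  have h := R.eventually_support (interior_subset hp)
  rw [nhdsWithin_eq_nhds.2 (mem_interior_iff_mem_nhds.1 hp)] at h
  have t : Tendsto (fun t : ℝ => p + t • u) (𝓝[>] 0) (𝓝 p) :=
    tendsto_nhdsWithin_of_tendsto_nhds (Continuous.tendsto' (by fun_prop) _ _ (by simp))
  exact t.eventually ((show ∀ᶠ q in 𝓝 p, q ∈ R.B from mem_interior_iff_mem_nhds.1 hp).and h)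

variable [FiniteDimensional ℝ E] {d : ℕ}

theorem card_le (R : Real P E) (c : Ch P) : c.1.card ≤ finrank ℝ E + 1 := by
  rw [← R.finrank_dir]
  exact Nat.succ_le_succ (Submodule.finrank_le _)

theorem exists_generic (R : Real P E) : ∃ u, ∀ c : Ch P, c.1.card ≤ finrank ℝ E → u ∉ R.dir c := by
  by_contra! h
  obtain ⟨c, hc⟩ := Subspace.exists_eq_top_of_iUnion_eq_univ
    (p := fun c : {c : Ch P // c.1.card ≤ finrank ℝ E} => R.dir c) (eq_univ_of_forall fun u =>
      let ⟨c, h1, h2⟩ := h u; mem_iUnion.2 ⟨⟨c, h1⟩, h2⟩)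
  have := R.finrank_dir c
  have := c.2
  rw [hc, finrank_top] at *
  omega

/-- a generic direction leads from a face into exactly one top simplex -/
theorem flow {u : E} (hu : ∀ c : Ch P, c.1.card ≤ finrank ℝ E → u ∉ R.dir c) {μ : Ch P → P → ℝ}
    (hμ : ∀ D : Ch P, D.1.card = finrank ℝ E + 1 →
      support (μ D) ⊆ D.1 ∧ ∑ s, μ D s = 0 ∧ cmb R.x (μ D) = u)
    {c : Ch P} {p : E} (hp : p ∈ interior R.B) (hc : support (R.wt p) = c.1) :
    ∃! D : Ch P, D.1.card = finrank ℝ E + 1 ∧ c ≤ D ∧ ∀ s ∈ D.1, s ∉ c.1 → 0 < μ D s := by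
  have pB := interior_subset hp
  have key : ∀ D : Ch P, D.1.card = finrank ℝ E + 1 ∧ c ≤ D ∧ (∀ s ∈ D.1, s ∉ c.1 → 0 < μ D s) →
      ∀ᶠ t : ℝ in 𝓝[>] 0, support (R.wt (p + t • u)) = D.1 := by
    rintro D ⟨h1, h2, h3⟩
    obtain ⟨m1, m2, m3⟩ := hμ D h1
    have : ∀ᶠ t : ℝ in 𝓝[>] 0, ∀ s, s ∈ D.1 → 0 < R.wt p s + t * μ D s := eventually_all.2 fun s => by
      by_cases k : s ∈ c.1
      · have t : Tendsto (fun t : ℝ => R.wt p s + t * μ D s) (𝓝[>] 0) (𝓝 (R.wt p s)) :=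
          tendsto_nhdsWithin_of_tendsto_nhds (Continuous.tendsto' (by fun_prop) _ _ (by simp))
        exact (t.eventually (lt_mem_nhds ((wt_mem pB).pos (hc.ge k)))).mono fun _ h _ => h
      · exact eventually_nhdsWithin_of_forall fun t ht hs =>
          add_pos_of_nonneg_of_pos ((wt_mem pB).nonneg s) (mul_pos ht (h3 s hs k))
    refine this.mono fun t ht => ?_
    have sub : support (R.wt p + t • μ D) ⊆ D.1 := (support_add _ _).trans
      (union_subset (hc.le.trans h2) ((support_const_smul_subset _ _).trans m1))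
    have w : R.wt p + t • μ D ∈ Wt P := IsWt.mk' D.2.2 (fun s => by
      by_cases k : s ∈ D.1
      · exact (ht s k).le
      · exact (support_subset_iff'.1 sub s k).ge)
      (by simp [Finset.sum_add_distrib, ← Finset.mul_sum, m2, (wt_mem pB).sum]) sub
    rw [← cmb_wt pB, ← m3, ← map_smul, ← map_add, wt_cmb w]
    exact sub.antisymm fun s hs => (ht s hs).ne'
  refine existsUnique_of_exists_of_unique ?_ fun D D' h h' => ?_
  · obtain ⟨t, ⟨t1, t2⟩, t0⟩ := ((eventually_ray hp u).and self_mem_nhdsWithin).exists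
    have t0 : 0 < t := t0
    have k1 : p ∈ R.spx (R.car _ t1).1 := ⟨pB, R.coe_car t1 ▸ t2⟩
    have k2 : p + t • u ∈ R.spx (R.car _ t1).1 := ⟨t1, (R.coe_car t1).ge⟩
    have k3 : (R.car _ t1).1.card = finrank ℝ E + 1 := le_antisymm (R.card_le _) <| not_le.1 fun k =>
      hu _ k ((Submodule.smul_mem_iff _ t0.ne').1 (by simpa using sub_mem_dir k1 k2))
    obtain ⟨m1, m2, m3⟩ := hμ _ k3
    refine ⟨_, k3, Finset.coe_subset.1 (hc ▸ k1.2), fun s h1 h2 => ?_⟩
    have := congrFun (wt_sub (R.car _ t1).2.2 k1 k2 ((support_const_smul_subset t _).trans m1)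
      (by simp [← Finset.mul_sum, m2]) (by simp [m3])) s
    have z : R.wt p s = 0 := not_not.1 fun k => h2 (hc.le k)
    have := (wt_mem t1).pos ((R.coe_car t1).le h1)
    simp_all
  · obtain ⟨t, h1, h2⟩ := ((key D h).and (key D' h')).exists
    exact Ch.ext (Finset.coe_injective (h1.symm.trans h2))

theorem exists_mu (R : Real P E) (u : E) : ∃ μ : Ch P → P → ℝ, ∀ D : Ch P,
    D.1.card = finrank ℝ E + 1 → support (μ D) ⊆ D.1 ∧ ∑ s, μ D s = 0 ∧ cmb R.x (μ D) = u := by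
  have : ∀ D : Ch P, ∃ m : P → ℝ, D.1.card = finrank ℝ E + 1 →
      support m ⊆ D.1 ∧ ∑ s, m s = 0 ∧ cmb R.x m = u := fun D => by
    by_cases h : D.1.card = finrank ℝ E + 1
    · have e : R.dir D = ⊤ := Submodule.eq_top_of_finrank_eq (by have := R.finrank_dir D; omega)
      obtain ⟨m, hm⟩ := R.mem_dir.1 (e.ge (Submodule.mem_top (x := u)))
      exact ⟨m, fun _ => hm⟩
    · exact ⟨0, fun k => (h k).elim⟩
  exact Classical.axiomOfChoice this

end Real

open Classical in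
theorem sum_between {P : Type} [PartialOrder P] [Fintype P] {c D : Ch P} {N : P → Prop} {s : P}
    (h1 : s ∈ D.1) (h2 : s ∉ c.1) (h3 : N s) :
    ∑ e ∈ Finset.univ.filter (fun e : Ch P => c ≤ e ∧ e ≤ D ∧ ∀ t ∈ D.1, t ∉ e.1 → N t), e.sg = 0 := by
  have sub : ∀ e : Ch P, e ≤ D → symmDiff e.1 {s} ⊆ D.1 := fun e he t ht => by
    rcases Finset.mem_symmDiff.1 ht with k | k
    · exact he k.1
    · exact Finset.mem_singleton.1 k.1 ▸ h1
  have sup : ∀ e : Ch P, c ≤ e → c.1 ⊆ symmDiff e.1 {s} := fun e he t ht =>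
    Finset.mem_symmDiff.2 (Or.inl ⟨he ht, fun k => h2 (Finset.mem_singleton.1 k ▸ ht)⟩)
  refine Finset.sum_involution (fun e he => ⟨symmDiff e.1 {s},
    c.2.1.mono (sup e (Finset.mem_filter.1 he).2.1),
    D.2.2.mono (Finset.coe_subset.2 (sub e (Finset.mem_filter.1 he).2.2.1))⟩) (fun e he => ?_)
    (fun e he _ k => ?_) (fun e he => ?_) fun e he => Ch.ext (symmDiff_symmDiff_cancel_right _ _)
  · simp only [Ch.sg]
    by_cases k : s ∈ e.1
    · rw [symmDiff_of_ge (Finset.singleton_subset_iff.2 k), Finset.sdiff_singleton_eq_erase,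
        ← Finset.card_erase_add_one k]
      ring
    · rw [(Finset.disjoint_singleton_right.2 k).symmDiff_eq_sup, Finset.sup_eq_union,
        Finset.card_union_of_disjoint (Finset.disjoint_singleton_right.2 k), Finset.card_singleton]
      ring
  · simpa using congrArg Subtype.val k
  · have := (Finset.mem_filter.1 he).2
    refine Finset.mem_filter.2 ⟨Finset.mem_univ _, sup e this.1, sub e this.2.1, fun t t1 t2 => ?_⟩
    by_cases k : t = s
    · exact k ▸ h3
    · exact this.2.2 t t1 fun k' => t2 (Finset.mem_symmDiff.2 (Or.inl ⟨k', by simpa using k⟩))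

/-- the link conditions hold at the interior points of a realisation -/
theorem mf_of_real {P : Type} [PartialOrder P] [Fintype P] {E : Type*} [NormedAddCommGroup E]
    [NormedSpace ℝ E] [FiniteDimensional ℝ E] (R : Real P E) {d : ℕ} (hd : finrank ℝ E = d)
    (d0 : 0 < d) {A : Set P} (hA : ∀ a ∈ A, R.x a ∈ interior R.B) : Mf d A := by
  classical
  subst hd
  have I : ∀ c : Ch P, Mt A c → ∃ p ∈ interior R.B, support (R.wt p) = c.1 := fun c ⟨a, h1, h2⟩ =>
    let ⟨p, p1, _, p3⟩ := R.exists_interior c.2.2 h1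
      (mem_nhdsWithin_of_mem_nhds (isOpen_interior.mem_nhds (hA a h2))); ⟨p, p1, p3⟩
  obtain ⟨u, hu⟩ := R.exists_generic
  obtain ⟨μ, hμ⟩ := R.exists_mu u
  refine ⟨fun c _ => R.card_le c, fun c hc => ?_, fun c hc hlt c1 h1 c2 h2 => ?_, fun c hc => ?_⟩
  · have nz : ∀ D : Ch P, D.1.card = finrank ℝ E + 1 → ∀ s ∈ D.1, μ D s ≠ 0 := fun D h s hs z => by
      obtain ⟨m1, m2, m3⟩ := hμ D h
      have k := Finset.card_erase_add_one hs
      refine hu ⟨D.1.erase s, Finset.card_pos.1 (by omega), D.2.2.mono (by simp)⟩ (by simp only; omega)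
        (R.mem_dir.2 ⟨_, fun t ht => ?_, m2, m3⟩)
      exact Finset.mem_erase.2 ⟨fun e => ht (e ▸ z), m1 ht⟩
    obtain ⟨p, p1, p2⟩ := I c hc
    obtain ⟨D0, d1, d2⟩ := Real.flow (u := -u) (μ := fun D => -μ D)
      (fun c h k => hu c h (by simpa using k)) (fun D h => by simpa using hμ D h) p1 p2
    have e1 : ∀ e ∈ Finset.univ.filter (c ≤ ·), e.sg = ∑ D : Ch P, if D.1.card = finrank ℝ E + 1 ∧
        e ≤ D ∧ (∀ s ∈ D.1, s ∉ e.1 → 0 < μ D s) then e.sg else 0 := fun e he => by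
      obtain ⟨q, q1, q2⟩ := I e (hc.mono (Finset.mem_filter.1 he).2)
      obtain ⟨D, k1, k2⟩ := Real.flow hu hμ q1 q2
      rw [Finset.sum_eq_single D (fun D' _ n => if_neg fun k => n (k2 D' k)) (by simp), if_pos k1]
    rw [Finset.sum_congr rfl e1, Finset.sum_comm, Finset.sum_eq_single D0 (fun D _ n => ?_) (by simp),
      Finset.sum_eq_single D0 (fun e he n => if_neg fun k => n ?_) (by simp [d1.2.1]), if_pos
        ⟨d1.1, le_rfl, fun s h k => (k h).elim⟩, Ch.sg, d1.1]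
    · refine le_antisymm k.2.1 fun s hs => not_not.1 fun m => ?_
      have a1 := k.2.2 s hs m
      have a2 := d1.2.2 s hs fun m' => m ((Finset.mem_filter.1 he).2 m')
      simp only [Pi.neg_apply] at a2
      linarith
    · by_cases k : D.1.card = finrank ℝ E + 1 ∧ c ≤ D
      · have : ∃ s ∈ D.1, s ∉ c.1 ∧ 0 < μ D s := by
          by_contra! m
          exact n (d2 D ⟨k.1, k.2, fun s a b => neg_pos.2 ((m s a b).lt_of_ne (nz D k.1 s a))⟩)
        obtain ⟨s, s1, s2, s3⟩ := this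
        refine Eq.trans ?_ (sum_between (N := fun t => 0 < μ D t) s1 s2 s3)
        rw [Finset.sum_filter, Finset.sum_filter]
        refine Finset.sum_congr rfl fun e _ => ?_
        by_cases m : c ≤ e <;> simp [k.1, m]
      · exact Finset.sum_eq_zero fun e he => if_neg fun m =>
          k ⟨m.1, (Finset.mem_filter.1 he).2.trans m.2.1⟩
  · obtain ⟨p, p1, p2⟩ := I c hc
    have pB := interior_subset p1
    have h := R.eventually_support pB
    rw [nhdsWithin_eq_nhds.2 (mem_interior_iff_mem_nhds.1 p1)] at h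
    obtain ⟨r, r0, hr⟩ := Metric.eventually_nhds_iff_ball.1
      (((show ∀ᶠ q in 𝓝 p, q ∈ R.B from mem_interior_iff_mem_nhds.1 p1).and h))
    let a : E → ℝ := fun v => min r 1 / (1 + ‖v‖)
    have a0 : ∀ v, 0 < a v := fun v => by positivity
    have a1 : ∀ v, a v ≤ 1 := fun v => (div_le_one (by positivity)).2
      ((min_le_right _ _).trans (le_add_of_nonneg_right (norm_nonneg _)))
    have hb : ∀ v, p + a v • v ∈ Metric.ball p r := fun v => by
      rw [mem_ball_iff_norm, add_sub_cancel_left, norm_smul, Real.norm_of_nonneg (a0 v).le,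
        div_mul_eq_mul_div, div_lt_iff₀ (by positivity)]
      nlinarith [min_le_left r 1, norm_nonneg v]
    have ct : Continuous fun v => p + a v • v := continuous_const.add
      ((continuous_const.div (by fun_prop) fun v => by positivity).smul continuous_id)
    have T : IsPreconnected ((R.dir c : Set E)ᶜ) := (isConnected_compl_of_one_lt_codim (by
      have := (R.dir c).finrank_quotient_add_finrank
      have := R.finrank_dir c
      rw [← Module.finrank_eq_rank]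
      exact_mod_cast (by omega : 1 < finrank ℝ (E ⧸ R.dir c)))).2
    have pc : p ∈ R.spx c.1 := ⟨pB, p2.le⟩
    have ex : ∀ e : Ch P, c < e → ∃ v ∉ R.dir c, support (R.wt (p + a v • v)) = e.1 := fun e he => by
      obtain ⟨y, -, y1, y2⟩ := R.exists_interior e.2.2 e.top_mem univ_mem
      have pe : p ∈ R.spx e.1 := R.spx_mono he.le pc
      refine ⟨y - p, fun k => ?_, ?_⟩
      · obtain ⟨m, m1, m2, m3⟩ := R.mem_dir.1 k
        have := Real.wt_sub e.2.2 pe ⟨y1, y2.le⟩ (m1.trans he.le) m2 m3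
        exact he.not_ge (Finset.coe_subset.1 (y2.ge.trans
          (this ▸ (support_add _ _).trans (union_subset p2.le m1))))
      · have k : p + a (y - p) • (y - p) = (1 - a (y - p)) • p + a (y - p) • y := by module
        rw [k]
        refine (Real.convex_spx e.2.2 pe ⟨y1, y2.le⟩ (sub_nonneg.2 (a1 _)) (a0 _).le
          (by ring)).2.antisymm fun s hs => ?_
        rw [mem_support, Real.wt_seg e.2.2 pe ⟨y1, y2.le⟩ (sub_nonneg.2 (a1 _)) (a0 _).le (by ring)]
        exact (add_pos_of_nonneg_of_pos (mul_nonneg (sub_nonneg.2 (a1 _)) ((Real.wt_mem pB).nonneg s))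
          (mul_pos (a0 _) ((Real.wt_mem y1).pos (y2.ge hs)))).ne'
    obtain ⟨v1, k1, l1⟩ := ex c1 h1
    obtain ⟨v2, k2, l2⟩ := ex c2 h2
    refine rch_gen T (fun v e => support (R.wt (p + a v • v)) = e.1) (fun v hv => ?_) (fun v _ => ?_)
      k1 k2 h1 h2 l1 l2
    · obtain ⟨b1, b2⟩ := hr _ (hb v)
      refine ⟨R.car _ b1, lt_of_le_of_ne (Finset.coe_subset.1 (p2 ▸ R.coe_car b1 ▸ b2)) fun e => hv ?_,
        (R.coe_car b1).symm⟩
      have := Real.sub_mem_dir pc (q := p + a v • v) ⟨b1, by rw [e, R.coe_car]⟩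
      exact (Submodule.smul_mem_iff _ (a0 v).ne').1 (by simpa using this)
    · have t : Tendsto (fun v => p + a v • v) (𝓝 v) (𝓝[R.B] (p + a v • v)) :=
        tendsto_nhdsWithin_iff.2 ⟨ct.tendsto v, Eventually.of_forall fun w => (hr _ (hb w)).1⟩
      filter_upwards [mem_nhdsWithin_of_mem_nhds (t.eventually (R.eventually_support (hr _ (hb v)).1))]
        with w hw s _ t _ e1 e2
      exact Or.inl (Finset.coe_subset.1 (e1 ▸ e2 ▸ hw))
  · obtain ⟨p, p1, p2⟩ := I c hc
    obtain ⟨D, h, -⟩ := Real.flow hu hμ p1 p2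
    exact ⟨D, h.2.1, h.1⟩

end Crest.Agent.X212.Sm10
end
end

-- ▼ part X212/Sm10/Comb

/-!
# X212 / Sm10 (helper10): the combinatorial conditions at the start of the hierarchy
-/

set_option autoImplicit false
set_option linter.unusedSectionVars false

open Crest.Agent.X212.Hp13 Crest.Agent.X212.Kh11 Classical

noncomputable section

namespace Crest.Agent.X212.Sm10

variable {P : Type} [PartialOrder P] [Fintype P]

variable (P) in
/-- every cocycle is exact -/
def H1 : Prop :=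
  ∀ (G : Type) [AddCommGroup G] (z : P → P → G), CocOn Set.univ z → ExOn Set.univ z

theorem H1.ce {Q : Type} [PartialOrder Q] [Fintype Q] {f : Q → P} (hf : CE f) (h : H1 P) : H1 Q := by
  intro G _ z hz
  obtain ⟨w, h1, g, hg⟩ := (hf.ws_pre Set.univ).onto hz
  obtain ⟨g', hg'⟩ := (hf.ws_pre Set.univ).ex_pb (h G w h1)
  refine ⟨g + g', fun x hx y hy e => ?_⟩
  have := hg x hx y hy e
  rw [Pi.sub_apply, Pi.sub_apply, hg' x hx y hy e] at this
  rw [eq_add_of_sub_eq this, Pi.add_apply, Pi.add_apply]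
  abel

theorem H1.ch (h : H1 P) : H1 (Ch P) := h.ce ce_top

theorem H1.desc {s t : St} {f : t.P → s.P} (hf : Desc s t f) (h : H1 s.P) : H1 t.P := h.ce hf.ce

/-- closed surfaces bound when the complement is connected along the region -/
theorem bnd_upper (h : H1 P) {A : Set P} (hA : IsUpperSet A)
    (hc : ∀ x ∉ A, ∀ y ∉ A, (∃ a ∈ A, x ≤ a) → (∃ a ∈ A, y ≤ a) → Hp13.Rch Aᶜ x y) (G : Type)
    [AddCommGroup G] : Bnd G A := by
  intro z hz h0
  obtain ⟨g, hg⟩ := h G (fun x y => if y ∈ A then z x y else 0) fun x _ y _ w _ e1 e2 => by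
    by_cases k : w ∈ A
    · have := hz w k x y w e1 e2 (Or.inr (e1.trans e2)) (Or.inr e2) (Or.inl le_rfl)
      by_cases k' : y ∈ A
      · simpa [k, k'] using this
      · rw [h0 x y ⟨e1, w, k, Or.inr (e1.trans e2), Or.inr e2⟩ (fun m => k' (hA e1 m)) k'] at this
        simpa [k, k'] using this
    · simp [k, show y ∉ A from fun m => k (hA e2 m)]
  obtain ⟨v, hv⟩ : ∃ v, ∀ x ∉ A, (∃ a ∈ A, x ≤ a) → g x = v := by
    by_cases e : ∃ y ∉ A, ∃ a ∈ A, y ≤ a
    · obtain ⟨y, y1, y2⟩ := e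
      refine ⟨g y, fun x x1 x2 => (hc x x1 y y1 x2 y2).eq fun a _ b hb e => ?_⟩
      have := hg a trivial b trivial e
      simp only [if_neg hb] at this
      exact (sub_eq_zero.1 this.symm).symm
    · exact ⟨0, fun x x1 x2 => (e ⟨x, x1, x2⟩).elim⟩
  refine ⟨fun x => if x ∈ A then g x - v else 0, fun x hx => if_neg hx, fun x y hd => ?_⟩
  have e : ∀ x, (∃ a ∈ A, Cm a x) → (if x ∈ A then g x - v else 0) = g x - v := fun x ⟨a, a1, a2⟩ => by
    split_ifs with k
    · rfl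
    · rw [hv x k ⟨a, a1, a2.resolve_left fun m => k (hA m a1)⟩, sub_self]
  obtain ⟨e1, a, a1, a2, a3⟩ := id hd
  have := hg x trivial y trivial e1
  simp only [Pi.add_apply, Pi.zero_apply, zero_add, cb, e x ⟨a, a1, a2⟩, e y ⟨a, a1, a3⟩,
    sub_sub_sub_cancel_right, ← this]
  split_ifs with k
  · rfl
  · exact h0 x y hd (fun m => k (hA e1 m)) k

theorem upper_mt (A : Set P) : IsUpperSet {c : Ch P | Mt A c} := fun _ _ e h => Mt.mono h e

theorem sctr_ins {D : Set (Ch P)} {m : P} (h1 : ∀ a ∈ D, ∀ y ∈ a.1, Cm m y)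
    (h2 : ∀ a ∈ D, ∀ k, a.ins m k ∈ D) {b : Ch P} (hb : b ∈ D) (hm : m ∈ b.1)
    (h3 : ∀ a ∈ D, m ∈ a.1 → b ≤ a) : Hp13.Ctr D := by
  have w : WS {a | a ∈ D ∧ m ∈ a.1} D id := by
    refine WS.of_clo (r := fun a => if h : a ∈ D then a.ins m (h1 a h) else a) (fun _ h => h.1)
      (fun a h => ?_) fun a h b hb e => ?_
    · rw [dif_pos h]
      exact ⟨⟨h2 a h _, Finset.mem_insert_self _ _⟩, Finset.subset_insert _ _⟩
    · rw [dif_pos h]
      exact Finset.insert_subset hb.2 e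
  exact w.ctr_iff.1 (sctr_min (m := b) ⟨hb, hm⟩ fun a h => h3 a h.1 h.2)

/-- the chains meeting a full lower set form a nice region -/
theorem nice_mt {A : Set P} (hA : IsLowerSet A)
    (hm : ∀ s ∉ A, (∃ a ∈ A, a ≤ s) → ∃ m ∈ A, m ≤ s ∧ ∀ a ∈ A, a ≤ s → a ≤ m) :
    Nice {c : Ch P | Mt A c} := by
  rintro c ⟨a0, a1, a2⟩ hn
  have nc : ∀ x ∈ c.1, ¬ Mt A x := fun x hx k => hn ⟨x, hx, k⟩
  have e : {a | a ∈ {c : Ch P | Mt A c} ∧ ∀ x ∈ c.1, Cm a x} = {a | Mt A a ∧ c.top ≤ a} :=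
    Set.ext fun a => and_congr_right fun h => ⟨fun k => (k _ c.top_mem).resolve_left
      fun m => nc _ c.top_mem (Mt.mono h m), fun k x hx => Or.inr ((Ch.le_top hx).trans k)⟩
  have h0 : a0 ∈ {a | Mt A a ∧ c.top ≤ a} := e ▸ ⟨a1, a2⟩
  rw [e]
  have nT : ∀ x ∈ c.top.1, x ∉ A := fun x hx k => nc _ c.top_mem ⟨x, hx, k⟩
  generalize c.top = T at h0 nT
  have lo : ∀ a : Ch P, T ≤ a → ∀ y ∈ a.1, y ∈ A → y ≤ T.bot := fun a h y hy k =>
    (a.total hy (h T.bot_mem)).resolve_right fun m => nT _ T.bot_mem (hA m k)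
  obtain ⟨m, m1, m2, m3⟩ := hm _ (nT _ T.bot_mem)
    (let ⟨y, y1, y2⟩ := h0.1; ⟨y, y2, lo _ h0.2 y y1 y2⟩)
  have w1 : WS {a | (Mt A a ∧ T ≤ a) ∧ ∀ y ∈ a.1, y ∈ T.1 ∨ y ∈ A} {a | Mt A a ∧ T ≤ a} id := by
    refine WS.of_int (r := fun a => if h : T ≤ a then a.sub (a.1.filter fun y => y ∈ T.1 ∨ y ∈ A)
      ⟨_, Finset.mem_filter.2 ⟨h T.bot_mem, Or.inl T.bot_mem⟩⟩ (Finset.filter_subset _ _) else a)
      (fun _ h => h.1) (fun a ⟨⟨y, y1, y2⟩, h⟩ => ?_) fun a h b hb e => ?_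
    · rw [dif_pos h]
      exact ⟨⟨⟨⟨y, Finset.mem_filter.2 ⟨y1, Or.inr y2⟩, y2⟩, fun t ht =>
        Finset.mem_filter.2 ⟨h ht, Or.inl ht⟩⟩, fun t ht => (Finset.mem_filter.1 ht).2⟩,
        Finset.filter_subset _ _⟩
    · rw [dif_pos h.2]
      exact fun t ht => Finset.mem_filter.2 ⟨e ht, hb.2 t ht⟩
  refine w1.ctr_iff.1 (sctr_ins (m := m) (fun a h y hy => Or.symm ?_) (fun a h k => ?_)
    (b := T.ins m fun y hy => Or.inl (m2.trans (Ch.bot_le hy))) ?_ (Finset.mem_insert_self _ _)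
    fun a h k => Finset.insert_subset k h.1.2)
  · exact (h.2 y hy).elim (fun k => Or.inr (m2.trans (Ch.bot_le k)))
      fun k => Or.inl (m3 y k (lo a h.1.2 y hy k))
  · refine ⟨⟨⟨m, Finset.mem_insert_self _ _, m1⟩, h.1.2.trans (Finset.subset_insert _ _)⟩,
      fun y hy => ?_⟩
    rcases Finset.mem_insert.1 hy with rfl | hy
    exacts [Or.inr m1, h.2 y hy]
  · refine ⟨⟨⟨m, Finset.mem_insert_self _ _, m1⟩, Finset.subset_insert _ _⟩, fun y hy => ?_⟩
    rcases Finset.mem_insert.1 hy with rfl | hy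
    exacts [Or.inr m1, Or.inl hy]

/-- the chains inside `W` form a full lower set -/
theorem nice_slice (W : Set P) : Nice {C : Ch (Ch P) | Mt {c : Ch P | ↑c.1 ⊆ W} C} := by
  refine nice_mt (fun _ _ e h => (Finset.coe_subset.2 e).trans h) fun s _ ⟨a, a1, a2⟩ =>
    ⟨s.sub (s.1.filter (· ∈ W)) ⟨_, Finset.mem_filter.2 ⟨a2 a.top_mem, a1 a.top_mem⟩⟩
      (Finset.filter_subset _ _), fun x hx => (Finset.mem_filter.1 hx).2, Finset.filter_subset _ _,
      fun b b1 b2 x hx => Finset.mem_filter.2 ⟨b2 hx, b1 hx⟩⟩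

end Crest.Agent.X212.Sm10
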