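import Crest.Agent.X212.Sf30.P2Bas
import Crest.Agent.X212.Kh11.Lev
import Crest.Agent.X212.Sm25.Glu
import Crest.Agent.X212.Cut21.Brg
import Crest.Agent.X212.Am43.Am
import Crest.Agent.X212.Kh11.Bas
import Crest.Agent.X212.Hp13.TraD
import Crest.Agent.X212.Alg36.Rev
import Crest.Agent.X212.Dd39.Lv
import Crest.Agent.X212.Trs39.Main
import Crest.Agent.X212.Sm10.Mv3a

-- ▼ part X212/Sf30/Hby
section

/-!
# X212 / Sf30 (helper30): a complete system of disjoint discs is a disc system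
-/

set_option autoImplicit false
set_option linter.unusedSectionVars false

open Finset Classical

noncomputable section

namespace Crest.Agent.X212.Pt30

open Crest.Agent.X212.Hp13 Alg36 Cut21 Ind26
open Sup43 (Inn inn_sub inn_up good_inn)
open Hk (cl TD)

theorem dsc_sum {P : Type} [PartialOrder P] [Fintype P] {M : Set P} {k : ℕ}
    {w : Fin k → P → P → ℤ} (hM : IsUpperSet M) (mf : Mf 3 M) (h : ∀ i, TD M (w i))
    (dj : ∀ i j, i ≠ j → ∀ x, ∀ y ∈ cl M, x ≤ y → w i x y = 0 ∨ w j x y = 0)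
    (sp : ∀ ζ, CocOn (cl M) ζ → ∃ n : Fin k → ℤ, ExOn (cl M) (ζ - ∑ i, n i • w i)) :
    Dsc M (∑ i, w i) ∧ Spn1 M (∑ i, w i) := by
  have z : ∀ i, Z1 M (w i) := fun i => ⟨(Hk.coc_iff hM).2 (h i).coc,
    fun x y p => (h i).nn x y ((Hk.dp_iff hM).1 p).2 p.1,
    fun x y p => (h i).le1 x y ((Hk.dp_iff hM).1 p).2 p.1⟩
  have v : ∀ x y, (∑ i, w i) x y = ∑ i, w i x y := fun x y => by simp only [Finset.sum_apply]
  have one : ∀ i x y, Dp M x y → 0 < w i x y → (∑ i, w i) x y = w i x y := fun i x y p a => by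
    rw [v, sum_eq_single_of_mem i (mem_univ _) fun j _ n =>
      (dj j i n x y ((Hk.dp_iff hM).1 p).2 p.1).resolve_right a.ne']
  have ex : ∀ x y, 0 < (∑ i, w i) x y → ∃ i, 0 < w i x y := fun x y a => by
    by_contra n
    exact a.not_ge (v x y ▸ sum_nonpos fun i _ => not_lt.1 fun b => n ⟨i, b⟩)
  have Z : Z1 M (∑ i, w i) := ⟨Coc.sum _ fun i _ => (z i).coc, Mono.sum _ fun i _ => (z i).mono,
    fun x y p => by_contra fun n =>
      let ⟨i, a⟩ := ex x y (by omega); n (one i x y p a ▸ (z i).le x y p)⟩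
  refine ⟨⟨Z, fun C ⟨c, hc, e⟩ => ?_⟩, fun ζ hζ => ?_⟩
  · obtain ⟨i, a⟩ := ex _ _ hc.2
    have sub : Mx M (w i) ⊆ Mx M (∑ i, w i) := fun d b =>
      ⟨b.1, one i _ _ (dom_top b.1).bt b.2 ▸ b.2⟩
    have dn : ∀ p ∈ Mx M (w i), ∀ q ∈ Mx M (∑ i, w i), q ≤ p → 0 < w i q.bot q.top :=
      fun p hp q hq l => by
        obtain ⟨j, b⟩ := ex _ _ hq.2
        by_cases o : j = i
        · exact o ▸ b
        · exact ((dj j i o _ _ (Hk.sub_cl hp.1) p.bot_le_top).elim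
            ((z j).up (dom_top hp.1) l b).ne' hp.2.ne').elim
    obtain rfl : C = Mx M (w i) := e.trans (Set.ext fun d => ⟨fun b => (Rch.in_clopen
      (C := Mx M (w i)) (fun p hp q hq l => ⟨hq.1, l.elim
        (fun l => (z i).up (dom_top hq.1) l hp.2) (dn p hp q hq)⟩) ⟨hc.1, a⟩ b.2).mem ⟨hc.1, a⟩,
      fun b => ⟨sub b, ((h i).conn c ⟨hc.1, a⟩ d b).mono sub⟩⟩)
    refine ⟨?_, ?_⟩
    · rw [(z i).eu_eq mf subset_rfl (mx_upper (z i) hM subset_rfl), ← (h i).chi, chi,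
        sum_filter, sum_filter]
      refine sum_congr rfl fun d _ => ?_
      by_cases t : d.top ∈ M
      · have := (z i).nn t d.bot_le_top le_rfl
        have := (z i).le1 t d.bot_le_top le_rfl
        rw [if_pos ((mt_top hM).2 t)]
        by_cases b : 0 < w i d.bot d.top
        · rw [if_pos ⟨t, b⟩, show w i d.bot d.top = 1 by omega, mul_one]
        · rw [if_neg fun o => b o.2, show w i d.bot d.top = 0 by omega, mul_zero]
      · rw [if_neg fun o => t o.1, if_neg fun o => t ((mt_top hM).1 o)]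
    · obtain ⟨d, d1, d2⟩ := (h i).ne
      obtain ⟨n, u, hu, l⟩ := d1 _ d.top_mem
      exact ⟨tp d u l, ⟨by simpa using hu, (z i).up (dom_top (by simpa using hu)) (le_tp _ _ _) d2⟩,
        _, le_tp d u l d.bot_mem, _, le_tp d u l d.top_mem, d.bot_le_top, n,
        one i _ _ (dp_hi hu d.bot_le_top l) d2 ▸ d2⟩
  · obtain ⟨n, g, hg⟩ := sp ζ ((Hk.coc_iff hM).1 hζ)
    refine ⟨g, fun x y p o => ?_⟩
    have q := ((Hk.dp_iff hM).1 p).2
    rw [← hg x (Hk.cl_low p.1 q) y q p.1]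
    simp only [Pi.sub_apply, Finset.sum_apply, Pi.smul_apply, smul_eq_mul]
    rw [sum_eq_zero fun i _ => by
      rw [(sum_eq_zero_iff_of_nonneg fun j _ => (z j).mono x y p).1 (v x y ▸ o) i (mem_univ _),
        mul_zero], sub_zero]

/-- the seam between P1 and P2 -/
theorem hby {s : St} (hs : Stt s) (h : Hk.HBY (Hk.Yo s.A)) : ∃ c, HBo s c := by
  obtain ⟨t, f, tw, k, w, td, dj, sp⟩ := h
  have d := tw.desc' (s := s)
  have st := stt_desc hs d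
  have e : Inn (f ⁻¹' s.A) = f ⁻¹' Inn s.A := Sup43.inn_desc d
  rw [← tw.cl] at dj sp
  have := dsc_sum (tw.upper inn_up) (e ▸ (good_inn st.toGood st.thick).mf) td dj sp
  rw [← e] at this
  exact ⟨_, ⟨t.P, f ⁻¹' s.A⟩, f, ∑ i, w i, d, ⟨this.1, this.2⟩, le_rfl⟩

end Crest.Agent.X212.Pt30
end
end

-- ▼ part X212/Sm25/Out
section

/-!
Row 212, layer H, KH-OUT (helper25): `OutStmt`.
-/

set_option autoImplicit false
set_option linter.style.longLine false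
set_option linter.unusedSectionVars false

open Finset Classical

noncomputable section

namespace Crest.Agent.X212.Sm25

open Hp13 hiding cl_low sub_cl om_low cl_mono dp_iff
open Hk
open Alg36 (Om Esc mix Clo)
open Cut21 (tp mix_up pr_le)

variable {P R : Type} [PartialOrder P] [Fintype P] [PartialOrder R] {X Y Z V C D K : Set P}
  {w : P → P → ℤ} {car : P → R}

theorem clo_of (h : IsCmp X D) : Clo X D := Alg36.IsCmp.clo h

theorem rg_clo (h : Rg X) (hD : Clo X D) : Rg D :=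
  ⟨fun a _ l ha => hD.cl a ha _ (h.up l (hD.sub ha)) (.inl l), h.mf.mono hD.sub, hD.nice h.nice⟩

/-- a boundary point sees one component -/
theorem adj1 (h : Rg X) (hD : Clo X D) {k a : P} (hk : k ∈ cl D) (ha : a ∈ X) (l : k ≤ a) : a ∈ D :=
  let ⟨b, hb, j⟩ := hk
  hD.rch hb (((h.ctr ⟨a, ha, l⟩).conn b ⟨hD.sub hb, j⟩ a ⟨ha, l⟩).mono fun _ i => i.1)

theorem adj (h : Rg X) (hD : Clo X D) (hK : Conn K) (hs : K ⊆ cl X) {k : P} (hk : k ∈ K)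
    (hk' : k ∈ cl D) : K ⊆ cl D := fun x hx =>
  (hK k hk x hx).ind hk' fun _ _ _ hb l => ⟨fun i => let ⟨c, c1, c2⟩ := hs hb;
    ⟨c, adj1 h hD i c1 (l.trans c2), c2⟩, cl_low l⟩

theorem eu_empty : eu (∅ : Set P) = 0 := by
  rw [eu, sum_eq_zero, neg_zero]
  intro c hc
  simp only [mem_filter] at hc
  exact absurd (hc.2 _ c.top_mem) id

theorem conn_cl (h : Conn X) : Conn (cl X) := fun x ⟨a, ha, l⟩ y ⟨b, hb, l'⟩ =>
  ((Rch.of_cm (show x ∈ cl X from ⟨a, ha, l⟩) (sub_cl ha) (.inl l)).trans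
    ((h a ha b hb).mono sub_cl)).trans (.of_cm (sub_cl hb) (show y ∈ cl X from ⟨b, hb, l'⟩) (.inr l'))

/-- the Euler characteristic of the core -/
theorem eu_core (nm : NmStmt) (hZ : Rg Z) (hV : Rg V) (hs : V ⊆ Z)
    (sep : ∀ x ∉ Z, ∀ n ∈ Z, x ≤ n → n ∈ V) : eu (Z \ V) = eu V - eu Z := by
  have c1 : Cvr (Z \ V) (cl V ∩ Z) := .inl ⟨fun x hx y hy l => ⟨hx.elim (·.1) (·.2),
    fun k => hy.2 (hV.up l k)⟩, fun x hx y hy l => ⟨cl_low l hy.1, hx.elim (·.1) (·.2)⟩⟩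
  have c2 : Cvr (Om V ∩ Z) (Om Z) := .inl ⟨fun x _ y hy l => ⟨om_low hV.up l hy.1,
    by_contra fun k => hy.1.1 (sep x k y hy.2 l)⟩, fun _ _ _ hy l => om_low hZ.up l hy⟩
  have e1 : Z \ V ∪ cl V ∩ Z = Z := Set.ext fun x => ⟨fun k => k.elim (·.1) (·.2),
    fun k => (Classical.em (x ∈ V)).elim (fun j => .inr ⟨sub_cl j, k⟩) fun j => .inl ⟨k, j⟩⟩
  have e2 : Z \ V ∩ (cl V ∩ Z) = Om V ∩ Z := Set.ext fun x =>
    ⟨fun k => ⟨⟨k.1.2, k.2.1⟩, k.1.1⟩, fun k => ⟨⟨k.2, k.1.1⟩, k.1.2, k.2⟩⟩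
  have e3 : Om V ∩ Z ∪ Om Z = Om V := Set.ext fun x => ⟨fun k => k.elim (·.1) fun ⟨j, n, a, b⟩ =>
    ⟨fun i => j (hs i), n, sep x j n a b, b⟩,
    fun k => (Classical.em (x ∈ Z)).elim (fun j => .inl ⟨k, j⟩) fun j => .inr ⟨j, cl_mono hs k.2⟩⟩
  have e4 : Om V ∩ Z ∩ Om Z = ∅ := Set.eq_empty_of_forall_notMem fun x k => k.2.1 k.1.2
  have e5 : eu V = eu (cl V ∩ Z) := Pt30.eu_fib (f := id) (fun x k => ⟨sub_cl k, hs k⟩)
    (fun _ _ _ _ l => l) fun y k => (hV.ctr k.1).eu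
  have a1 := c1.eu_union
  have a2 := c2.eu_union
  rw [e1, e2, ← e5] at a1
  rw [e3, e4, eu_empty, ((nm P).1 V hV).2.2.2.1, ((nm P).1 Z hZ).2.2.2.1] at a2
  linarith

/-- the frontier of a connected core with connected complement is connected -/
theorem conn_core (hZ : IsUpperSet Z) (hB : Bnd (ZMod 2) Z) (hV : IsUpperSet V) (hs : V ⊆ Z)
    (c1 : Conn V) (c2 : Conn (Z \ V)) (sep : ∀ x ∉ Z, ∀ n ∈ Z, x ≤ n → n ∈ V) :
    Conn (mix (Z \ V)) := by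
  have low : ∀ {x n}, x ≤ n → n ∈ Z \ V → x ∈ Z \ V := fun {x n} l k =>
    ⟨by_contra fun j => k.2 (sep x j n k.1 l), fun j => k.2 (hV l j)⟩
  have m : ∀ c : Ch P, c ∈ mix (Z \ V) ↔ c.bot ∈ Z \ V ∧ c.top ∈ V := fun c =>
    ⟨fun ⟨⟨n, a, b⟩, u, a', b'⟩ => ⟨low (Ch.bot_le a) b, by_contra fun j =>
      b' (low (Ch.le_top a') ⟨hZ (Ch.le_top a) b.1, j⟩)⟩,
      fun k => ⟨⟨_, c.bot_mem, k.1⟩, _, c.top_mem, fun j => j.2 k.2⟩⟩
  intro c0 h0 c h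
  let q : P → P → Prop := fun x y => x ∈ Z \ V ∧ y ∈ V ∧ ∃ l : x ≤ y, Rch (mix (Z \ V)) c0 (.pr x y l)
  have qe : ∀ d ∈ mix (Z \ V), ∀ x ∈ d.1, ∀ y ∈ d.1, x ≤ y → x ∈ Z \ V → y ∈ V →
      (q x y ↔ Rch (mix (Z \ V)) c0 d) := fun d hd x hx y hy l a b =>
    have r : Rch (mix (Z \ V)) (.pr x y l) d :=
      .of_cm ((m _).2 (by simpa only [Ch.bot_pr, Ch.top_pr] using ⟨a, b⟩)) hd (.inl (pr_le hx hy))
    ⟨fun ⟨_, _, _, k⟩ => k.trans r, fun k => ⟨a, b, l, k.trans r.symm⟩⟩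
  obtain ⟨g, -, hg⟩ := hB (fun x y => if q x y then 1 else 0) (fun _ _ x y v l1 l2 _ _ _ => by
      beta_reduce
      by_cases a : x ∈ Z \ V ∧ v ∈ V
      · have t := qe (tp (.pr x y l1) v (by simpa using l2)) ((m _).2 (by simpa using a))
        have t1 := t x (by simp) v (by simp) (l1.trans l2) a.1 a.2
        by_cases b : y ∈ V
        · rw [if_neg (c := q y v) fun k => k.1.2 b, add_zero]
          exact if_congr (t1.trans (t x (by simp) y (by simp) l1 a.1 b).symm) rfl rfl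
        · rw [if_neg (c := q x y) fun k => b k.2.1, zero_add]
          exact if_congr (t1.trans (t y (by simp) v (by simp) l2 ⟨hZ l1 a.1.1, b⟩ a.2).symm) rfl rfl
      · rw [if_neg (c := q x v) fun k => a ⟨k.1, k.2.1⟩,
          if_neg (c := q x y) fun k => a ⟨k.1, hV l2 k.2.1⟩,
          if_neg (c := q y v) fun k => a ⟨low l1 k.1, k.2.1⟩, add_zero])
    fun x y _ hx _ => if_neg fun k => hx k.1.1
  have e : ∀ x y, x ≤ y → y ∈ Z → (if q x y then 1 else 0) = g y - g x := fun x y l k => by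
    simpa [cb] using hg x y ((dp_iff hZ).2 ⟨l, sub_cl k⟩)
  obtain ⟨a0, b0⟩ := (m _).1 h0
  obtain ⟨a, b⟩ := (m _).1 h
  have g1 : g c0.bot = g c.bot := (c2 _ a0 _ a).eq fun x _ y hy l =>
    (sub_eq_zero.1 ((e x y l hy.1).symm.trans (if_neg fun k => hy.2 k.2.1))).symm
  have g2 : g c0.top = g c.top := (c1 _ b0 _ b).eq fun x hx y hy l =>
    (sub_eq_zero.1 ((e x y l (hs hy)).symm.trans (if_neg fun k => k.1.2 hx))).symm
  have g3 := e _ _ c.bot_le_top (hs b)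
  rw [← g1, ← g2, ← e _ _ c0.bot_le_top (hs b0),
    if_pos ((qe c0 h0 _ c0.bot_mem _ c0.top_mem c0.bot_le_top a0 b0).2 Rch.rfl)] at g3
  exact (qe c h _ c.bot_mem _ c.top_mem c.bot_le_top a b).1 (by_contra fun k => by simp [k] at g3)

theorem om_ne (hX : IsUpperSet X) (he : Esc X X) (hn : X.Nonempty) : (Om X).Nonempty :=
  let ⟨a, ha⟩ := hn; let ⟨b, hb, _, x, hx, l⟩ := he a ha
  ⟨x, hx, b, hb, l.resolve_left fun k => hx (hX k hb)⟩

theorem out_nb (deg : DegStmt) (hY : Amb Y) (h : PR car Y C) (hO : Om C ⊆ Y) (he : eu C ≤ 0)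
    {B : Set P} (hB : Bal Y B) : ¬ Om C ⊆ B := fun k => by
  have u := h.amb.up
  obtain ⟨x0, hx0⟩ := om_ne u h.amb.esc h.ne
  have pr : ∀ {a b} (l : a ≤ b), a ∉ B → b ∈ B → Ch.pr a b l ∈ mix B := fun l a b =>
    (mix_up hB.up).2 (by simpa using ⟨b, a⟩)
  by_cases s : C ⊆ B
  · linarith [deg P Y C B ⟨h.amb.toRg, hY, h.two.sub⟩ h.ne h.qq (cl_eq.subset.trans
      (Set.union_subset s k)) hB.sub hB.conn, hB.eu]
  obtain ⟨c, c1, c2⟩ := Set.not_subset.1 s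
  obtain ⟨a0, a1, a2⟩ := hx0.2
  obtain ⟨a, b, l, i1, i2, i3⟩ : ∃ a b, a ≤ b ∧ a ∈ C ∧ a ∉ B ∧ b ∈ B := by
    by_contra! n
    exact c2 ((h.conn a0 a1 c c1).ind (hB.up a2 (k hx0)) fun a ha b _ l =>
      ⟨hB.up l, fun j => by_contra fun i => n a b l ha i j⟩)
  have all : ∀ d ∈ mix B, d.bot ∈ C := fun d hd => (hB.conn _ (pr l i2 i3) d hd).ind
    (p := fun e => e.bot ∈ C) (by simpa using i1) fun e _ e' he' l => ⟨fun j => by_contra fun i =>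
      ((mix_up hB.up).1 he').2 (k ⟨i, _, j, Ch.bot_anti l⟩), u (Ch.bot_anti l)⟩
  have low : IsLowerSet (B ∪ C) := fun b a l j => by_contra fun i => j.elim
    (fun j => i (.inr (by simpa using all _ (pr l (fun n => i (.inl n)) j))))
    fun j => i (.inl (k ⟨fun n => i (.inr n), _, j, l⟩))
  obtain ⟨b, -, r, x, hx, j⟩ := hY.esc x0 (hO hx0)
  have hb : b ∈ B ∪ C := r.ind (.inl (k hx0)) fun _ _ _ _ l => ⟨hB.up.union u l, low l⟩
  exact hx ((j.elim (fun j => hB.up.union u j hb) fun j => low j hb).elim (hB.sub ·) (h.two.sub ·))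

theorem out_inc (nm : NmStmt) (deg : DegStmt) (tc1 : Tc1Stmt) (tc3 : Tc3Stmt) (hY : Amb Y)
    (h : PR car Y C) (hO : Om C ⊆ Y) (hw : TD (Y \ cl C) w) (ho : On (Y \ cl C) (Om C) w) :
    Ines (Om C) w := by
  have u := h.amb.up
  have cY : cl C ⊆ Y := cl_eq.subset.trans (Set.union_subset h.two.sub hO)
  have tv : ∀ x ∈ Om C, Ctr {y | y ∈ Y \ cl C ∧ x ≤ y} := fun x hx => by
    simpa using h.two.tv' Set.univ isLowerSet_univ x ⟨hx, hO hx⟩ trivial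
  have r1 : Rg (Y \ cl C) := rg_of h.two.up' (hY.mf.mono Set.sdiff_subset) fun x hx => by
    by_cases k : x ∈ Y
    · obtain ⟨a, a1, a2⟩ := hx.2
      exact tv x ⟨fun j => a1.2 (sub_cl (u a2 j)), by_contra fun j => hx.1 ⟨k, j⟩⟩
    · convert hY.toRg.ctr (cl_mono Set.sdiff_subset hx.2) using 1
      exact Set.ext fun a => ⟨fun j => ⟨j.1.1, j.2⟩, fun j => ⟨⟨j.1, fun i => k (cY (cl_low j.2 i))⟩, j.2⟩⟩
  have cG : Conn (Om C) := ((nm P).1 C h.amb.toRg).2.2.1.2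
    (Alg36.conn_mix h.amb.nice h.amb.bnd2 h.conn)
  have sG : Om C ⊆ cl (Y \ cl C) := fun x hx => let ⟨a, ha⟩ := (tv x hx).ne; ⟨a, ha⟩
  have bd : ∀ D, Clo (Y \ cl C) D → Om C ⊆ cl D → Bd D (Om C) := fun D hD k =>
    ⟨om_low u, fun x hx => ⟨fun j => (hD.sub j).2 hx.2, k hx⟩, fun x hx y hy l =>
      let ⟨a, a1, a2⟩ := hy.2
      ⟨fun j => (hD.sub a1).2 (sub_cl (u a2 j)), by_contra fun j =>
        hy.1 (hD.cl a a1 y ⟨hY.up l (hO hx), j⟩ (.inr a2))⟩⟩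
  obtain ⟨g0, hg0⟩ := om_ne u h.amb.esc h.ne
  obtain ⟨a0, a1, a2⟩ := sG hg0
  obtain ⟨V, hV, a3⟩ : ∃ V, IsCmp (Y \ cl C) V ∧ a0 ∈ V := ⟨_, isCmp_cmp a1, mem_cmp_self a1⟩
  have kV := clo_of hV
  have rV := rg_clo r1 kV
  have gV : Om C ⊆ cl V := adj r1 kV cG sG hg0 ⟨a0, a3, a2⟩
  have bV := bd V kV gV
  have oV : Om V ⊆ Om (Y \ cl C) := fun x hx => ⟨fun j => hx.1 (adj1 r1 kV hx.2 j le_rfl),
    cl_mono hV.sub hx.2⟩
  have onV : On V (Om C) w := Flat.mono ho fun x hx => ⟨oV hx.1, hx.2⟩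
  have tV : TD V w := by
    obtain ⟨e, he⟩ := hw.ne
    have he' := (ho.cv (bd _ (Alg36.clo_self _) sG)).subset he
    obtain ⟨c, c1, c2⟩ := Cut21.ex_ca r1.up (hw.z1 r1.up) ((Cut21.cv_om r1.up).1 he).1
    have ca : CA V w = CA (Y \ cl C) w := Set.Subset.antisymm (fun d hd => ⟨hV.sub hd.1, hd.2⟩)
      fun d hd => ⟨(hw.conn c c1 d hd).ind (p := fun d => d.top ∈ V)
        (adj1 r1 kV (gV (he'.1 _ e.top_mem)) c1.1 (Ch.top_mono c2)) fun a ha b hb l =>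
        ⟨rV.up (Ch.top_mono l), fun j => kV.cl _ j _ ha.1 (.inr (Ch.top_mono l))⟩, hd.2⟩
    have s := hw.toS1.mono hV.sub
    exact ⟨s, ca ▸ hw.conn, by rw [Cut21.chi_ca rV s, ca, ← Cut21.chi_ca r1 hw.toS1, hw.chi],
      e, fun x hx => bV.sub (he'.1 x hx), he.2⟩
  -- the component of `Y`
  have kZ : Clo Y (cl C ∪ V) := ⟨Set.union_subset cY fun x hx => (hV.sub hx).1, fun a ha b hb l => by
    by_contra n
    have k : b ∈ Y \ cl C := ⟨hb, fun j => n (.inl j)⟩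
    rcases ha with ha | ha
    · rcases l with l | l
      · rcases mem_cl.1 ha with j | j
        exacts [k.2 (sub_cl (u l j)), n (.inr (adj1 r1 kV (gV j) k l))]
      · exact k.2 (cl_low l ha)
    · exact n (.inr (kV.cl a ha b k l))⟩
  set Z := cl C ∪ V with hZ
  have rZ := rg_clo hY.toRg kZ
  have cZ : Conn Z := by
    have k : ∀ x ∈ Z, Rch Z g0 x := fun x hx => hx.elim
      (fun j => (conn_cl h.conn g0 hg0.2 x j).mono Set.subset_union_left) fun j =>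
      (Rch.of_cm (.inl hg0.2) (.inr a3) (.inl a2)).trans ((hV.conn a0 a3 x j).mono Set.subset_union_right)
    exact fun x hx y hy => (k x hx).symm.trans (k y hy)
  have cK : Conn (Om Z) := ((nm P).1 Z rZ).2.2.1.2
    (Alg36.conn_mix rZ.nice (kZ.bnd hY.nice hY.bnd2) cZ)
  have sep : ∀ x ∉ Z, ∀ n ∈ Z, x ≤ n → n ∈ V := fun x hx n hn l =>
    hn.resolve_left fun j => hx (.inl (cl_low l j))
  have KV : Om Z ⊆ Om V := fun x ⟨j, n, a, b⟩ => ⟨fun i => j (.inr i), n, sep x j n a b, b⟩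
  obtain ⟨k0, hk0⟩ : (Om Z).Nonempty := by
    obtain ⟨b, hb, r, x, hx, l⟩ := hY.esc g0 (hO hg0)
    exact ⟨x, fun j => hx (kZ.sub j), b, kZ.rch (.inl hg0.2) r, l.resolve_left fun k => hx (hY.up k hb)⟩
  have e0 : eu C = eu V - eu Z := by
    rw [← eu_core nm rZ rV Set.subset_union_right sep, ((nm P).1 C h.amb.toRg).2.1.eu_eq]
    congr 1
    exact Set.ext fun x => ⟨fun j => ⟨.inl j, fun i => (hV.sub i).2 j⟩, fun j => j.1.resolve_right j.2⟩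
  -- the cut
  have tw := Tw.three P
  obtain ⟨-, rT, -, eT, -, cS, -, oT, t1, t2⟩ := tc1 P V w rV tV
  obtain ⟨t3a, -, t3b⟩ := tc3 P V w rV tV
  obtain ⟨d1, -, d2⟩ := t1 (Om Z) (om_low rZ.up) (Flat.mono onV fun x hx =>
    ⟨KV hx.1, fun j => hx.1.1 (.inl j.2)⟩)
  have d3 : t3 ⁻¹' Om Z ⊆ Om (tcut V w) := fun x hx => d2 ⟨hx, KV hx⟩
  have TV : ∀ x ∈ tcut V w, t3 x ∈ V := fun x hx => hx.1
  have TS : ∀ x, t3 x ∈ V → x ∉ slab V w → x ∈ tcut V w := fun x hx k =>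
    ⟨hx, fun y hy j => k ⟨sub_cl hx, y, hy, j⟩⟩
  have SZ : ∀ x ∈ slab V w, t3 x ∈ Z ∧ x ∉ tcut V w := fun x hx => ⟨by_contra fun j =>
    Set.disjoint_left.1 d1 ⟨j, cl_mono Set.subset_union_right (((Tw.one P).cl V).subset hx.1)⟩ hx,
    fun j => let ⟨y, y1, y2⟩ := hx.2; j.2 y y1 y2⟩
  have sS : ∀ b, scar V w b ⊆ slab V w := fun b x hx => hx.1.1
  obtain ⟨k1, hk1⟩ := tw.ne.2 ⟨k0, hk0⟩
  obtain ⟨a, aT, ka⟩ := (d3 hk1).2
  have main : ∀ D D' (b : ℤ), b = 0 ∨ b = 1 → IsCmp (tcut V w) D → IsCmp (tcut V w) D' →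
      D ∪ D' = tcut V w → scar V w b ⊆ Om D' → scar V w (1 - b) ⊆ Om D → a ∈ D → Ines (Om C) w :=
    fun D D' b hb hD hD' hu s1 s2 ha => by
      have kD := clo_of hD
      have KD : t3 ⁻¹' Om Z ⊆ cl D :=
        adj rT kD (tw.conn.2 cK) (fun x hx => (d3 hx).2) hk1 ⟨a, ha, ka⟩
      have sep' : ∀ x ∉ t3 ⁻¹' Z, ∀ n ∈ t3 ⁻¹' Z, x ≤ n → n ∈ D := fun x hx n hn l =>
        have k : x ∈ t3 ⁻¹' Om Z := ⟨hx, _, hn, t3_mono l⟩
        adj1 rT kD (KD k) (TS n (sep _ hx _ hn (t3_mono l)) fun j =>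
          Set.disjoint_left.1 d1 k (mvS_low l j)) l
      have DZ : D ⊆ t3 ⁻¹' Z := fun x hx => .inr (TV x (hD.sub hx))
      have CN : t3 ⁻¹' cl C ⊆ t3 ⁻¹' Z \ D := fun x hx =>
        ⟨.inl hx, fun j => (hV.sub (TV x (hD.sub j))).2 hx⟩
      have SN : slab V w ⊆ t3 ⁻¹' Z \ D := fun x hx => ⟨(SZ x hx).1, fun j => (SZ x hx).2 (hD.sub j)⟩
      obtain ⟨-, -, -, -, -, -, x0, x1, -, -, x2, -⟩ := t2 b hb
      have x3 : x0 ∈ t3 ⁻¹' cl C := (SZ x0 (sS b x1)).1.resolve_right x2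
      have dj : ∀ x ∈ D', x ∈ D → D' = D := fun x j i => (hD'.eq j).trans (hD.eq i).symm
      have cN : Conn (t3 ⁻¹' Z \ D) := by
        have k : ∀ x ∈ t3 ⁻¹' Z \ D, Rch (t3 ⁻¹' Z \ D) x0 x := fun x hx => by
          rcases hx.1 with j | j
          · exact (tw.conn.2 (conn_cl h.conn) x0 x3 x j).mono CN
          by_cases i : x ∈ slab V w
          · exact (cS.conn x0 (sS b x1) x i).mono SN
          have i1 : x ∈ D' := (hu.symm.subset (TS x j i)).resolve_left hx.2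
          have i2 : D' ⊆ t3 ⁻¹' Z \ D := fun y hy =>
            ⟨.inr (TV y (hD'.sub hy)), fun n => hx.2 (dj y hy n ▸ i1)⟩
          obtain ⟨y, y1, y2⟩ := (s1 x1).2
          exact (Rch.of_cm (CN x3) (i2 y1) (.inl y2)).trans ((hD'.conn y y1 x i1).mono i2)
        exact fun x hx y hy => (k x hx).symm.trans (k y hy)
      have kZ' : Clo (t3 ⁻¹' Y) (t3 ⁻¹' Z) := ⟨fun _ j => kZ.sub j, fun _ j _ i l =>
        kZ.cl _ j _ i (l.imp (t3_mono ·) (t3_mono ·))⟩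
      have aY := hY.pre tw
      have e1 := deg _ _ _ (t3 ⁻¹' Z \ D) ((Sub.of hY h.amb.toRg h.two.sub).pre tw) (tw.ne.2 h.ne)
        (h.qq.pre h.two.sub tw) ((tw.cl C).subset.trans CN) (fun x hx => kZ.sub hx.1)
        (conn_core (rZ.pre tw).up (kZ'.bnd aY.nice aY.bnd2) (rg_clo rT kD).up DZ hD.conn cN sep')
      replace e1 : eu D - eu Z ≤ eu C := by
        have a1 := eu_core nm (rZ.pre tw) (rg_clo rT kD) DZ sep'
        have a2 := tw.eu Z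
        have a3 := tw.eu C
        exact (congrArg (eu D - ·) a2).symm.trans_le ((a1.symm.trans_le e1).trans_eq a3)
      have ne : ∀ x ∈ D', x ∉ D := fun x j i => by
        rw [dj x j i, Set.union_self] at hu
        rw [hu] at e1
        linarith
      have e2 := (Cvr.of_upper (rg_clo rT kD).up (rg_clo rT (clo_of hD')).up).eu_union
      rw [hu, Set.eq_empty_of_forall_notMem (s := D ∩ D') fun x j => ne x j.2 j.1, eu_empty] at e2
      have od : ∀ x ∈ cl D, x ∉ Om D' := fun x j i =>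
        let ⟨y, y1, y2⟩ := i.2; ne y y1 (adj1 rT kD j (hD'.sub y1) y2)
      refine t3b (Om C) D' b hb bV cG onV hD' (by linarith) s1
        (Set.disjoint_left.2 fun x j => od x (s2 j).2) fun x hx => ?_
      rcases oT ⟨fun j => hx.1 (adj1 rT (clo_of hD') hx.2 j le_rfl), cl_mono hD'.sub hx.2⟩ with j | j
      · refine .inl (by_contra fun n => od x (KD ⟨fun i => ?_, cl_mono Set.subset_union_right j.2⟩) hx)
        obtain ⟨y, y1, y2⟩ := j.2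
        exact i.elim (fun i => n ⟨fun i' => (hV.sub y1).2 (sub_cl (u y2 i')), i⟩) j.1
      · refine .inr ?_
        rcases hb with rfl | rfl
        · exact j.resolve_right fun i => od x (s2 i).2 hx
        · exact j.resolve_left fun i => od x (s2 i).2 hx
  obtain ⟨C0, C1, q0, q1, q2, q3, q4⟩ := t3a hV.conn
  rcases q2.symm.subset aT with j | j
  · exact main C0 C1 1 (.inr rfl) q0 q1 q2 q4 q3 j
  · exact main C1 C0 0 (.inl rfl) q1 q0 ((Set.union_comm _ _).trans q2) q3 q4 j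

theorem outStmt (nm : NmStmt) (deg : DegStmt) (tc1 : Tc1Stmt) (tc3 : Tc3Stmt) : OutStmt := by
  intro P _ _ R _ car Y C hY h hO he
  refine ⟨fun t f k w h1 h2 => ?_, fun t f k B hB => ?_⟩
  · rw [← k.om]
    rw [Set.preimage_sdiff, ← k.cl] at h1 h2
    rw [← k.om] at h2
    exact out_inc nm deg tc1 tc3 (hY.pre k) (h.pre k) (by rw [k.om]; exact fun _ j => hO j) h1 h2
  · rw [← k.om]
    exact out_nb deg (hY.pre k) (h.pre k) (by rw [k.om]; exact fun _ j => hO j) (by rwa [k.eu]) hB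

end Crest.Agent.X212.Sm25
end
end

-- ▼ part X212/Sl43/Om
section

/-!
# X212 / Sl43 (helper43): subsets of the boundary surface, cutting a contractible set at a jump
-/

set_option autoImplicit false
set_option linter.unusedSectionVars false

open Finset Classical

noncomputable section

namespace Crest.Agent.X212.Sl43

open Hp13 hiding sub_cl cl_low cl_mono dp_iff om_low coc_iff
open Hk Pt30 Am43
open Alg36 (Om)
open Kh11 (WS)

variable {P : Type} [PartialOrder P] [Fintype P] {X Y W V Δ T S : Set P} {w : P → P → ℤ} {x y : P}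

/-- the signed number of chains from `W` into `X` -/
def sc (X W : Set P) : ℤ := ∑ c ∈ univ.filter (fun c : Ch P => c.top ∈ X ∧ c.bot ∈ W), c.sg

theorem sc_union (h : Disjoint W V) : sc X (W ∪ V) = sc X W + sc X V := by
  simp only [sc, sum_filter, ← sum_add_distrib]
  refine sum_congr rfl fun c _ => ?_
  have : c.bot ∈ W → c.bot ∉ V := fun k => Set.disjoint_left.1 h k
  by_cases a : c.top ∈ X <;> by_cases b : c.bot ∈ W <;> by_cases d : c.bot ∈ V <;> simp_all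

theorem sc_low (h : Rg X) (hW : W ⊆ Om X) (hl : IsLowerSet W) : sc X W = eu W := by
  rw [← (ws_sr h.up h.nice hW).eu_eq, (z1_ind h.up).eu_eq h.mf (sr_sub h.up hW) (sr_upper h.up)]
  exact sum_congr (filter_congr fun c _ => and_congr_right fun _ => (mt_low hl).symm) fun _ _ => rfl

theorem sc_up (h : Rg X) (hW : W ⊆ Om X) (hu : ∀ x ∈ W, ∀ y ∈ Om X, x ≤ y → y ∈ W) :
    sc X W = eu W := by
  have z : Z1 X (cb (ind X)) := z1_ind h.up
  have : IsCoc X (cb (ind X)) := ⟨z.coc⟩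
  have s : {c : Ch P | c.top ∈ X ∧ c.bot ∈ W} ⊆ Sr X W := fun c k => ⟨k.1, _, c.bot_mem, k.2⟩
  have q := (s.trans (sr_sub h.up hW)).trans (mx_qe subset_rfl)
  have e : WS {c : Ch P | c.top ∈ X ∧ c.bot ∈ W} (Sr X W) id := WS.of_int' s
    fun c ⟨k, a, a1, a2⟩ => by
      have m : Mt (W ∪ X) c := ⟨a, a1, Or.inl a2⟩
      refine ⟨rs (W ∪ X) c, ⟨h.up (le_tw c.top_mem (Or.inr k)) k,
        ((mem_rs m).1 (Ch.bot_mem _)).2.resolve_right fun j => (hW a2).1 (h.up (Ch.bot_le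
          ((mem_rs m).2 ⟨a1, Or.inl a2⟩)) j)⟩, rs_le m, fun d j l t ht => (mem_rs m).2 ⟨l ht, ?_⟩⟩
      exact (Classical.em (t ∈ X)).symm.imp_left fun i =>
        hu _ j.2 t ⟨i, _, j.1, Ch.le_top ht⟩ (Ch.bot_le ht)
  rw [← (ws_sr h.up h.nice hW).eu_eq, ← e.eu_eq, ← z.eu_pre q,
    eu_lower h.mf z.mono (fun _ k => ⟨_, Ch.top_mem _, k.1⟩) fun p r l k => ?_, z.chiC_pre q]
  · exact sum_congr (Finset.ext fun c => by simp) fun _ _ => rfl
  · have l' : ch r ≤ ch p := z.ch_le.2 l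
    have j := Ind26.cb_ind_pos (ch_mem r).2
    exact ⟨j.2, hu _ k.2 _ ⟨j.1, _, j.2, Ch.bot_le_top _⟩ (Ch.bot_anti l')⟩

theorem chi_ind (h : IsUpperSet X) (hW : W ⊆ Om X) : chi X (cb (ind W)) = -sc X W := by
  simp only [chi, sc, sum_filter, ← sum_neg_distrib, mt_iff h]
  refine sum_congr rfl fun c _ => ?_
  by_cases a : c.top ∈ X
  · have : c.top ∉ W := fun k => (hW k).1 a
    by_cases b : c.bot ∈ W <;> simp [cb, ind, a, b, this]
  · simp [a]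

/-- a connected proper part of the boundary surface -/
theorem om_le (h : Rg X) (hW : W ⊆ Om X) (hc : Conn W) (hx : x ∈ W) (hy : y ∈ Om X) (hy' : y ∉ W)
    (k : Cm x y) : eu W ≤ 1 ∧ (1 ≤ eu W → Ctr W) := by
  obtain ⟨u, hu, l1, l2⟩ : ∃ u ∈ X, x ≤ u ∧ y ≤ u := k.elim
    (fun k => let ⟨u, a, b⟩ := hy.2; ⟨u, a, k.trans b, b⟩)
    fun k => let ⟨u, a, b⟩ := (hW hx).2; ⟨u, a, b, k.trans b⟩
  have e := ws_sr h.up h.nice hW
  have cm : ∀ t ∈ (Ch.pr y u l2).1, Cm x t := by simpa using ⟨k, Or.inl l1⟩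
  have a1 : (Ch.pr y u l2).ins x cm ∈ Sr X W :=
    ⟨(mt_iff h.up).1 ⟨u, Ch.le_ins _ _ _ (by simp), hu⟩, x, mem_insert_self _ _, hx⟩
  have a2 : Ch.pr y u l2 ∈ Qe X (cb (ind X)) := mx_qe subset_rfl (mem_mx_ind.2 (by simp [hu, hy.1]))
  have a3 : Ch.pr y u l2 ∉ Sr X W := fun ⟨_, t, t1, t2⟩ => by
    rcases mem_insert.1 t1 with rfl | t1
    exacts [hy' t2, (hW t2).1 (mem_singleton.1 t1 ▸ hu)]
  rw [← e.eu_eq, ← e.ctr_iff]
  exact ⟨(z1_ind h.up).eu_le_one h.mf (sr_sub h.up hW) (e.conn_iff.2 hc) a1 a2 a3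
    (Or.inr (Ch.le_ins _ _ _)), (z1_ind h.up).ctr h.mf (sr_sub h.up hW) (e.conn_iff.2 hc) a1 a2 a3
    (Or.inr (Ch.le_ins _ _ _))⟩

/-- a closed surface has even Euler characteristic -/
theorem chi_even (h : Sub Y X) (hc : CocOn (cl X) w) (hf : Flat (Om X) w) : Even (chi X w) := by
  obtain ⟨g, g0, g1⟩ := ext_bnd h.up h.amb.up h.sub h.amb.bnd hc hf
  have e : chi X w = chi Y (cb g) := by
    simp only [chi, sum_filter, mt_iff h.up, mt_iff h.amb.up]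
    refine sum_congr rfl fun c _ => ?_
    by_cases a : c.top ∈ Y
    · rw [if_pos a, cb, ← g1 _ _ (sub_cl a) c.bot_le_top, Hk.ext]
      by_cases b : c.top ∈ X
      · rw [if_pos b, if_pos (sub_cl b)]
      · rw [if_neg b]
        split_ifs with d
        · rw [hf _ (om_low h.up c.bot_le_top ⟨b, d⟩) _ ⟨b, d⟩ c.bot_le_top, mul_zero]
        · simp
    · rw [if_neg a, if_neg fun b => a (h.sub b)]
  rw [e, chi_cb h.amb.mf g0]
  exact (even_neg_two).mul_right _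

theorem conn_union (hW : Conn W) (hV : Conn V) (hx : x ∈ W) (hy : y ∈ V) (k : Cm x y) :
    Conn (W ∪ V) := by
  have a : ∀ t ∈ W ∪ V, Rch (W ∪ V) t x := fun t ht => ht.elim
    (fun j => (hW t j x hx).mono Set.subset_union_left) fun j =>
      ((hV t j y hy).mono Set.subset_union_right).trans (Rch.of_cm (Or.inr hy) (Or.inl hx) k.symm)
  exact fun s hs t ht => (a s hs).trans (a t ht).symm

/-- `Δ` is cut along jumps into an upper part `T` and a lower part `S` -/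
structure Spl (Δ : Set P) (w : P → P → ℤ) (T S : Set P) : Prop where
  un : T ∪ S = Δ
  cT : Conn T
  cS : Conn S
  dir : ∀ x ∈ T, ∀ y ∈ S, ¬ x ≤ y ∧ (y ≤ x → w y x = 1)
  ne : ∃ x ∈ T, ∃ y ∈ S, y ≤ x

theorem Spl.dj (h : Spl Δ w T S) : Disjoint T S :=
  Set.disjoint_left.2 fun x a b => (h.dir x a x b).1 le_rfl

theorem Spl.l (h : Spl Δ w T S) : T ⊆ Δ := h.un ▸ Set.subset_union_left
theorem Spl.r (h : Spl Δ w T S) : S ⊆ Δ := h.un ▸ Set.subset_union_right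
theorem Spl.cases (h : Spl Δ w T S) (hx : x ∈ Δ) : x ∈ T ∨ x ∈ S := by rwa [← h.un] at hx

/-- a region: joined in the level of `g` -/
def Rf (Δ : Set P) (g : P → ℤ) (x : P) : Set P := cmp {y | y ∈ Δ ∧ g y = g x} x

theorem Rf.step {g : P → ℤ} {a b : P} (hb : b ∈ Δ) (e : g b = g a) (k : Cm a b) (ha : a ∈ Rf Δ g x) :
    b ∈ Rf Δ g x := ⟨⟨hb, e.trans ha.1.2⟩, ha.2.trans (Rch.of_cm ha.1 ⟨hb, e.trans ha.1.2⟩ k)⟩

/-- the cut at a jump -/
theorem exists_spl (hΔ : Ctr Δ) {g : P → ℤ} (hg : ∀ a ∈ Δ, ∀ b ∈ Δ, a ≤ b → w a b = g b - g a)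
    (h01 : ∀ a ∈ Δ, ∀ b ∈ Δ, a ≤ b → g b = g a ∨ g b = g a + 1) (hx : x ∈ Δ) (hy : y ∈ Δ)
    (l : x ≤ y) (e : g y = g x + 1) : ∃ T S, Spl Δ w T S ∧ x ∈ S ∧ y ∈ T ∧
      ∀ a ∈ S, ∀ b ∈ T, a ≤ b → a ∈ Rf Δ g x := by
  have x0 : x ∈ Rf Δ g x := mem_cmp_self ⟨hx, rfl⟩
  have y0 : y ∈ Rf Δ g y := mem_cmp_self ⟨hy, rfl⟩
  obtain ⟨u, hu⟩ := hΔ.ex ℤ (fun a b => if a ∈ Rf Δ g x ∧ b ∈ Rf Δ g y then 1 else 0)
    fun a ha b hb c hc h1 h2 => by
      have i1 : g b = g a → (a ∈ Rf Δ g x ↔ b ∈ Rf Δ g x) := fun k =>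
        ⟨Rf.step hb k (Or.inl h1), Rf.step ha k.symm (Or.inr h1)⟩
      have i2 : g c = g b → (b ∈ Rf Δ g y ↔ c ∈ Rf Δ g y) := fun k =>
        ⟨Rf.step hc k (Or.inl h2), Rf.step hb k.symm (Or.inr h2)⟩
      have j1 : ∀ t, t ∈ Rf Δ g x → g t = g x := fun _ k => k.1.2
      have j2 : ∀ t, t ∈ Rf Δ g y → g t = g y := fun _ k => k.1.2
      have := h01 a ha b hb h1
      have := h01 b hb c hc h2
      have := h01 a ha c hc (h1.trans h2)
      grind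
  beta_reduce at hu
  have ux : ∀ a ∈ Rf Δ g x, u a = u x := fun a ha => (ha.2.eq fun s hs t ht k => by
    have := hu s hs.1 t ht.1 k
    rw [if_neg fun j => by have := j.2.1.2; have := ht.2; omega] at this
    omega).symm
  have uy : ∀ a ∈ Rf Δ g y, u a = u y := fun a ha => (ha.2.eq fun s hs t ht k => by
    have := hu s hs.1 t ht.1 k
    rw [if_neg fun j => by have := j.1.1.2; have := hs.2; omega] at this
    omega).symm
  have uxy : u y = u x + 1 := by have := hu x hx y hy l; rw [if_pos ⟨x0, y0⟩] at this; omega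
  have st : ∀ a ∈ Δ, ∀ b ∈ Δ, a ≤ b → u b = u a ∨ a ∈ Rf Δ g x ∧ b ∈ Rf Δ g y := fun a ha b hb k =>
    or_iff_not_imp_right.2 fun j => by have := hu a ha b hb k; rw [if_neg j] at this; omega
  have rx : ∀ a ∈ Rf Δ g x, Rch {t | t ∈ Δ ∧ u t = u x} a x := fun a ha =>
    ((isCmp_cmp (E := {y | y ∈ Δ ∧ g y = g x}) ⟨hx, rfl⟩).conn a ha x x0).mono
      fun t ht => ⟨ht.1.1, ux t ht⟩
  have ry : ∀ a ∈ Rf Δ g y, Rch {t | t ∈ Δ ∧ u t = u y} a y := fun a ha =>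
    ((isCmp_cmp (E := {t | t ∈ Δ ∧ g t = g y}) ⟨hy, rfl⟩).conn a ha y y0).mono
      fun t ht => ⟨ht.1.1, uy t ht⟩
  have key : ∀ a ∈ Δ, (u a = u x ∧ Rch {t | t ∈ Δ ∧ u t = u x} a x) ∨
      (u a = u y ∧ Rch {t | t ∈ Δ ∧ u t = u y} a y) := fun a ha =>
    (hΔ.conn x hx a ha).ind (p := fun a => (u a = u x ∧ Rch {t | t ∈ Δ ∧ u t = u x} a x) ∨
      (u a = u y ∧ Rch {t | t ∈ Δ ∧ u t = u y} a y)) (Or.inl ⟨rfl, Rch.rfl⟩) fun s hs t ht k => by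
      rcases st s hs t ht k with j | j
      · have : ∀ z, (u s = u z ∧ Rch {t | t ∈ Δ ∧ u t = u z} s z) ↔
            (u t = u z ∧ Rch {t | t ∈ Δ ∧ u t = u z} t z) := fun z => ⟨fun i => ⟨j.trans i.1,
          (Rch.of_cm (E := {t | t ∈ Δ ∧ u t = u z}) ⟨ht, j.trans i.1⟩ ⟨hs, i.1⟩ (Or.inr k)).trans i.2⟩,
          fun i => ⟨j.symm.trans i.1, (Rch.of_cm (E := {t | t ∈ Δ ∧ u t = u z})
            ⟨hs, j.symm.trans i.1⟩ ⟨ht, i.1⟩ (Or.inl k)).trans i.2⟩⟩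
        exact or_congr (this x) (this y)
      · exact iff_of_true (Or.inl ⟨ux s j.1, rx s j.1⟩) (Or.inr ⟨uy t j.2, ry t j.2⟩)
  have cr : ∀ a ∈ Δ, ∀ b ∈ Δ, u a = u x → u b = u y → a ≤ b → a ∈ Rf Δ g x ∧ b ∈ Rf Δ g y :=
    fun a ha b hb i j k => (st a ha b hb k).resolve_left (by omega)
  refine ⟨{t | t ∈ Δ ∧ u t = u y}, {t | t ∈ Δ ∧ u t = u x}, ⟨Set.ext fun a => ⟨fun k => k.elim
    And.left And.left, fun k => (key a k).symm.imp (fun j => ⟨k, j.1⟩) fun j => ⟨k, j.1⟩⟩,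
    fun a ha b hb => ?_, fun a ha b hb => ?_, fun a ha b hb => ⟨fun k => ?_, fun k => ?_⟩,
    ⟨y, ⟨hy, rfl⟩, x, ⟨hx, rfl⟩, l⟩⟩, ⟨hx, rfl⟩, ⟨hy, rfl⟩,
    fun a ha b hb k => (cr a ha.1 b hb.1 ha.2 hb.2 k).1⟩
  · exact ((key a ha.1).resolve_left fun k => by have := k.1; have := ha.2; omega).2.trans
      ((key b hb.1).resolve_left fun k => by have := k.1; have := hb.2; omega).2.symm
  · exact ((key a ha.1).resolve_right fun k => by have := k.1; have := ha.2; omega).2.trans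
      ((key b hb.1).resolve_right fun k => by have := k.1; have := hb.2; omega).2.symm
  · rcases st a ha.1 b hb.1 k with j | j
    · have := ha.2; have := hb.2; omega
    · have := ux a j.1; have := ha.2; omega
  · have j := cr b hb.1 a ha.1 hb.2 ha.2 k
    have := j.1.1.2
    have := j.2.1.2
    rw [hg b hb.1 a ha.1 k]
    omega

/-- a side without jumps -/
theorem exists_leaf (hΔ : Ctr Δ) (hc : CocOn Δ w)
    (h01 : ∀ a ∈ Δ, ∀ b ∈ Δ, a ≤ b → w a b = 0 ∨ w a b = 1) (hn : ¬ Flat Δ w) :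
    ∃ T S, Spl Δ w T S ∧ (Flat T w ∨ Flat S w) := by
  obtain ⟨g, hg⟩ := hΔ.ex ℤ w hc
  have k01 : ∀ a ∈ Δ, ∀ b ∈ Δ, a ≤ b → g b = g a ∨ g b = g a + 1 := fun a ha b hb l => by
    have := h01 a ha b hb l; have := hg a ha b hb l; omega
  have jp : ∀ A ⊆ Δ, ¬ Flat A w → ∃ x ∈ A, ∃ y ∈ A, x ≤ y ∧ g y = g x + 1 := fun A hA k => by
    by_contra j
    exact k fun x a y b l => by
      have := hg x (hA a) y (hA b) l
      have := (k01 x (hA a) y (hA b) l).resolve_right fun i => j ⟨x, a, y, b, l, i⟩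
      omega
  obtain ⟨A, ⟨B, hA⟩, hmin⟩ := Set.exists_min_image {A | ∃ B, Spl Δ w A B ∨ Spl Δ w B A} Set.ncard
    (Set.toFinite _) (by
      obtain ⟨x, a, y, b, l, i⟩ := jp Δ subset_rfl hn
      obtain ⟨T, S, k, -⟩ := exists_spl hΔ hg k01 a b l i
      exact ⟨T, S, Or.inl k⟩)
  suffices k : Flat A w from hA.elim (fun j => ⟨A, B, j, Or.inl k⟩) fun j => ⟨B, A, j, Or.inr k⟩
  by_contra k
  have sA : A ⊆ Δ := hA.elim Spl.l Spl.r
  have sB : B ⊆ Δ := hA.elim Spl.r Spl.l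
  have cs : ∀ t ∈ Δ, t ∉ B → t ∈ A := fun t a b =>
    hA.elim (fun j => (j.cases a).resolve_right b) fun j => (j.cases a).resolve_left b
  have dj : ∀ t ∈ A, t ∉ B := fun t a b =>
    hA.elim (fun j => Set.disjoint_left.1 j.dj a b) fun j => Set.disjoint_left.1 j.dj b a
  have cr : ∀ s ∈ Δ, ∀ t ∈ Δ, s ≤ t → g s = g t → (s ∈ A ↔ t ∈ A) := fun s a t b l e => by
    have := hg s a t b l
    refine ⟨fun i => cs t b fun j => ?_, fun i => cs s a fun j => ?_⟩ <;> rcases hA with m | m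
    · exact (m.dir s i t j).1 l
    · have := (m.dir t j s i).2 l; omega
    · have := (m.dir t i s j).2 l; omega
    · exact (m.dir s j t i).1 l
  obtain ⟨x, a, y, b, l, i⟩ := jp A sA k
  obtain ⟨T, S, m, x1, y1, rf⟩ := exists_spl hΔ hg k01 (sA a) (sA b) l i
  have fl : Flat B (cb (ind T)) := fun s hs t ht j => cb_ind_eq_zero.2
    ⟨fun o => (m.cases (sB ht)).resolve_right fun o' => (m.dir s o t o').1 j, fun o =>
      (m.cases (sB hs)).resolve_right fun o' => dj s ((rf s o' t o j).2.ind a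
        fun p hp q hq r => cr p hp.1 q hq.1 r (hp.2.trans hq.2.symm)) hs⟩
  rcases fl.sub_or (hA.elim Spl.cS Spl.cT) with j | j
  · exact (hmin S ⟨T, Or.inr m⟩).not_gt (Set.ncard_lt_ncard ⟨fun t o => cs t (m.r o) fun o' =>
      Set.disjoint_left.1 m.dj (j o') o, fun o => Set.disjoint_left.1 m.dj y1 (o b)⟩)
  · exact (hmin T ⟨S, Or.inl m⟩).not_gt (Set.ncard_lt_ncard ⟨fun t o => cs t (m.l o) fun o' =>
      Set.disjoint_left.1 j o' o, fun o => Set.disjoint_left.1 m.dj (o a) x1⟩)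

theorem conn_bot (hT : T ⊆ Δ) (h : Conn T) : Conn (Ch.top ⁻¹' Δ ∩ Ch.bot ⁻¹' T : Set (Ch P)) := by
  have a : ∀ c ∈ (Ch.top ⁻¹' Δ ∩ Ch.bot ⁻¹' T : Set (Ch P)),
      Rch (Ch.top ⁻¹' Δ ∩ Ch.bot ⁻¹' T) c (Ch.pt c.bot) := fun c k =>
    Rch.of_cm k ⟨by simpa using hT k.2, by simpa using k.2⟩ (Or.inr (Ch.pt_le.2 c.bot_mem))
  refine fun c k d j => (a c k).trans (Rch.trans ((h _ k.2 _ j.2).map fun s hs t ht l => ?_)
    (a d j).symm)
  have m : Ch.pr s t l ∈ (Ch.top ⁻¹' Δ ∩ Ch.bot ⁻¹' T : Set (Ch P)) :=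
    ⟨by simpa using hT ht, by simpa using hs⟩
  have n : ∀ s ∈ T, Ch.pt s ∈ (Ch.top ⁻¹' Δ ∩ Ch.bot ⁻¹' T : Set (Ch P)) := fun s hs =>
    ⟨by simpa using hT hs, by simpa using hs⟩
  exact (Rch.of_cm (n s hs) m (Or.inl (by simp [Ch.pt_le]))).trans
    (Rch.of_cm m (n t ht) (Or.inr (by simp [Ch.pt_le])))

theorem Spl.rev (h : Spl Δ w T S) (hl : IsLowerSet Δ) : Spl (Ch.top ⁻¹' Δ) (rev w)
    (Ch.top ⁻¹' Δ ∩ Ch.bot ⁻¹' S) (Ch.top ⁻¹' Δ ∩ Ch.bot ⁻¹' T) := by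
  refine ⟨Set.ext fun c => ⟨fun k => k.elim And.left And.left, fun k =>
    (h.cases (hl c.bot_le_top k)).symm.imp (⟨k, ·⟩) (⟨k, ·⟩)⟩, conn_bot h.r h.cS, conn_bot h.l h.cT,
    fun c a d b => ⟨fun l => (h.dir _ b.2 _ a.2).1 (Ch.bot_anti l),
      fun l => (h.dir _ b.2 _ a.2).2 (Ch.bot_anti l)⟩, ?_⟩
  obtain ⟨x, a, y, b, l⟩ := h.ne
  exact ⟨Ch.pr y x l, ⟨by simpa using h.l a, by simpa using b⟩, Ch.pt x,
    ⟨by simpa using h.l a, by simpa using a⟩, by simp [Ch.pt_le]⟩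

theorem flat_rev (h : Flat T w) : Flat (Ch.top ⁻¹' Δ ∩ Ch.bot ⁻¹' T : Set (Ch P)) (rev w) :=
  fun _ a _ b l => h _ b.2 _ a.2 (Ch.bot_anti l)

end Crest.Agent.X212.Sl43
end
end

-- ▼ part X212/Sl43/Main
section

/-!
# X212 / Sl43 (helper43): `SlStmt`, the boundary of a disc slides off discs of the boundary
-/

set_option autoImplicit false
set_option linter.unusedSectionVars false

open Finset Classical

noncomputable section

namespace Crest.Agent.X212.Sl43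

open Hp13 hiding sub_cl cl_low cl_mono dp_iff om_low coc_iff exOn_pb exOn_add exOn_neg exOn_congr
open Hk Pt30 Am43
open Alg36 (Om)
open Kh11 (WS)

section
variable {P : Type} [PartialOrder P] [Fintype P] {X Y G K Z Λ Δ b L : Set P} {w : P → P → ℤ}
  {x y : P} {c : Ch P}

/-- the data of a slide over `b` -/
structure Mo (X Δ : Set P) (w : P → P → ℤ) (b L : Set P) : Prop where
  rg : Rg X
  td : TD X w
  low : IsLowerSet Δ
  sub : Δ ⊆ Om X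
  eu1 : eu Δ = 1
  spl : Spl Δ w b L
  vert : ∀ x ∈ b, ∀ v ∈ cl X, x ≤ v → w x v = 0

namespace Mo
variable (h : Mo X Δ w b L)
include h

theorem bo : b ⊆ Om X := h.spl.l.trans h.sub

theorem one (hy : y ∈ b) (l : x ≤ y) (hx : x ∉ b) : w x y = 1 :=
  (h.spl.dir y hy x ((h.spl.cases (h.low l (h.spl.l hy))).resolve_left hx)).2 l

theorem mv : Mvs X b w :=
  ⟨fun x a v p => h.vert x a v ((dp_iff h.rg.up).1 p).2 p.le, fun _ a _ p k => h.one a p.le k⟩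

theorem z : Z1 X w := h.td.toS1.z1 h.rg.up
theorem u : Z1 X (lw w b) := z1_lw h.z h.mv
theorem s1 : S1 X (lw w b) := S1.of_z1 h.u h.rg.up

/-- the jump -/
theorem jp : ∃ x ∈ Om X, ∃ y ∈ b, x ≤ y ∧ x ∉ b :=
  let ⟨y, a, x, k, l⟩ := h.spl.ne
  ⟨x, h.sub (h.spl.r k), y, a, l, fun j => Set.disjoint_left.1 h.spl.dj j k⟩

theorem chi_eq : chi X (lw w b) = 1 + sc X b := by
  rw [chi_sub, h.td.chi, chi_ind h.rg.up h.bo, sub_neg_eq_add]

theorem sc_nn : 0 ≤ sc X b := by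
  obtain ⟨y, a, x, k, l⟩ := h.spl.ne
  have s := h.spl.r.trans h.sub
  have e := sc_union (X := X) h.spl.dj
  rw [h.spl.un, sc_low h.rg h.sub h.low, h.eu1, sc_low h.rg s fun p q j i =>
    (h.spl.cases (h.low j (h.spl.r i))).resolve_left fun m => (h.spl.dir q m p i).1 j] at e
  have := (om_le h.rg s h.spl.cS k (h.bo a) (Set.disjoint_left.1 h.spl.dj a) (Or.inl l)).1
  omega

theorem ny (hc : c.top ∈ X) (k : Mt b c) : c ∈ CA X (lw w b) :=
  ((ny_iff h.z h.mv).1 ⟨hc, k, fun j => (h.bo j).1 hc⟩).1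

theorem conn : Conn (CA X (lw w b)) := by
  obtain ⟨x, -, y, a, l, k⟩ := h.jp
  obtain ⟨d, d1, d2⟩ := Cut21.ex_ca h.rg.up h.z (q := Ch.pr x y l)
    ⟨(dom_iff' h.rg.up).2 (by simpa using om_sub_cl (h.bo a)), by simp [h.one a l k]⟩
  have m : Mt b d := ⟨y, d2 (by simp), a⟩
  have s : ∀ c, c.top ∈ X → Mt b c → Rch (CA X (lw w b)) c d := fun c p q =>
    (((ws_sr h.rg.up h.rg.nice h.bo).conn_iff.2 h.spl.cT) c ⟨p, q⟩ d ⟨d1.1, m⟩).mono
      fun e j => h.ny j.1 j.2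
  have t : ∀ c ∈ CA X (lw w b), Rch (CA X (lw w b)) c d := fun c p => by
    by_cases q : Mt b c
    · exact s c p.1 q
    have o : CA X w \ {c | Mt b c} ⊆ CA X (lw w b) := fun e j => (mx_off j.2).2 j.1
    obtain ⟨r, r1, r2, e, e1, e2, e3⟩ := (Rch.exit (X := {c | Mt b c})
      (h.td.conn c ((mx_off q).1 p) d d1) q).resolve_left fun j => j.1 m
    exact ((r2.mono o).trans (Rch.of_cm (o r1) (h.ny e1.1 e2) e3)).trans (s e e1.1 e2)
  exact fun c p e q => (t c p).trans (t e q).symm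

theorem cv (hK : K ⊆ cl X) (hu : ∀ x ∈ b, ∀ y ∈ K, x ≤ y → y ∈ b) :
    c ∈ Cv K (lw w b) ↔ c ∈ Cv K w ∧ ¬ Mt b c := by
  refine ⟨fun a => ?_, fun a => ⟨a.1.1, (lw_ch a.2 c.bot_mem c.top_mem).symm ▸ a.1.2⟩⟩
  have k : ¬ Mt b c := fun ⟨x, p, q⟩ => a.2.ne' (lw_to h.mv
    ((dp_iff h.rg.up).2 ⟨c.bot_le_top, hK (a.1 _ c.top_mem)⟩)
    (hu x q _ (a.1 _ c.top_mem) (Ch.le_top p)))
  exact ⟨⟨a.1, lw_ch (e := w) k c.bot_mem c.top_mem ▸ a.2⟩, k⟩

theorem mt_iff (hK : K ⊆ cl X) (hu : ∀ x ∈ b, ∀ y ∈ K, x ≤ y → y ∈ b) (hc : c ∈ Cv K w)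
    {d : Ch P} (hd : d ∈ Cv K w) (l : c ≤ d) : Mt b c ↔ Mt b d :=
  ⟨fun k => k.mono l, fun ⟨x, p, q⟩ => ⟨_, c.top_mem, by_contra fun k => by
    have := h.z.top_top ((dom_iff' h.rg.up).2 (hK (hd.1 _ d.top_mem))) l hc.2
    rw [h.one (hu x q _ (hd.1 _ d.top_mem) (Ch.le_top p)) (Ch.top_mono l) k] at this
    omega⟩⟩

theorem pr_mem (hK : IsLowerSet K) (hy : y ∈ b) (l : x ≤ y) (hx : x ∉ b) (k : y ∈ K) :
    Ch.pr x y l ∈ Cv K w := (mem_cv hK).2 ⟨by simpa using k, by simp [h.one hy l hx]⟩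

theorem ncmp_lt (hl : IsLowerSet K) (hK : K ⊆ cl X) (hb : b ⊆ K)
    (hu : ∀ x ∈ b, ∀ y ∈ K, x ≤ y → y ∈ b) : ncmp (Cv K (lw w b)) < ncmp (Cv K w) := by
  obtain ⟨x, -, y, a, l, k⟩ := h.jp
  refine Hp13.ncmp_lt (fun c j => ((h.cv hK hu).1 j).1) (fun c j d i m => (h.cv hK hu).2 ⟨i, ?_⟩)
    (h.pr_mem hl a l k (hb a)) fun j => ((h.cv hK hu).1 j).2 ⟨y, by simp, a⟩
  have j := (h.cv hK hu).1 j
  exact fun n => j.2 (m.elim (fun m => (h.mt_iff hK hu j.1 i m).2 n) n.mono)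

theorem ccv : Conn (Cv (Om X) w) := Cut21.conn_cv h.rg h.td.toS1 h.td.conn h.td.chi.ge

/-- the leaf is a whole side: it is the disc -/
theorem ines (hs : Sub Y X) (hG : Bd X G) (hb : b ⊆ G)
    (hu : ∀ x ∈ b, ∀ y ∈ Om X, x ≤ y → y ∈ b) : Ines G w := by
  obtain ⟨x, x1, y, a, l, k⟩ := h.jp
  have f : Flat (Om X) (lw w b) := (h.s1.cv_empty om_sub_cl).1 (Set.eq_empty_of_forall_notMem
    fun c j => have j := (h.cv om_sub_cl hu).1 j
      j.2 ((h.ccv _ (h.pr_mem (om_low h.rg.up) a l k (h.bo a)) c j.1).ind ⟨y, by simp, a⟩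
        fun _ p _ q => h.mt_iff om_sub_cl hu p q))
  have e1 := chi_even hs h.s1.coc f
  have e2 := h.u.eu_le_two h.rg.mf subset_rfl h.conn
  have e3 := Cut21.chi_ca h.rg h.s1
  have e4 := h.sc_nn
  have e5 := sc_up h.rg h.bo hu
  rw [h.chi_eq] at e1 e3
  refine ⟨b, hb, (om_le h.rg h.bo h.spl.cT a x1 k (Or.inr l)).2 ?_,
    Or.inl fun p p1 q q1 j => sub_eq_zero.1 (f p (hG.sub p1) q (hG.sub q1) j)⟩
  obtain ⟨n, hn⟩ := e1
  change eu (CA X (lw w b)) ≤ 2 at e2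
  omega

section
variable (hx : x ∈ b) (hy : y ∈ Om X) (hy' : y ∉ b) (l : x ≤ y)
include hx hy hy' l

theorem fr : lw w b x y = 1 := lw_from h.mv ((dp_iff h.rg.up).2 ⟨l, hy.2⟩) hx hy'

theorem ne : Ch.pr x y l ∈ Cv (Om X) (lw w b) :=
  (mem_cv (om_low h.rg.up)).2 ⟨by simpa using hy, by
    rw [Ch.bot_pr, Ch.top_pr, h.fr hx hy hy' l]; exact one_pos⟩

theorem sc_zero : sc X b = 0 := by
  obtain ⟨a, k⟩ := (Cut21.cv_om h.rg.up).1 (h.ne hx hy hy' l)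
  obtain ⟨d, d1, d2⟩ := Cut21.ex_ca h.rg.up h.u a
  have e2 := h.u.eu_le_one h.rg.mf subset_rfl h.conn d1 a k (Or.inr d2)
  have e3 := Cut21.chi_ca h.rg h.s1
  have e4 := h.sc_nn
  rw [h.chi_eq] at e3
  change eu (CA X (lw w b)) ≤ 1 at e2
  omega

theorem td' : TD X (lw w b) :=
  ⟨h.s1, h.conn, by rw [h.chi_eq, h.sc_zero hx hy hy' l, add_zero], _, h.ne hx hy hy' l⟩

theorem back (hG : Bd X G) (hb : b ⊆ G) (ho : On X G w) (k : Ines G (lw w b)) : Ines G w := by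
  obtain ⟨Z, z1, z2, z3⟩ := k
  obtain ⟨p, p1, q, q1, j, i⟩ := h.jp
  have yG := hG.clo x (hb hx) y hy l
  have pG := hG.low j (hb q1)
  have s0 := h.sc_zero hx hy hy' l
  have f0 := h.fr hx hy hy' l
  have f1 := h.one q1 j i
  have so : b ⊆ Z ∨ Disjoint b Z := Flat.sub_or (fun s a t a' m => cb_ind_eq_zero.2
    ((z3.iff (hb a) (hb a') m).1 (lw_to h.mv ((dp_iff h.rg.up).2 ⟨m, (h.bo a').2⟩) a'))) h.spl.cT
  have up : ∀ {v : P → P → ℤ} {W : Set P}, S1 X v → W ⊆ G → EqE G v (cb (ind W)) →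
      sc X W = eu W := fun a s e => sc_up h.rg (s.trans hG.sub) fun c m d n o => by_contra fun r => by
    have := a.nn c d n.2 o
    rw [e c (s m) d (hG.clo c (s m) d n o) o, cb, ind_of_mem m, ind_of_not r] at this
    omega
  have lo : ∀ {v : P → P → ℤ} {W : Set P}, S1 X v → W ⊆ G → EqE G v (-cb (ind W)) →
      IsLowerSet W := fun a s e d c o m => by_contra fun r => by
    have := a.nn c d (hG.sub_cl (s m)) o
    rw [e c (hG.low o (s m)) d (s m) o, Pi.neg_apply, Pi.neg_apply, cb, ind_of_mem m,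
      ind_of_not r] at this
    omega
  rcases z3 with e | e
  · have m := cb_ind_eq_one.1 ((e x (hb hx) y yG l).symm.trans f0)
    have dj := so.resolve_left fun s => m.1 (s hx)
    have s := Set.union_subset hb z1
    have e' : EqE G w (cb (ind (b ∪ Z))) := fun c c1 d d1 o => by
      have := e c c1 d d1 o
      have a : ∀ t, ind (b ∪ Z) t = ind b t + ind Z t := fun t => by
        have : t ∈ b → t ∉ Z := fun r => Set.disjoint_left.1 dj r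
        by_cases r : t ∈ b <;> by_cases r' : t ∈ Z <;> simp_all [ind]
      simp only [Pi.sub_apply, cb, a] at this ⊢
      omega
    refine ⟨_, s, (om_le h.rg (s.trans hG.sub) (conn_union h.spl.cT z2.conn hx m.2 (Or.inl l))
      (Or.inl q1) p1 (cb_ind_eq_one.1 ((e' p pG q (hb q1) j).symm.trans f1)).1 (Or.inr j)).2 ?_,
      Or.inl e'⟩
    rw [← up h.td.toS1 s e', sc_union dj, up h.s1 z1 e, s0, z2.eu, zero_add]
  · have m : x ∈ Z := by_contra fun r => by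
      have := ind_nonneg (E := Z) y
      rw [e x (hb hx) y yG l, Pi.neg_apply, Pi.neg_apply, cb, ind_of_not r] at f0
      omega
    have sb := so.resolve_right fun s => Set.disjoint_left.1 s hx m
    have s : Z \ b ⊆ G := Set.sdiff_subset.trans z1
    have e' : EqE G w (-cb (ind (Z \ b))) := fun c c1 d d1 o => by
      have := e c c1 d d1 o
      have a : ∀ t, ind (Z \ b) t = ind Z t - ind b t := fun t => by
        have : t ∈ b → t ∈ Z := fun r => sb r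
        by_cases r : t ∈ b <;> by_cases r' : t ∈ Z <;> simp_all [ind]
      simp only [Pi.sub_apply, Pi.neg_apply, cb, a] at this ⊢
      omega
    have bt : ∀ c ∈ Cv (Om X) w, c.bot ∈ Z \ b := fun c r => by_contra fun r' => by
      have r := ho.cv hG ▸ r
      have := ind_nonneg (E := Z \ b) c.top
      have a := r.2
      rw [e' _ (r.1 _ c.bot_mem) _ (r.1 _ c.top_mem) c.bot_le_top, Pi.neg_apply, Pi.neg_apply, cb,
        ind_of_not r'] at a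
      omega
    have pm := h.pr_mem (om_low h.rg.up) q1 j i (h.bo q1)
    have cn : ∀ a ∈ Z \ b, Rch (Z \ b) a p := fun a a1 => by
      obtain ⟨r, r1, r2, t, -, t2, t3⟩ := (Rch.exit (X := b) (z2.conn a a1.1 q (sb q1))
        a1.2).resolve_left fun o => o.1 q1
      have o := t3.resolve_right fun o => (lo h.td.toS1 s e' o r1).2 t2
      refine r2.trans ?_
      simpa using (h.ccv _ (h.pr_mem (om_low h.rg.up) t2 o r1.2 (h.bo t2)) _ pm).map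
        (f := Ch.bot) fun c c1 d d1 n => Rch.of_cm (bt c c1) (bt d d1) (Or.inr (Ch.bot_anti n))
    refine ⟨_, s, (om_le h.rg (s.trans hG.sub) (fun a a1 c c1 => (cn a a1).trans (cn c c1).symm)
      (by simpa using bt _ pm) (h.bo q1) (fun r => r.2 q1) (Or.inl j)).2 ?_, Or.inr e'⟩
    have u := sc_union (X := X) (Set.disjoint_sdiff_right (s := b) (t := Z))
    rw [Set.union_sdiff_cancel sb, sc_low h.rg (z1.trans hG.sub) (lo h.s1 z1 e), z2.eu, s0,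
      sc_low h.rg (s.trans hG.sub) (lo h.td.toS1 s e')] at u
    omega

end

theorem bd (hG : Bd X G) (ho : On X G w) : b ⊆ G := by
  obtain ⟨p, p1, q, q1, j, i⟩ := h.jp
  have a : q ∈ G := by_contra fun k => by
    have := ho p ⟨p1, fun r => k (hG.clo p r q (h.bo q1) j)⟩ q ⟨h.bo q1, k⟩ j
    rw [h.one q1 j i] at this
    omega
  exact fun t r => (h.spl.cT q q1 t r).ind a fun c _ d d1 o =>
    ⟨fun n => hG.clo c n d (h.bo d1) o, fun n => hG.low o n⟩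

theorem on (hG : Bd X G) (ho : On X G w) : On X G (lw w b) := fun x a y c l =>
  (lw_off (fun k => a.2 (h.bd hG ho k)) fun k => c.2 (h.bd hG ho k)).trans (ho x a y c l)

theorem tr (hb : b ⊆ Λ) (hx : x ∈ b) (hy : y ∈ Om X) (hy' : y ∉ b) (l : x ≤ y) :
    Tr X Λ w (lv0 P) id (lw w b) :=
  ⟨Desc.refl, h.td' hx hy hy' l, fun _ _ k f p a q c j => (lw_off
    (fun r => Set.disjoint_left.1 k a.1 (hb r)) fun r => Set.disjoint_left.1 k c.1 (hb r)).trans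
      (f p a q c j), fun _ a c => h.back hx hy hy' l a (h.bd a c) c,
    Or.inl ⟨-ind b, fun _ _ _ _ _ => by simp [pb, cb]; ring⟩⟩

end Mo

/-- composition of moves that may change the boundary curve -/
theorem tr_trans {t t' : St} {f : t.P → P} {g : t'.P → t.P} {w₁ : t.P → t.P → ℤ}
    {w₂ : t'.P → t'.P → ℤ} (h : Tr X Λ w t f w₁)
    (hon : ∀ G, Bd X G → On X G w → On (f ⁻¹' X) (f ⁻¹' G) w₁)
    (h' : Tr (f ⁻¹' X) (f ⁻¹' Λ) w₁ t' g w₂) (tw : Tw P t' (f ∘ g))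
    (e1 : cl (f ⁻¹' X) = f ⁻¹' cl X) (e2 : Om (f ⁻¹' X) = f ⁻¹' Om X) :
    Tr X Λ w t' (f ∘ g) w₂ := by
  have mf : Monotone f := Desc.mono h.tw
  have mg : Monotone g := Desc.mono (s := lv0 t.P) h'.tw
  refine ⟨tw, h'.td, fun K a b c => ?_, fun G a b c => h.ines G a b (h'.ines (f ⁻¹' G)
    ⟨a.low.preimage mf, e2 ▸ Set.preimage_mono a.sub,
      fun x hx y hy l => a.clo _ hx _ (by rwa [e2] at hy) (mf l)⟩ (hon G a b) c), ?_⟩
  · have := h'.flat (f ⁻¹' K) (a.preimage mf) (b.preimage f) (by rw [e1]; exact h.flat K a b c)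
    rwa [e1] at this
  · have d := h'.drv
    rw [e1] at d
    rcases h.drv with k | k <;> have k := Hp13.exOn_pb mg k <;> rcases d with d | d
    · exact Or.inl (Hp13.exOn_congr (exOn_add d k) fun x y => by simp [pb])
    · exact Or.inr (Hp13.exOn_congr (exOn_add d (exOn_neg k)) fun x y => by simp [pb])
    · exact Or.inr (Hp13.exOn_congr (exOn_add d k) fun x y => by simp [pb]; ring)
    · exact Or.inl (Hp13.exOn_congr (exOn_add d (exOn_neg k)) fun x y => by simp [pb]; ring)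

/-- the hypotheses -/
structure Hy (Y X G Λ : Set P) (w : P → P → ℤ) : Prop where
  sub : Sub Y X
  bd : Bd X G
  low : IsLowerSet Λ
  lg : Λ ⊆ G
  ctr : ∀ D, IsCmp Λ D → Ctr D
  td : TD X w
  on : On X G w

/-- the conclusion -/
def Out (X G Λ : Set P) (w : P → P → ℤ) : Prop :=
  Ines G w ∨ ∃ t f w', Tr X Λ w t f w' ∧ Flat (f ⁻¹' Λ) w'

/-- a piece of `Λ` -/
structure Cp (Λ Δ : Set P) : Prop where
  low : IsLowerSet Δ
  sub : Δ ⊆ Λ
  up : ∀ x ∈ Δ, ∀ y ∈ Λ, x ≤ y → y ∈ Δ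
  eu1 : eu Δ = 1

theorem Cp.sd (h : Cp Λ Δ) : Cp (Ch.top ⁻¹' Λ : Set (Ch P)) (Ch.top ⁻¹' Δ) :=
  ⟨h.low.preimage Ch.top_mono, Set.preimage_mono h.sub,
    fun _ a _ k l => h.up _ a _ k (Ch.top_mono l), (Alg36.ws_sd Δ).eu_eq.trans h.eu1⟩

theorem on_rev (hX : IsUpperSet X) (hG : Bd X G) (h : On X G w) :
    On (Ch.top ⁻¹' X) (Ch.top ⁻¹' G) (rev w) := by
  rw [On, om_sd']; exact Alg36.flat_rev (hG.low_diff hX) h

namespace Hy
variable (h : Hy Y X G Λ w)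
include h

theorem cl : Λ ⊆ cl X := h.lg.trans h.bd.sub_cl

theorem sd : Hy (Ch.top ⁻¹' Y) (Ch.top ⁻¹' X) (Ch.top ⁻¹' G) (Ch.top ⁻¹' Λ) (rev w) :=
  ⟨sub_sd h.sub, ⟨h.bd.low.preimage Ch.top_mono, om_sd' (P := P) ▸ Set.preimage_mono h.bd.sub,
      fun _ a _ k l => h.bd.clo _ a _ (by rwa [om_sd'] at k) (Ch.top_mono l)⟩,
    h.low.preimage Ch.top_mono, Set.preimage_mono h.lg, fun C k => by
      obtain ⟨D, a, rfl⟩ := (Alg36.ws_sd Λ).isCmp_ex k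
      convert (Alg36.ws_sd D).ctr_iff.2 (h.ctr D a) using 1
      exact Set.ext fun c => and_iff_right_of_imp fun j => a.sub j,
    Alg36.td_rev h.sub.up h.td, on_rev h.sub.up h.bd h.on⟩

theorem ncmp_sd : ncmp (Cv (Ch.top ⁻¹' Λ) (rev w)) = ncmp (Cv Λ w) :=
  ws_ncmp (Alg36.ws_cv h.sub.up h.td.toS1 h.low h.cl)

theorem out_sd (k : Out (Ch.top ⁻¹' X) (Ch.top ⁻¹' G) (Ch.top ⁻¹' Λ) (rev w)) : Out X G Λ w :=
  have r := Alg36.tr_rev h.sub.up h.td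
  k.imp (r.ines G h.bd h.on) fun ⟨t, _, w', a, c⟩ => ⟨t, _, w', tr_trans
    (tr_mono r (Set.empty_subset _)) (fun _ => on_rev h.sub.up) a
    ((Desc.sd (lv0 P)).trans a.tw) cl_sd om_sd', c⟩

end Hy

end

/-- the statement for `n` curves -/
def SlN (n : ℕ) : Prop := ∀ (P : Type) [PartialOrder P] [Fintype P] (Y X G Λ : Set P)
  (w : P → P → ℤ), Hy Y X G Λ w → ncmp (Cv Λ w) = n → Out X G Λ w

theorem slStmt : SlStmt := by
  suffices k : ∀ n, SlN n from fun P _ _ Y X G Λ w a b c d e f g =>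
    k _ P Y X G Λ w ⟨a, b, c, d, e, f, g⟩ rfl
  intro n
  induction n using Nat.strong_induction_on with
  | _ n ih =>
  have low : ∀ (P : Type) [PartialOrder P] [Fintype P] (Y X G Λ Δ T S : Set P) (w : P → P → ℤ),
      Hy Y X G Λ w → ncmp (Cv Λ w) = n → Cp Λ Δ → Spl Δ w T S → Flat S w → Out X G Λ w := by
    intro P _ _ Y X G Λ Δ T S w h e c s f
    have h' := h.sd
    have c' := c.sd
    have s' := s.rev c.low
    have m : Mo _ _ _ _ _ := ⟨h'.sub.toRg, h'.td, c'.low, c'.sub.trans (h'.lg.trans h'.bd.sub),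
      c'.eu1, s', fun p a q _ l => f _ ((s.cases (c.low (Ch.bot_anti l) (s.r a.2))).resolve_left
        fun j => (s.dir _ j _ a.2).1 (Ch.bot_anti l)) _ a.2 (Ch.bot_anti l)⟩
    have sb := s'.l.trans c'.sub
    refine h.out_sd ?_
    by_cases k : ∀ x ∈ (Ch.top ⁻¹' Δ ∩ Ch.bot ⁻¹' S : Set (Ch P)), ∀ y ∈ Om (Ch.top ⁻¹' X), x ≤ y →
        y ∈ (Ch.top ⁻¹' Δ ∩ Ch.bot ⁻¹' S : Set (Ch P))
    · exact Or.inl (m.ines h'.sub h'.bd (sb.trans h'.lg) k)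
    push Not at k
    obtain ⟨x, x1, y, y1, l, y2⟩ := k
    have t := m.tr sb x1 y1 y2 l
    have lt := m.ncmp_lt h'.low h'.cl sb fun p a q j i =>
      (s'.cases (c'.up p (s'.l a) q j i)).resolve_right fun r => (s'.dir p a q r).1 i
    exact (ih _ (lt.trans_eq (h.ncmp_sd.trans e)) (Ch P) _ _ _ _ _ ⟨h'.sub, h'.bd, h'.low, h'.lg,
      h'.ctr, t.td, m.on h'.bd h'.on⟩ rfl).imp (t.ines _ h'.bd h'.on) fun ⟨t', g, w', a, d⟩ =>
        ⟨t', g, w', tr_trans (t := lv0 (Ch P)) t (fun _ => m.on) a a.tw rfl rfl, d⟩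
  intro P _ _ Y X G Λ w h e
  by_cases f : Flat Λ w
  · exact Or.inr ⟨lv0 P, id, w, tr_refl h.td, f⟩
  simp only [Flat, not_forall] at f
  obtain ⟨x, x1, y, y1, l, f⟩ := f
  have d := isCmp_cmp x1
  have c : Cp Λ (cmp Λ x) := ⟨fun _ _ i j => d.clopen j (h.low i j.1) (Or.inr i), d.sub,
    fun _ i _ j k => d.clopen i j (Or.inl k), (h.ctr _ d).eu⟩
  obtain ⟨T, S, s, k⟩ := exists_leaf (h.ctr _ d) (cocOn_mono h.td.coc (d.sub.trans h.cl))
    (fun a _ b j i => h.td.toS1.cases (h.cl j.1) i) fun k =>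
      f (k x (mem_cmp_self x1) y (c.up x (mem_cmp_self x1) y y1 l) l)
  rcases k with k | k
  · exact h.out_sd (low _ _ _ _ _ _ _ _ _ h.sd (h.ncmp_sd.trans e) c.sd (s.rev c.low) (flat_rev k))
  · exact low P Y X G Λ _ T S w h e c s k

end Crest.Agent.X212.Sl43
end
end

-- ▼ part X212/Dd39/Main
section

/-!
# X212 / Dd39 (helper39): KH-DD
-/

set_option autoImplicit false
set_option linter.unusedSectionVars false

open Finset Classical

noncomputable section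

namespace Crest.Agent.X212.Dd39

open Hp13 hiding sub_cl cl_low cl_mono om_low dp_iff coc_iff exOn_pb exOn_add exOn_neg exOn_congr
open Hk
open Alg36 (Om Esc mix Clo)
open Kh11 (WS CE)
open Sf30 (cs mem_cs cmp_upper)
open Cut21 (tp le_tp mem_tp)

variable {P : Type} [PartialOrder P] [Fintype P] {X X' Y H H' Λ C : Set P} {t : St} {f : t.P → P}
  {w u ζ : P → P → ℤ}

/-- the hypotheses of EXT -/
structure Ac (X X' Λ : Set P) : Prop where
  up : IsUpperSet X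
  up' : IsUpperSet X'
  sub : X' ⊆ X
  low : IsLowerSet Λ
  om : Om X' ∩ X ⊆ Λ
  fr : ∀ y ∈ cl X', ∀ v ∈ cl X, y ≤ v → v ∉ cl X' → y ∈ Λ

theorem Ac.pre (h : Ac X X' Λ) (k : Tw P t f) : Ac (f ⁻¹' X) (f ⁻¹' X') (f ⁻¹' Λ) := by
  have m := tw_mono k
  refine ⟨h.up.preimage m, h.up'.preimage m, Set.preimage_mono h.sub, h.low.preimage m, ?_, ?_⟩
  · rw [pre_om k]; exact fun _ j => h.om j
  · rw [pre_cl k, pre_cl k]; exact fun _ a _ b l => h.fr _ a _ b (m l)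

theorem Ac.td (h : Ac X X' Λ) (hE : ExtStmt) (k : Flat (Λ ∩ cl X') w) (d : TD X' w) :
    TD X (ext X' w) := ((hE P X X' Λ h.up h.up' h.sub h.low h.om h.fr).2 w k).2.2.1 d

theorem ext_eq : EqE (cl X') (ext X' w) w := fun _ _ _ k _ => if_pos k

/-! ### components -/

theorem cmp_cl (hX : Rg X) (hC : IsCmp X C) {y v : P} (hy : y ∈ cl C) (hv : v ∈ X) (l : y ≤ v) :
    v ∈ C := by
  obtain ⟨c, h1, h2⟩ := hy
  rw [hC.eq h1]
  exact ⟨hv, ((hX.ctr ⟨c, hC.sub h1, h2⟩).conn c ⟨hC.sub h1, h2⟩ v ⟨hv, l⟩).mono fun _ k => k.1⟩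

theorem ac_cmp (hX : Rg X) (hC : IsCmp X C) : Ac X C ∅ :=
  ⟨hX.up, cmp_upper hX.up hC, hC.sub, isLowerSet_empty,
    fun _ k => k.1.1 (cmp_cl hX hC k.1.2 k.2 le_rfl),
    fun _ a _ ⟨x, b, c⟩ l n => n ⟨x, cmp_cl hX hC a b (l.trans c), c⟩⟩

theorem dd_ext (hE : ExtStmt) (h : Ac X C ∅) (k : DD C ζ) : DD X (ext C ζ) := by
  obtain ⟨t, f, h1, n, v, m, h2, g, h3⟩ := k
  have a := h.pre h1
  refine dd_mk h1 (fun i => ext (f ⁻¹' C) (v i)) m
    (fun i => a.td hE (fun _ j => j.1.elim) (h2 i))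
    ⟨fun x => if f x ∈ cl C then g x else 0, fun x hx y hy l => ?_⟩
  by_cases j : f y ∈ cl C
  · have j' := cl_low (tw_mono h1 l) j
    simp only [if_pos j, if_pos j', ← h3 x j' y j l]
    simp [pb, Hk.ext, pre_cl h1, j, Finset.sum_apply]
  · have j' : f x ∉ cl C := fun i => h.fr _ i _ hy (tw_mono h1 l) j
    simp [pb, Hk.ext, pre_cl h1, j, j', Finset.sum_apply]

theorem dd_cmp (hE : ExtStmt) (hX : Rg X) (h : ∀ C, IsCmp X C → DD C ζ) : DD X ζ := by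
  refine dd_congr hX.up (dd_sum hX.up (cs X) fun C k =>
    dd_ext hE (ac_cmp hX (mem_cs.1 k)) (h C (mem_cs.1 k))) (Flat.exOn ?_)
  rintro x - y ⟨a, ha, l⟩ -
  have m := mem_cmp_self ha
  simp only [Pi.sub_apply, Finset.sum_apply, Hk.ext]
  rw [sum_eq_single_of_mem _ (mem_cs.2 (isCmp_cmp ha)) fun C k n => if_neg fun j =>
    n ((mem_cs.1 k).eq (cmp_cl hX (mem_cs.1 k) j ha l)), if_pos ⟨a, m, l⟩, sub_self]

/-! ### a disc is the sum of its pieces -/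

/-- a scar -/
structure Sc (X X' H : Set P) : Prop where
  low : IsLowerSet H
  ctr : Ctr H
  sub : H ⊆ Om X'
  mf : MfIn H X
  ctr' : Ctr (H ∩ X)
  ne : ∃ x ∈ H, ∃ y ∈ H ∩ X, x ∉ X ∧ x ≤ y

theorem Sc.pre (h : Sc X X' H) (k : Tw P t f) : Sc (f ⁻¹' X) (f ⁻¹' X') (f ⁻¹' H) := by
  refine ⟨h.low.preimage (tw_mono k), (tw_ws k H).ctr_iff.2 h.ctr, ?_, mfIn_pre k h.low h.mf,
    (tw_ws k (H ∩ X)).ctr_iff.2 h.ctr', ?_⟩
  · rw [pre_om k]; exact Set.preimage_mono h.sub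
  · obtain ⟨x, h1, y, h2, h3, h4⟩ := h.ne
    obtain ⟨x, rfl⟩ := (tw_ce k).surj x
    obtain ⟨y, h5, rfl⟩ := Sup43.desc_up (s := lv0 P) k h4
    exact ⟨x, h1, y, h2, h3, h5⟩

theorem sum_pc (hX : Rg X) (h : S1 X u) : EqE (cl X) u (∑ D ∈ cs (CA X u), pc u D) := by
  rintro x - y ⟨a, ha, l⟩ k
  simp only [Finset.sum_apply, pc]
  rcases h.cases ⟨a, ha, l⟩ k with j | j
  · exact j.trans (sum_eq_zero fun D _ => if_neg fun i => by omega).symm
  have q : 0 < u (Ch.pr x y k).bot (Ch.pr x y k).top := by simp [j]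
  have c : tp (Ch.pr x y k) a (by simpa using l) ∈ CA X u :=
    ⟨by simpa using ha, h.up (by simpa using sub_cl ha) (le_tp _ _ _) q⟩
  refine (j.trans ?_).trans (sum_eq_single_of_mem _ (mem_cs.2 (isCmp_cmp c)) fun D i n =>
    if_neg fun ⟨_, d, d1, d2, d3⟩ => n ((mem_cs.1 i).eq ((h.z1 hX.up).cmp_over hX.up hX.nice
      (mem_cs.1 i) q d1 (Cut21.pr_le d2 d3) (le_tp _ _ _) c.1))).symm
  exact (if_pos ⟨by omega, _, mem_cmp_self c, by simp, by simp⟩).symm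

theorem dd_piece (hP : PcStmt) (hC : CircStmt) (hX : Rg X) (hX' : Rg X') (hs : X' ⊆ X)
    (h0 : Sc X X' H) (h1 : Sc X X' H') (ho : Om X' ∩ X ⊆ H ∪ H') (n0 : NoCap H X u)
    (n1 : NoCap H' X u) (hu : TD X u) : DD X' u := by
  have s := hu.toS1.mono hs
  have z := hu.toS1.z1 hX.up
  refine dd_congr hX'.up (dd_sum hX'.up (cs (CA X' u)) fun D k => dd_td ?_)
    (Flat.exOn fun x a y b l => sub_eq_zero.2 (sum_pc hX' s x a y b l))
  have hD := mem_cs.1 k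
  have sub : D ⊆ CA X u := fun c j => ⟨hs (hD.sub j).1, (hD.sub j).2⟩
  obtain ⟨q, hq⟩ := hu.ne
  obtain ⟨q1, q2⟩ := (Cut21.cv_om hX.up).1 hq
  obtain ⟨c, c1, c2⟩ := Cut21.ex_ca hX.up z q1
  have up : ∀ a ∈ D, ∀ b ∈ CA X u, a ≤ b → b ∈ D := fun a i b j l =>
    hD.clopen i ⟨hX'.up (Ch.top_mono l) (hD.sub i).1, j.2⟩ (Or.inl l)
  refine (hP P X' X' u D hX' hX'.up s (by rwa [Set.inter_self]) fun _ _ _ _ _ _ j _ => j).2.2
    (Trs39.reg_one z hX.mf (Δ := CA X u) subset_rfl hu.conn (Cut21.chi_ca hX hu.toS1 ▸ hu.chi)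
      c1 q1 q2 (Or.inr c2) sub hD.ne hD.conn fun Z hZ a ha a' ha' j i => ?_) (by_contra fun n => ?_)
  · obtain ⟨a1, a2⟩ := hZ.sub ha
    have l : a ≤ a' := j.resolve_right fun l => a2 (up _ ha' _ a1 l)
    have key : ∀ {H}, Sc X X' H → NoCap H X u → a.top ∉ H := fun {H} h n m =>
      hC P X H u (Cv (H ∩ cl X) u ∩ Z) hX.up h.low h.mf h.ctr' h.ne hu.toS1
        ⟨a, (mem_cv (h.low.inter cl_low)).2 ⟨⟨m, sub_cl a1.1⟩, a1.2⟩, ha⟩
        ⟨Set.inter_subset_left, fun e he e' he' c => ⟨he', hZ.clopen he.2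
          ⟨i e he.2 e' ⟨(dom_iff' hX.up).2 (he'.1 _ e'.top_mem).2, he'.2⟩ c,
            fun d => (h.sub (he'.1 _ e'.top_mem).1).1 (hD.sub d).1⟩ c⟩⟩
        (fun _ c => (hZ.sub c.2).1.1) n
    exact (ho ⟨⟨fun m => a2 (hD.clopen ha' ⟨m, a1.2⟩ j.symm), _, (hD.sub ha').1, Ch.top_mono l⟩,
      a1.1⟩).elim (key h0 n0) (key h1 n1)
  · obtain ⟨d, hd⟩ := hD.ne
    refine n ⟨c, (hu.conn d (sub hd) c c1).ind hd fun a i b j l => ⟨fun m => up a m b j l,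
      fun m => hD.clopen m ⟨by_contra fun o => n ⟨b, m, a, l, i.2, o⟩, i.2⟩ (Or.inr l)⟩,
      q, c2, q1.2, fun m => q2 ⟨hs m, q1.2⟩⟩

/-! ### the cut -/

theorem scar_disj : Disjoint (scar X w 0) (scar X w 1) :=
  Set.disjoint_left.2 fun _ a b => zero_ne_one (a.2.symm.trans b.2)

theorem mv_fr {N : Set P} {y v : Ch (Ch P)} (hy : y ∈ cl (mvX X N)) (hv : t2 v ∈ cl X) (l : y ≤ v)
    (n : v ∉ cl (mvX X N)) : y ∈ mvD X N := by
  obtain ⟨c, h1, h2⟩ := hy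
  refine ⟨⟨cl_low (t2_mono l) hv, by_contra fun k => n ?_⟩, _, Ch.bot_anti h2 c.bot.bot_mem,
    h1.2 _ c.bot.bot_mem⟩
  obtain ⟨a, ha, m⟩ := hv
  exact ⟨tp v (tp v.top a m) (le_tp _ _ _), ⟨by simpa using ha,
    fun x j i => k ⟨x, Ch.bot_anti l (by simpa using j), i⟩⟩, le_tp _ _ _⟩

theorem ex_om (h : Amb X) (hz : CocOn (cl X) u) (k : ExOn (Om X) u) : ExOn (cl X) u := by
  obtain ⟨g, k⟩ := k
  simpa using exOn_add (ex_of_flat h.up h.up subset_rfl h.bnd (cocOn_sub hz (cocOn_cb g))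
    fun x a y b l => sub_eq_zero.2 (k x a y b l)) (exOn_cb g)

/-- a disc of the cut manifold is cohomologous to a class dual to discs of the manifold -/
theorem td_glue (hE : ExtStmt) (hS : SlStmt) (hX' : Amb X') (ac : Ac X X' (H ∪ H'))
    (s0 : Sc X X' H) (s1 : Sc X X' H') (d : Disjoint H H') (h : Tw P t f) {v : t.P → t.P → ℤ}
    (hv : TD (f ⁻¹' X') v) :
    ∃ v₀, CocOn (cl X) v₀ ∧ DD X v₀ ∧ ExOn (f ⁻¹' cl X') (pb f v₀ - v) := by
  have am := amb_pre h hX'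
  have a0 := s0.pre h
  have a1 := s1.pre h
  rw [← pre_cl h]
  rcases hS t.P _ _ _ (f ⁻¹' H ∪ f ⁻¹' H') v am.sub (bd_om am.up) (a0.low.union a1.low)
    (Set.union_subset a0.sub a1.sub) (fun _ => ctr_cmp a0.low a1.low (d.preimage f) a0.ctr a1.ctr)
    hv on_om with k | ⟨t', g, v', tr, fl⟩
  · exact ⟨0, cocOn_zero, dd_ex exOn_zero, by
      simpa [show pb f (0 : P → P → ℤ) = 0 from rfl] using exOn_neg (ex_om am hv.coc k.exOn)⟩
  have tw := tw_trans h tr.tw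
  have td := (ac.pre tw).td hE (fl.mono Set.inter_subset_left) tr.td
  have cc := td.coc
  rw [pre_cl tw] at cc
  obtain ⟨v₀, c0, e0⟩ := coc_down tw cc
  have dd : DD X v₀ := dd_down tw (dd_congr (ac.up.preimage (tw_mono tw)) (dd_td td)
    (by rw [pre_cl tw]; simpa using exOn_neg e0))
  have e1 : ExOn (g ⁻¹' cl (f ⁻¹' X')) (v' - pb g (pb f v₀)) := by
    rw [← pre_cl tr.tw]
    refine exOn_congr (exOn_mono e0 ?_) fun x a y b l => ?_
    · rw [← pre_cl tw]; exact cl_mono (Set.preimage_mono (f := f ∘ g) ac.sub)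
    · exact congrArg (· - _) (ext_eq x a y b l).symm
  have c1 : CocOn (cl (f ⁻¹' X')) (pb f v₀) := by
    rw [pre_cl h]; exact cocOn_pb (cocOn_mono c0 (cl_mono ac.sub)) (tw_mono h)
  rcases tr.drv with k | k
  · refine ⟨v₀, c0, dd, ex_down tr.tw (cocOn_sub c1 hv.coc) ?_⟩
    convert exOn_sub k e1 using 1
    rw [pb_sub]; abel
  · refine ⟨-v₀, cocOn_neg c0, dd_neg dd, ex_down tr.tw (cocOn_sub (cocOn_neg c1) hv.coc) ?_⟩
    convert exOn_sub e1 k using 1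
    rw [pb_sub, pb_neg, pb_neg]; abel

theorem dd_glue (hE : ExtStmt) (hS : SlStmt) (hX' : Amb X') (ac : Ac X X' (H ∪ H'))
    (s0 : Sc X X' H) (s1 : Sc X X' H') (d : Disjoint H H')
    (base : ∀ ζ, CocOn (cl X) ζ → ExOn (cl X') ζ → DD X ζ) (hz : CocOn (cl X) ζ) (k : DD X' ζ) :
    DD X ζ := by
  obtain ⟨t, f, h, n, v, m, h2, h3⟩ := k
  choose v₀ c0 d0 e0 using fun i => td_glue hE hS hX' ac s0 s1 d h (h2 i)
  have c1 := cocOn_sub hz (cocOn_sum univ fun i _ => cocOn_zsmul (c0 i) (m i))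
  have := dd_add ac.up (base _ c1 (ex_down h (cocOn_mono c1 (cl_mono ac.sub)) ?_))
    (dd_sum ac.up univ fun i _ => dd_zsmul (d0 i) (m i))
  · rwa [sub_add_cancel] at this
  · convert exOn_sub h3 (exOn_sum univ fun i _ => exOn_zsmul (e0 i) (m i)) using 1
    simp only [pb_sub, pb_sum, pb_zsmul, smul_sub, sum_sub_distrib]
    abel

theorem dd_res (hT : TraDStmt) (hC : CircStmt) (hP : PcStmt) (hX : Amb X) (hX' : Rg X')
    (ac : Ac X X' (H ∪ H')) (s0 : Sc X X' H) (s1 : Sc X X' H') (d : Disjoint H H') (k : DD X ζ) :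
    DD X' ζ := by
  refine dd_of_td hX'.up ac.sub (fun t f h v hv => ?_) k
  have am := amb_pre h hX
  obtain ⟨t', g, v', tr, nc⟩ := hT t.P _ _ _ _ v am.sub am.up subset_rfl
    (ac.low.preimage (tw_mono h)) (mfIn_pre h ac.low (mfIn_union s0.low s1.low d s0.mf s1.mf)) hv
  have tw := tw_trans h tr.tw
  have a0 := s0.pre tw
  have a1 := s1.pre tw
  have d' := d.preimage (f ∘ g)
  have r := rg_pre tw hX'
  have dd := dd_piece hP hC (rg_pre tw hX.toRg) r (ac.pre tw).sub a0 a1 (ac.pre tw).om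
    (noCap_left a0.low a1.low d' nc) (noCap_left a1.low a0.low d'.symm (Set.union_comm _ _ ▸ nc))
    tr.td
  have sb : cl ((f ∘ g) ⁻¹' X') ⊆ g ⁻¹' cl (f ⁻¹' X) := by
    rw [← pre_cl tr.tw]; exact cl_mono (ac.pre tw).sub
  refine dd_down tr.tw (show DD ((f ∘ g) ⁻¹' X') _ from ?_)
  rcases tr.drv with k | k
  · exact dd_congr r.up dd (by simpa using exOn_neg (exOn_mono k sb))
  · exact dd_congr r.up (dd_neg dd) (by simpa [add_comm] using exOn_mono k sb)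

/-- KH-DD -/
theorem ddStmt (hE : ExtStmt) (hS : SlStmt) (h1 : Tc1Stmt) (h2 : Tc2Stmt) (hT : TraDStmt)
    (hC : CircStmt) (hP : PcStmt) : DdStmt := by
  intro P _ _ Y X hY hX
  refine ⟨fun ζ _ h => dd_cmp hE hX.toRg h, fun w hw => ?_⟩
  obtain ⟨-, r, am, -, -, -, eD, eO, -, sc⟩ := h1 P X w hX.toRg hw
  obtain ⟨tr, -, -, t1, t2'⟩ := h2 P X w hX.toRg hw
  have a3 : Amb (t3 ⁻¹' X) := amb_pre tw_t3 hX
  have c3 : cl (t3 ⁻¹' X) = t3 ⁻¹' cl X := pre_cl tw_t3 X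
  have sc' : ∀ b, b = 0 ∨ b = 1 → Sc (t3 ⁻¹' X) (tcut X w) (scar X w b) := fun b hb =>
    let ⟨a, b, c, d, e, _, g⟩ := sc b hb; ⟨a, b, c, d, e, g⟩
  have s0 := sc' 0 (Or.inl rfl)
  have s1 := sc' 1 (Or.inr rfl)
  have ac : Ac (t3 ⁻¹' X) (tcut X w) (scar X w 0 ∪ scar X w 1) :=
    ⟨a3.up, r.up, mvX_sub, s0.low.union s1.low, fun _ k => (eO k.1).resolve_left fun j => j.1 k.2,
      fun _ a _ b l n => eD ▸ mv_fr a (by rw [cl_sd]; rwa [c3] at b) l n⟩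
  rw [← c3] at t1 t2' ⊢
  refine ⟨fun ζ => dd_glue hE hS (am hX) ac s0 s1 scar_disj fun ζ a b => ?_, fun k ζ hz => ?_⟩
  · obtain ⟨n, e⟩ := t1 ζ a b
    exact dd_congr a3.up (dd_zsmul (dd_td tr.td) n) e
  · obtain ⟨ζ', a, b⟩ := t2' ℤ ζ hz
    exact dd_congr r.up (dd_res hT hC hP a3 r ac s0 s1 scar_disj (add_pre hX.up tw_t3 k ζ' a))
      (by simpa using exOn_neg b)

end Crest.Agent.X212.Dd39
end
end

-- ▼ part X212/Sm10/Mv3b
section

/-!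
# X212 / Sm10 (helper10): KH-MV3, `Mv3Stmt`
-/

set_option autoImplicit false
set_option linter.unusedSectionVars false

open Finset Classical

noncomputable section

namespace Crest.Agent.X212.Sm10.Mv

open Hp13 hiding sub_cl cl_low om_low cl_mono exOn_pb exOn_add exOn_neg exOn_congr dp_iff coc_iff
open Hk
open Alg36 (Om Esc mix Clo)
open Kh11 (WS CE)
open Cut21 (bt le_bt)

variable {P R : Type} [PartialOrder P] [Fintype P] [PartialOrder R]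
  {X Y G H K A B D Z N X' U V : Set P} {w u : P → P → ℤ} {car : P → R} {t t' : St}

/-- it is enough to look at discs that miss a given disc of `G` -/
theorem inc_of_flat (sl : SlStmt) (hs : Sub Y X) (hG : Bd X G) (hD : IsLowerSet D) (s : D ⊆ G)
    (c : Ctr D) (h : ∀ t f, Tw P t f → ∀ w, TD (f ⁻¹' X) w → On (f ⁻¹' X) (f ⁻¹' G) w →
      Flat (f ⁻¹' D) w → Ines (f ⁻¹' G) w) : INC X G := fun t f tw w td on => by
  rcases sl _ _ _ _ (f ⁻¹' D) w (tw_sub tw hs) (tw_bd tw hG) (hD.preimage (tw_mono tw))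
    (Set.preimage_mono s) (cmp_ctr (tw_ctr tw c)) td on with k | ⟨t', g, w', tr, fl⟩
  · exact k
  · have o := tr_on tr (tw_rg tw hs.toRg).up (tw_bd tw hG)
      (Set.disjoint_left.2 fun _ a b => a.2 (s b)) on
    exact tr.ines _ (tw_bd tw hG) on (h t' (f ∘ g) (tw_trans tw tr.tw) w' tr.td o fl)

theorem d_sub (h : Opn X G N) : mvD X N ⊆ t2 ⁻¹' N := fun _ ⟨⟨a, x, b, k⟩, _⟩ =>
  h.up x k _ a (le_t2 b)

theorem g_sub (h : Opn X G N) : mvG X G N ⊆ t2 ⁻¹' (X ∪ G) := fun _ a =>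
  a.elim (fun a => Or.inr a.1) fun a => h.sub (d_sub h a)

theorem h_d (hG : Bd X G) {c : Ch (Ch P)} (a : c ∈ mvH G N) (b : ∃ x ∈ c.bot.1, x ∉ N) :
    c ∈ mvD X N := ⟨⟨hG.sub_cl a.1, a.2⟩, b⟩

/-- exchange of `mvH` and `mvD` -/
theorem dx_lv (dx : DxStmt) (m2 : Mv2Stmt) (hX : Rg X) (hG : Bd X G) (hN : Bl X G N)
    {φ : t.P → Ch (Ch P)} (T : Tw (Ch (Ch P)) t φ) {w₁ w₂ : t.P → t.P → ℤ}
    (e : EqE (φ ⁻¹' mvK G N) w₁ w₂) (h1 : Flat (φ ⁻¹' mvH G N) w₁) (h2 : Flat (φ ⁻¹' mvD X N) w₂)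
    (h : Ines ((t2 ∘ φ) ⁻¹' G) w₁) : Ines (φ ⁻¹' mvG X G N) w₂ := by
  obtain ⟨cD, cH, ee, cn, ne, -⟩ := (m2 P X G N hX hG).1 hN
  have m := tw_mono T
  refine dx _ (φ ⁻¹' mvK G N) (φ ⁻¹' mvH G N) (φ ⁻¹' mvD X N) w₁ w₂ ((mvK_low hG.low).preimage m)
    ((mvH_low hG.low).preimage m) (mvD_low.preimage m) (tw_ctr T cH) (tw_ctr T cD)
    (congrArg (φ ⁻¹' ·) ee.symm) (tw_conn T cn :) (tw_ne T ne :) e h1 h2 ?_
  rwa [← Set.preimage_union, mvK_union_mvH]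

theorem inc1 (sl : SlStmt) (ex : ExtStmt) (dx : DxStmt) (m1 : Mv1Stmt) (m2 : Mv2Stmt)
    (hs : Sub Y X) (hG : Bd X G) (hN : Bl X G N) (h : INC X G) : INC (mvX X N) (mvG X G N) := by
  obtain ⟨r1, b1, c1, o1, -⟩ := m1 P X G N hs.toRg hG hN.toOpn
  refine inc_of_flat (Y := t2 ⁻¹' Y) sl ⟨r1, tw_amb tw2 hs.amb, fun c a => hs.sub a.1⟩ b1 mvD_low
    (fun _ => Or.inr) ((m2 P X G N hs.toRg hG).1 hN).1 fun t φ T w td on fl => ?_
  have m := tw_mono T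
  have c2 : cl (φ ⁻¹' mvX X N) = φ ⁻¹' mvK (cl X) N := by rw [tw_cl T, c1]
  have o2 : Om (φ ⁻¹' mvX X N) = φ ⁻¹' (mvG X G N ∪ t2 ⁻¹' (Om X \ G)) := by rw [tw_om T, o1]
  have td' := ((ex _ ((t2 ∘ φ) ⁻¹' X) (φ ⁻¹' mvX X N) (φ ⁻¹' mvD X N)
    (hs.up.preimage (t2_mono.comp m)) (r1.up.preimage m) (fun _ a => a.1) (mvD_low.preimage m)
    (fun x ⟨a, b⟩ => by
      rw [o2] at a
      rcases a with (a | a) | a
      exacts [absurd b (hG.not a.1), a, absurd b a.1.1])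
    fun y a v b l k => by
      rw [c2] at a k
      rw [tw_cl (tw_t2 T)] at b
      have j : (φ v).bot.bot ∈ N := by_contra fun j => k ⟨b, _, (φ v).bot.bot_mem, j⟩
      exact ⟨⟨a.1, _, Ch.bot_anti (m l) (φ v).bot.bot_mem, j⟩, a.2⟩).2 w
        (fl.mono Set.inter_subset_left)).2.2.1 td
  refine dx_lv dx m2 hs.toRg hG hN T (fun x _ y b _ => if_pos ?_) (fun x a y b l => ?_) fl
    (h t _ (tw_t2 T) _ td' fun x a y b l => ?_)
  · rw [c2]; exact ⟨hG.sub_cl b.1, b.2⟩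
  · refine ite_eq_right_iff.2 fun k => ?_
    rw [c2] at k
    have := h_d hG b k.2
    exact fl x (mvD_low (m l) this) y this l
  · have k : ∀ z ∈ Om ((t2 ∘ φ) ⁻¹' X) \ (t2 ∘ φ) ⁻¹' G,
        z ∈ Om (φ ⁻¹' mvX X N) \ φ ⁻¹' mvG X G N := fun z j => by
      rw [tw_om (tw_t2 T)] at j
      rw [o2]
      exact ⟨Or.inr j, fun i => (g_sub hN.toOpn i).elim j.1.1 j.2⟩
    exact ite_eq_right_iff.2 fun _ => on x (k x a) y (k y b) l

/-- the old disc as a surface of the grown side -/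
structure Old (H X : Set P) : Prop where
  low : IsLowerSet H
  mf : MfIn H X
  ctr : Ctr (H ∩ X)
  ne : ∃ x ∈ H, ∃ y ∈ H ∩ X, x ∉ X ∧ x ≤ y
  sub : H ⊆ cl X

theorem hy_iff (h : Two car Y X G X') (s : G ⊆ Y) {c : Ch (Ch P)} (a : t2 c ∈ G) :
    c ∈ mvY Y X' N ↔ ∀ x ∈ c.bot.1, x ∈ N :=
  ⟨fun b => (b.resolve_left fun j => Set.disjoint_left.1 h.dg j a).2, fun b => Or.inr ⟨s a, b⟩⟩

theorem old (rv : RevStmt) (nm : NmStmt) (m2 : Mv2Stmt) (hX : Rg X) (h : Two car Y X G X')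
    (s : G ⊆ Y) (hN : Bl X G N) : Old (mvH G N) (mvY Y X' N) := by
  have hG := h.bd
  have ab : ∀ c ∈ mvH G N, ∃ d ∈ mvH G N ∩ mvY Y X' N, c ≤ d := fun c ⟨a, x, b, k⟩ => by
    have l : Ch.pt x ≤ c.bot := Ch.pt_le.2 b
    have e : t2 (bt c (Ch.pt x) l) = t2 c := by simp
    exact ⟨bt c (Ch.pt x) l, ⟨⟨e ▸ a, x, by simp, k⟩, (hy_iff h s (e ▸ a)).2 (by simpa using k)⟩,
      le_bt _ _ _⟩
  refine ⟨mvH_low hG.low, mfIn_of (tw_mfIn tw2 hG.low (bd_mfIn nm hX hG)) (fun _ a => a.1)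
    (fun _ _ => trivial) fun c a d b l => l.elim (fun l => ⟨b, _, d.bot.bot_mem,
      (hy_iff h s a.1.1).1 a.2 _ (Ch.bot_anti l d.bot.bot_mem)⟩) fun l => mvH_low hG.low l a.1,
    ?_, ?_, fun c a => let ⟨d, b, l⟩ := ab c a; ⟨d, b.2, l⟩⟩
  · have k := ((rv (Ch P) ∅ 0 isUpperSet_empty ⟨cocOn_zero, fun _ _ _ _ => le_rfl,
      fun _ _ _ _ => zero_le_one⟩).2.2.2.2.2.2.1 (Ch.top ⁻¹' G) (Kh11.In (N ∩ G) Set.univ)
      (hG.low.preimage Ch.top_mono) fun c a => (a.1 _ c.top_mem).2).2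
      ((Kh11.ws_top _).ctr_iff.2 hN.ctr)
    convert k using 1
    exact Set.ext fun c => ⟨fun a => ⟨a.1.1, fun x j => ⟨(hy_iff h s a.1.1).1 a.2 x j,
      hG.low (le_t2 j) a.1.1⟩, trivial⟩, fun a => ⟨⟨a.1, _, c.bot.bot_mem,
        (a.2.1 _ c.bot.bot_mem).1⟩, (hy_iff h s a.1).2 fun x j => (a.2.1 x j).1⟩⟩
  · obtain ⟨c, a, b⟩ := ((m2 P X G N hX hG).1 hN).2.2.2.2.1
    obtain ⟨d, k, l⟩ := ab c b
    obtain ⟨x, i, j⟩ := a.2
    exact ⟨c, b, d, k, fun m => j ((hy_iff h s a.1).1 m x i), l⟩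

theorem h_not (h : Two car Y X G X') (s : G ⊆ Y) {c : Ch (Ch P)} (a : c ∈ mvH G N)
    (b : c ∉ mvY Y X' N) : c ∈ mvD X N :=
  h_d h.bd a (by simpa [hy_iff h s a.1] using b)

theorem inc2 (rv : RevStmt) (nm : NmStmt) (sl : SlStmt) (dx : DxStmt) (ic : IcStmt)
    (ta : TraDStmt) (m1 : Mv1Stmt) (m2 : Mv2Stmt) (hs : Sub Y X) (hN : Bl X G N)
    (h : Two car Y X G X') (s : G ⊆ Y) (hi : INC X' G) : INC (mvY Y X' N) (mvG X G N) := by
  have hG := h.bd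
  have hY := hs.amb
  have Y2 := tw_amb tw2 hY
  have s2 : mvG X G N ⊆ t2 ⁻¹' Y := fun c a => (g_sub hN.toOpn a).elim (fun j => h.sub j) fun j => s j
  have h2 := two_symm ((m1 P X G N hs.toRg hG hN.toOpn).2.2.2.2.2 R car Y X' hY.up h) Y2.up s2
  have S2 : Sub (t2 ⁻¹' Y) (mvY Y X' N) := ⟨two_rg h2 Y2.toRg s2, Y2, h2.sub⟩
  have r' := two_rg (two_symm h hY.up s) hY.toRg s
  have o := old rv nm m2 hs.toRg h s hN
  refine inc_of_flat sl S2 h2.bd mvD_low (fun _ => Or.inr) ((m2 P X G N hs.toRg hG).1 hN).1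
    fun t₀ φ₀ T₀ w₀ td₀ on₀ fl₀ => ?_
  obtain ⟨t, g, w, tr, nc⟩ := ta _ _ _ _ (φ₀ ⁻¹' mvH G N) w₀ (tw_sub T₀ S2) (tw_sub T₀ S2).up
    subset_rfl (o.low.preimage (tw_mono T₀)) (tw_mfIn T₀ o.low o.mf) td₀
  refine tr.ines _ (tw_bd T₀ h2.bd) on₀ ?_
  have T := tw_trans T₀ tr.tw
  have on : On ((φ₀ ∘ g) ⁻¹' mvY Y X' N) ((φ₀ ∘ g) ⁻¹' mvG X G N) w := (tr_on tr (tw_sub T₀ S2).up
    (tw_bd T₀ h2.bd) (Set.disjoint_left.2 fun _ a b => a.1.1 b.2) on₀ :)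
  have fl : Flat ((φ₀ ∘ g) ⁻¹' mvD X N) w := (tr.flat _ (mvD_low.preimage (tw_mono T₀))
    (Set.disjoint_left.2 fun _ a b => h2.bd.not (Or.inr a) b.2)
    (fl₀.mono Set.inter_subset_left)).mono fun _ a =>
      ⟨a, (tw_bd T₀ h2.bd).sub_cl (Or.inr a)⟩
  have td : TD ((φ₀ ∘ g) ⁻¹' mvY Y X' N) w := tr.td
  have fH : Flat ((φ₀ ∘ g) ⁻¹' mvH G N) w := ((ic _).2.1 _ _ S2.up o.low o.mf o.ctr o.ne t _ T w
    (Or.inl td) (fl.mono fun _ a => h_not h s a.1 a.2.1) nc).mono fun _ a => ⟨a, o.sub a⟩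
  show Ines ((φ₀ ∘ g) ⁻¹' mvG X G N) w
  generalize φ₀ ∘ g = φ at T on fl td fH
  have m := tw_mono T
  have ru := tw_rg T S2.toRg
  -- the disc lies in `X'`
  have sd : ∀ c ∈ CA (φ ⁻¹' mvY Y X' N) w, t2 (φ c.top) ∉ X' → t2 (φ c.top) ∈ X := fun c a b =>
    have k := a.1.resolve_left b
    (h.cov _ k.1).resolve_right fun j => b (j.resolve_left fun j =>
      have : φ c.top ∈ mvH G N := ⟨j, _, (φ c.top).bot.bot_mem, k.2 _ (φ c.top).bot.bot_mem⟩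
      a.2.ne' (fH _ (o.low (m c.bot_le_top) this) _ this c.bot_le_top))
  have i : ∀ c ∈ CA (φ ⁻¹' mvY Y X' N) w, c.top ∈ (t2 ∘ φ) ⁻¹' X' := fun c a => by
    obtain ⟨q, b⟩ := td.ne
    obtain ⟨d, k, l⟩ := Cut21.ex_ca ru.up (td.toS1.z1 ru.up) ((Cut21.cv_om ru.up).1 b).1
    rw [on.cv (tw_bd T h2.bd)] at b
    have j : t2 (φ d.top) ∈ X' := by_contra fun j => by
      have l' := m (Ch.top_mono l)
      have : φ q.top ∈ mvD X N := (b.1 _ q.top_mem).elim (fun i => h_d hG ⟨i.1, _,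
        Ch.bot_anti l' (φ d.top).bot.bot_mem, (k.1.resolve_left j).2 _ (φ d.top).bot.bot_mem⟩ i.2) id
      exact b.2.ne' (fl _ (mvD_low (m q.bot_le_top) this) _ this q.bot_le_top)
    exact (td.conn d k c a).ind (p := fun c => t2 (φ c.top) ∈ X') j fun p hp _ _ l =>
      ⟨h.up' (t2_mono (m (Ch.top_mono l))), fun j => by_contra fun i =>
        Set.disjoint_left.1 h.dj (h.up (t2_mono (m (Ch.top_mono l))) (sd p hp i)) j⟩
  refine dx_lv dx m2 hs.toRg hG hN T EqE.rfl fH fl (hi t _ (tw_t2 T) w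
    (td_res ru (tw_rg (tw_t2 T) r') (fun _ => Or.inl) td i) (Flat.mono on fun z j => ?_))
  rw [tw_om (tw_t2 T)] at j
  have k : t2 (φ z) ∉ Y := fun k => by
    obtain ⟨⟨j1, v, j2, j3⟩, j4⟩ := j
    rcases h.cov _ k with e | e | e
    exacts [Set.disjoint_left.1 h.dj (h.up j3 e) j2, j4 e, j1 e]
  refine ⟨⟨fun e => k (h2.sub e), cl_mono (X := (t2 ∘ φ) ⁻¹' X') (fun _ => Or.inl) ?_⟩,
    fun e => k (s2 e)⟩
  rw [tw_cl (tw_t2 T)]; exact j.1.2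

theorem nb3 (rv : RevStmt) (nm : NmStmt) (ci : CircStmt) (ts : TraSStmt) (m1 : Mv1Stmt)
    (m2 : Mv2Stmt) (hs : Sub Y X) (hN : Bl X G N) (h : Two car Y X G X') (s : G ⊆ Y)
    (cn : Conn G) (nb : NB Y G) : NB (t2 ⁻¹' Y) (mvG X G N) := fun t₀ φ₀ T₀ B₀ hB₀ s₀ => by
  have hG := h.bd
  have hY := hs.amb
  have h2 := (m1 P X G N hs.toRg hG hN.toOpn).2.2.2.2.2 R car Y X' hY.up h
  obtain ⟨-, cH, -, -, ⟨c, c1, c2⟩, -, cG, -⟩ := (m2 P X G N hs.toRg hG).1 hN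
  have o := old rv nm m2 hs.toRg h s hN
  have m₀ := tw_mono T₀
  obtain ⟨t, g, B, tw, hB, sB, nc⟩ := ts _ _ (φ₀ ⁻¹' mvY Y X' N) (φ₀ ⁻¹' mvH G N) B₀ _
    (tw_amb T₀ (tw_amb tw2 hY)) (h2.up'.preimage m₀) (Set.preimage_mono h2.sub') (o.low.preimage m₀)
    (tw_mfIn T₀ o.low o.mf) hB₀ (h2.bd.low.preimage m₀) (tw_conn T₀ (cG cn))
    (Set.disjoint_left.2 fun _ a b => Set.disjoint_left.1 h2.dg b.2 a) s₀
  have T := tw_trans T₀ tw
  refine nb t _ (tw_t2 T) B hB ?_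
  change (φ₀ ∘ g) ⁻¹' mvG X G N ⊆ B at sB
  change NoCap ((φ₀ ∘ g) ⁻¹' mvH G N) ((φ₀ ∘ g) ⁻¹' mvY Y X' N) _ at nc
  generalize φ₀ ∘ g = φ at T sB nc
  have m := tw_mono T
  have s1 : S1 (φ ⁻¹' mvY Y X' N) (cb (ind B)) := s1_ind fun _ a _ _ l => hB.up l a
  have fl : Flat (φ ⁻¹' mvH G N ∩ cl (φ ⁻¹' mvY Y X' N)) (cb (ind B)) :=
    (s1.cv_empty Set.inter_subset_right).1 (by_contra fun k => by
      obtain ⟨x, x1, y, y1, x2, l⟩ := o.ne
      refine ci _ _ _ _ _ (h2.up'.preimage m) (o.low.preimage m) (tw_mfIn T o.low o.mf)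
        (tw_ctr T o.ctr :) ?_ s1 (Set.nonempty_iff_ne_empty.2 k) ⟨subset_rfl, fun _ _ _ a _ => a⟩
        (fun q a => by_contra fun j => (cb_ind_pos.1 a.2).1 (sB (Or.inr (mvD_low
          (m q.bot_le_top) (h_not h s (a.1 _ q.top_mem).1 j))))) nc
      obtain ⟨d, e⟩ := (Desc.ce T).lift (Ch.pr x y l)
      have e1 : φ d.bot = x := by rw [← Ch.bot_img m, e, Ch.bot_pr]
      have e2 : φ d.top = y := by rw [← Ch.top_img m, e, Ch.top_pr]
      subst e1 e2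
      exact ⟨d.bot, x1, d.top, y1, x2, d.bot_le_top⟩)
  have fH : Flat (φ ⁻¹' mvH G N) (cb (ind B)) := fl.mono fun _ a => ⟨a, tw_cl T ▸ o.sub a⟩
  obtain ⟨x, rfl⟩ := Desc.surj T c
  have := (fH.sub_or (tw_conn T cH.conn)).resolve_right fun k =>
    Set.disjoint_left.1 k c2 (sB (Or.inl c1))
  intro z a
  have k : φ z ∈ mvK G N ∪ mvH G N := by rw [mvK_union_mvH]; exact a
  exact k.elim (fun j => sB (Or.inl j)) fun j => this j

theorem mv3Stmt (rv : RevStmt) (nm : NmStmt) (dx : DxStmt) (ex : ExtStmt) (ci : CircStmt)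
    (ic : IcStmt) (sl : SlStmt) (ts : TraSStmt) (m1 : Mv1Stmt) (m2 : Mv2Stmt) : Mv3Stmt :=
  fun _ _ _ _ _ _ _ hs hG hN => ⟨inc1 sl ex dx m1 m2 hs hG hN, fun _ _ _ _ h s =>
    ⟨inc2 rv nm sl dx ic (traDStmt rv) m1 m2 hs hN h s, nb3 rv nm ci ts m1 m2 hs hN h s⟩⟩

end Crest.Agent.X212.Sm10.Mv
end
end

-- ▼ part X212/Sm10/Mv3c

/-!
# X212 / Sm10 (helper10): KH-MV3, `FamStmt`
-/

set_option autoImplicit false
set_option linter.unusedSectionVars false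

open Finset Classical

noncomputable section

namespace Crest.Agent.X212.Sm10.Mv

open Hp13 hiding sub_cl cl_low om_low cl_mono exOn_pb exOn_add exOn_neg exOn_congr dp_iff coc_iff
open Hk
open Alg36 (Om Esc mix Clo)
open Kh11 (WS CE)

variable {P R : Type} [PartialOrder P] [Fintype P] [PartialOrder R]
  {X Y G J S N X' U V : Set P} {car : P → R} {ζ : P → P → ℤ}

/-- a class on the band goes to the new band; `W` is the new side -/
def Band (X G N S : Set P) (W : Set (Ch (Ch P))) (ζ : P → P → ℤ) : Prop :=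
  ∃ ζ' : Ch (Ch P) → Ch (Ch P) → ℤ, CocOn ((W ∪ mvG X G N) ∩ t2 ⁻¹' S) ζ' ∧
    (ExOn G ζ ↔ ExOn (mvG X G N) ζ') ∧ (ExOn J ζ ↔ ExOn (t2 ⁻¹' J) ζ')

theorem shrink (m2 : Mv2Stmt) (hX : Rg X) (hG : Bd X G) (hN : Bl X G N)
    (c : CocOn ((X ∪ G) ∩ S) ζ) (s : G ⊆ S) (s' : mvG X G N ⊆ t2 ⁻¹' S) (hJ : J ⊆ (X ∪ G) ∩ S) :
    Band (J := J) X G N S (mvX X N) ζ :=
  have k := cocOn_pb c t2_mono
  ⟨pb t2 ζ, cocOn_mono k fun _ a => ⟨a.1.elim (fun b => Or.inl b.1) fun b => g_sub hN.toOpn b, a.2⟩,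
    (((m2 P X G N hX hG).1 hN).2.2.2.2.2.2.2.2 ℤ).1 ζ _ (cocOn_mono c fun _ a => ⟨Or.inr a, s a⟩)
      (cocOn_mono k fun _ a => ⟨g_sub hN.toOpn a, s' a⟩) (by rw [sub_self]; exact exOn_zero),
    tw_ex tw2 (cocOn_mono c hJ)⟩

theorem grow (m2 : Mv2Stmt) (hX : Rg X) (h : Two car Y X G X') (hN : Bl X G N)
    (c : CocOn ((X' ∪ G) ∩ S) ζ) (s : G ⊆ S) (hJ : J ⊆ (X' ∪ G) ∩ S) :
    Band (J := J) X G N S (mvY Y X' N) ζ := by
  obtain ⟨k1, k2⟩ := ((m2 P X G N hX h.bd).1 hN).2.2.2.2.2.2.2.2 ℤ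
  have sG : G ⊆ (X' ∪ G) ∩ S := fun _ a => ⟨Or.inr a, s a⟩
  obtain ⟨ζ', c', e⟩ := k2 _ ζ sG (Set.disjoint_left.2 fun _ a b =>
    a.1.elim (Set.disjoint_left.1 h.dj b) fun a => h.bd.not a b) c
  have g : mvG X G N ⊆ t2 ⁻¹' ((X' ∪ G) ∩ S) ∪ mvS X N := fun _ a =>
    a.imp (fun a => sG a.1) And.left
  refine ⟨ζ', cocOn_mono c' fun x a => a.1.elim (fun b => ?_) fun b => g b,
    k1 ζ ζ' (cocOn_mono c sG) (cocOn_mono c' g) (exOn_mono e fun _ a => sG a.1),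
    (tw_ex tw2 (cocOn_mono c hJ)).trans
      (exOn_iff_of_sub (exOn_mono e (Set.preimage_mono hJ))).symm⟩
  rcases b with b | b
  · exact Or.inl ⟨Or.inl b, a.2⟩
  · rcases h.cov _ b.1 with j | j
    · exact Or.inr ⟨sub_cl j, _, x.bot.bot_mem, b.2 _ x.bot.bot_mem⟩
    · exact Or.inl ⟨j.symm, a.2⟩

theorem pre_sub_mvX (h : t2 ⁻¹' J ⊆ mvX X N) : J ⊆ X := fun x a =>
  let ⟨c, e⟩ := Desc.surj (tw2 (P := P)) x
  e ▸ (h (show t2 c ∈ J from e.symm ▸ a)).1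

theorem pre_sub_mvY (d : Disjoint N J) (h : t2 ⁻¹' J ⊆ mvY Y X' N) : J ⊆ X' := fun x a => by
  rcases h (show Ch.pt (Ch.pt x) ∈ t2 ⁻¹' J by simpa using a) with b | b
  · simpa using b
  · exact absurd a (Set.disjoint_left.1 d (b.2 x (by simp)))

/-- the two new sides of the moved member -/
structure New (car : P → R) (Y U G V X N : Set P) (U₁ V₁ : Set (Ch (Ch P))) : Prop where
  mem : Mem (car ∘ t2) (t2 ⁻¹' Y) U₁ (mvG X G N) V₁
  sub : ∀ J, Disjoint N J → t2 ⁻¹' J ⊆ U₁ → J ⊆ U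
  bu : ∀ J S ζ, CocOn ((U ∪ G) ∩ S) ζ → G ⊆ S → mvG X G N ⊆ t2 ⁻¹' S → J ⊆ (U ∪ G) ∩ S →
    Band (J := J) X G N S U₁ ζ
  bv : ∀ J S ζ, CocOn ((V ∪ G) ∩ S) ζ → G ⊆ S → mvG X G N ⊆ t2 ⁻¹' S → J ⊆ (V ∪ G) ∩ S →
    Band (J := J) X G N S V₁ ζ

theorem new (m1 : Mv1Stmt) (m2 : Mv2Stmt) (m3 : Mv3Stmt) (hY : Amb Y) (h : Mem car Y U G V)
    (hX : X = U ∨ X = V) (hN : Bl X G N) : ∃ U₁ V₁, New car Y U G V X N U₁ V₁ := by
  have key : ∀ X', Two car Y X G X' → Rg X ∧ mvG X G N ⊆ t2 ⁻¹' Y ∧ Conn (mvG X G N) ∧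
      (mvG X G N).Nonempty ∧ Om (mvX X N) = mvG X G N ∪ t2 ⁻¹' (Om X \ G) ∧
      Two (car ∘ t2) (t2 ⁻¹' Y) (mvX X N) (mvG X G N) (mvY Y X' N) ∧
      (INC X G → INC (mvX X N) (mvG X G N)) ∧ (INC X' G → INC (mvY Y X' N) (mvG X G N)) ∧
      NB (t2 ⁻¹' Y) (mvG X G N) := fun X' k => by
    have r := two_rg k hY.toRg h.sub
    obtain ⟨-, -, -, o, -, a⟩ := m1 P X G N r k.bd hN.toOpn
    obtain ⟨-, -, -, -, ⟨c, c1, -⟩, -, b, -⟩ := (m2 P X G N r k.bd).1 hN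
    obtain ⟨i1, i2⟩ := m3 P Y X G N ⟨r, hY, k.sub⟩ k.bd hN
    exact ⟨r, fun _ j => (g_sub hN.toOpn j).elim (fun j => k.sub j) fun j => h.sub j, b h.conn,
      ⟨c, Or.inl c1⟩, o, a R car Y X' hY.up k, i1, (i2 R car X' k h.sub).1,
      (i2 R car X' k h.sub).2 h.conn h.nb⟩
  rcases hX with rfl | rfl
  · obtain ⟨r, a1, a2, a3, a4, a5, a6, a7, a8⟩ := key V h.two
    exact ⟨_, _, ⟨a5, a1, a2, a3, fun c j => by
      rw [a4] at j; exact j.resolve_right fun j => j.2 (h.om j.1), a6 h.inc, a7 h.inc', a8⟩,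
      fun _ _ => pre_sub_mvX, fun _ _ _ => shrink m2 r h.two.bd hN,
      fun _ _ _ c s _ => grow m2 r h.two hN c s⟩
  · have k := two_symm h.two hY.up h.sub
    obtain ⟨r, a1, a2, a3, -, a5, a6, a7, a8⟩ := key U k
    refine ⟨_, _, ⟨two_symm a5 (hY.up.preimage t2_mono) a1, a1, a2, a3, fun c ⟨j, e, j1, l⟩ => ?_,
      a7 h.inc, a6 h.inc', a8⟩, fun _ => pre_sub_mvY, fun _ _ _ c s _ => grow m2 r k hN c s,
      fun _ _ _ => shrink m2 r k.bd hN⟩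
    have i : t2 c ∈ Y := j1.elim (fun i => (mem_cl_sub h ⟨_, i, t2_mono l⟩).elim
      (fun i => h.two.sub i) fun i => h.sub i) fun i =>
      hY.up (le_t2 (Ch.bot_anti l e.bot.bot_mem)) ((hN.sub (i.2 _ e.bot.bot_mem)).elim
        (fun i => k.sub i) fun i => h.sub i)
    rcases a5.cov c i with m | m | m
    exacts [absurd j1 (Set.disjoint_left.1 a5.dj (a5.up l m)), m, absurd m j]

theorem famStmt (m1 : Mv1Stmt) (m2 : Mv2Stmt) (m3 : Mv3Stmt) : FamStmt := by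
  intro P _ _ R _ car Y k U G V i X N hY h hX hN d
  obtain ⟨U₁, V₁, n⟩ := new m1 m2 m3 hY (h.mem i) hX hN
  have Y2 := tw_amb tw2 hY
  have dg : ∀ j, j ≠ i → Disjoint (mvG X (G i) N) (t2 ⁻¹' G j) := fun j a =>
    Set.disjoint_left.2 fun c b => b.elim (fun b => Set.disjoint_left.1 (h.dj i j a.symm) b.1)
      fun b => Set.disjoint_left.1 (d j a) (d_sub hN.toOpn b)
  refine ⟨fun j => if j = i then U₁ else t2 ⁻¹' U j, fun j => if j = i then V₁ else t2 ⁻¹' V j,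
    fun j => ?_, fun a b c => ?_, fun a b c => ?_⟩
  · split_ifs with e
    exacts [n.mem, tw_mem tw2 (h.mem j)]
  · split_ifs with e e' e'
    exacts [absurd (e.trans e'.symm) c, dg b e', (dg a e).symm, (h.dj a b c).preimage _]
  · have ns := nest hY (h.mem a) (h.mem b) (h.dj a b c)
    split_ifs with e e' e'
    · exact absurd (e.trans e'.symm) c
    · subst e
      intro s
      have s0 := n.sub _ (d b e') s
      obtain ⟨ζ, c1, c2⟩ := h.np a b c s0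
      obtain ⟨ζ', b1, b2, b3⟩ := n.bu (G b) _ ζ c1 (fun _ j => Or.inl (ns s0 j))
        (fun _ j => Or.inl (nest Y2 n.mem (tw_mem tw2 (h.mem b)) (dg b e') s j))
        fun _ j => ⟨Or.inl (s0 j), Or.inr j⟩
      exact ⟨ζ', b1, fun j => c2 (b2.trans (j.trans b3.symm))⟩
    · subst e'
      intro s
      obtain ⟨-, -, -, -, ⟨x, x1, -⟩, -⟩ := (m2 P X (G b) N
        (hX.elim (· ▸ two_rg (h.mem b).two hY.toRg (h.mem b).sub)
          (· ▸ two_rg (two_symm (h.mem b).two hY.up (h.mem b).sub) hY.toRg (h.mem b).sub))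
        (hX.elim (· ▸ (h.mem b).two.bd)
          (· ▸ (two_symm (h.mem b).two hY.up (h.mem b).sub).bd))).1 hN
      have s0 : G b ⊆ U a := side (h.mem a).two (h.mem b).sub (h.mem b).conn (h.dj a b c).symm x1.1
        (s (Or.inl x1))
      obtain ⟨ζ, c1, c2⟩ := h.np a b c s0
      obtain ⟨ζ', b1, b2, b3⟩ := n.bv (G a) (U a ∪ G a) ζ (Set.inter_comm _ _ ▸ c1)
        (fun _ j => Or.inl (s0 j)) (fun _ j => Or.inl (s j)) fun _ j => ⟨Or.inl (ns s0 j), Or.inr j⟩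
      exact ⟨ζ', Set.inter_comm _ _ ▸ b1, fun j => c2 (b3.trans (j.trans b2.symm))⟩
    · intro s
      have s0 : G b ⊆ U a := (Set.preimage_subset_preimage_iff
        (fun x _ => Desc.surj (tw2 (P := P)) x)).1 s
      obtain ⟨ζ, c1, c2⟩ := h.np a b c s0
      exact ⟨pb t2 ζ, cocOn_pb c1 t2_mono, fun j => c2
        ((tw_ex tw2 (cocOn_mono c1 fun _ j => ⟨Or.inr j, Or.inl (ns s0 j)⟩)).trans (j.trans
          (tw_ex tw2 (cocOn_mono c1 fun _ j => ⟨Or.inl (s0 j), Or.inr j⟩)).symm))⟩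

end Crest.Agent.X212.Sm10.Mv
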