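import Crest.Agent.X212.Inn9.Inn
import Crest.Agent.X212.Hp13.E1c
import Crest.Agent.X212.Sm10.Mv3c
import Crest.Agent.X212.Hbs46.Main
import Crest.Agent.X212.Mcg32.Push
import Crest.Agent.X212.Mcg32.Deg
import Crest.Agent.X212.Ind26.Birth
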